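import Crest.Agent.R300.Par

/-! Task ASYM: choice of the parameters (pure real analysis). -/

set_option autoImplicit false

namespace Crest.Agent.R300

open Filter Topology in
private theorem asym_theta (c' : ℝ) (h : c' < 1) : ∃ θ : ℝ, 1 < θ ∧ c' * θ ^ 5 < 1 := by
  have h1 : ContinuousAt (fun θ : ℝ => c' * θ ^ 5) 1 := by fun_prop
  have h2 : ∀ᶠ θ in 𝓝 (1 : ℝ), c' * θ ^ 5 < 1 :=
    h1.eventually_lt continuousAt_const (by simpa using h)
  obtain ⟨θ, h3, h4⟩ := ((h2.filter_mono nhdsWithin_le_nhds).and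
    (self_mem_nhdsWithin (a := (1 : ℝ)) (s := Set.Ioi 1))).exists
  exact ⟨θ, h4, h3⟩

private theorem asym_hH (h L k : ℕ) (hL : 6 ≤ L) (hk : 1 ≤ k) (hh : (k + 3) * L ≤ h) :
    10 * h * 2 ^ L * k ≤ 2 ^ h := by
  have h1 : 2 * (L + k + 4) ≤ h := by nlinarith
  obtain ⟨u, rfl⟩ : ∃ u, h = (u + 1) + (L + k + 4) := ⟨h - (L + k + 4) - 1, by omega⟩
  have h2 : u + 1 ≤ 2 ^ u := Nat.lt_two_pow_self
  have h3 : u + 1 + (L + k + 4) ≤ 2 ^ (u + 1) := by rw [pow_succ]; omega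
  have h4 : k ≤ 2 ^ k := Nat.lt_two_pow_self.le
  calc 10 * (u + 1 + (L + k + 4)) * 2 ^ L * k ≤ 2 ^ 4 * 2 ^ (u + 1) * 2 ^ L * 2 ^ k := by
        gcongr; norm_num
    _ = 2 ^ (u + 1 + (L + k + 4)) := by ring

open Filter Topology in
private theorem asym_L0 (θ g M : ℝ) (hθ : 1 < θ) (hg : 1 < g) (hM : 0 ≤ M) (A : ℕ) (hA : 2 ≤ A) :
    ∃ L0 : ℕ, ∀ L : ℕ, L0 ≤ L → 193 ≤ L ∧
      10 * A * ((L : ℝ) + 1) ≤ θ * (10 * A * L - 1 - 1672 * A) ∧
      2 * ((40 * A + 2) * (L : ℝ)) * (2 ^ 25 + ((540 + 20 * L) * (A * L) + 3) * L + M + 1)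
        ≤ g ^ L := by
  have hA' : (2 : ℝ) ≤ A := by exact_mod_cast hA
  set C : ℝ := 2 * (40 * A + 2) * (2 ^ 25 + (560 * A + 3) + M + 1) with hC
  have hC0 : 0 < C := by positivity
  have h1 : ∀ᶠ L : ℕ in atTop, (L : ℝ) ^ 4 / g ^ L < 1 / C :=
    (tendsto_pow_const_div_const_pow_of_one_lt 4 hg).eventually_lt_const (by positivity)
  have h2 : ∀ᶠ L : ℕ in atTop, (10 * A + θ * (1 + 1672 * A)) / (10 * A * (θ - 1)) ≤ (L : ℝ) :=
    tendsto_natCast_atTop_atTop.eventually_ge_atTop _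
  obtain ⟨L0, hL0⟩ := eventually_atTop.1 ((h1.and h2).and (eventually_ge_atTop 193))
  refine ⟨L0, fun L hL => ?_⟩
  obtain ⟨⟨a1, a2⟩, a3⟩ := hL0 L hL
  have hL1 : (1 : ℝ) ≤ L := by exact_mod_cast (by omega : 1 ≤ L)
  refine ⟨a3, ?_, ?_⟩
  · rw [div_le_iff₀ (by have : 0 < θ - 1 := by linarith
                        positivity)] at a2
    nlinarith
  · rw [div_lt_div_iff₀ (by positivity) hC0, one_mul] at a1
    refine le_trans ?_ a1.le
    have b1 : (1 : ℝ) ≤ (L : ℝ) ^ 3 := one_le_pow₀ hL1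
    have b2 : (L : ℝ) ≤ (L : ℝ) ^ 3 := le_self_pow₀ hL1 (by norm_num)
    have b3 : (L : ℝ) ^ 2 ≤ (L : ℝ) ^ 3 := pow_le_pow_right₀ hL1 (by norm_num)
    have b4 : 2 ^ 25 + ((540 + 20 * L) * (A * L) + 3) * L + M + 1 ≤
        (2 ^ 25 + (560 * A + 3) + M + 1) * (L : ℝ) ^ 3 := by
      nlinarith [mul_le_mul_of_nonneg_left b3 (by positivity : (0 : ℝ) ≤ 540 * A),
        mul_le_mul_of_nonneg_left b1 hM]
    calc 2 * ((40 * A + 2) * (L : ℝ)) * (2 ^ 25 + ((540 + 20 * L) * (A * L) + 3) * L + M + 1)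
        ≤ 2 * ((40 * A + 2) * (L : ℝ)) * ((2 ^ 25 + (560 * A + 3) + M + 1) * (L : ℝ) ^ 3) := by
          gcongr
      _ = (L : ℝ) ^ 4 * C := by rw [hC]; ring

private theorem asym_bb (A L : ℕ) (hA : 2 ≤ A) (hL : 193 ≤ L) :
    (L : ℝ) * (10 * A * L - 1 - 1672 * A) ≤ bb (A * L) L := by
  have h1 : 1 ≤ 10 * (A * L) := by nlinarith
  unfold bb
  rw [if_neg (by omega)]
  push_cast [Nat.cast_sub (by omega : 192 ≤ L), Nat.cast_sub h1]
  nlinarith

/-- `Y = q³ log n ≥ R`. Pick `ε > 0` with `c · 4 log 2 < (1-ε)^5`-like room, an integer `A ≥ 2` large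
(`A ≈ 1/ε`), `L = ⌊(1-ε) log₂ Y⌋`, `E = A L`, `k = (540 + 20L) E`,
`h = ⌊log₂(n/j) / (2^L (40E + 2L))⌋`. Since `2^L ≤ Y^(1-ε)` and `log n = Y/q³ ≥ Y`:
`h ≥ c_A Y^ε/(q³ L)`, which beats `2^25/q³`, `(k+3)L = O(L³)` and gives `10 h 2^L k ≤ 2^h`
(`h ≥ (k+3)L ≥ 2(L + k + 4)` and `h ≤ 2^(h/2)`) once `Y ≥ R`. Finally
`log (tt h L ^ bb E L) = h 2^L bb E L log 2 ≥ (1-ε) log(n/j) (L-192)(10E-1)/(40E+2L)`
`≥ (c + η) log Y · log n`, and `η log Y log n ≥ log (1/δ)` for `n ≥ N₀`, `Y ≥ R`. -/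
theorem asym (c : ℝ) (hc : 0 < c) (hc' : c < 1 / (4 * Real.log 2)) (j : ℕ) (hj : 1 ≤ j) (δ : ℝ)
    (hδ : 0 < δ) :
    ∃ (N₀ : ℕ) (R : ℝ), ∀ n ≥ N₀, ∀ q : ℝ, 0 < q → q < 1 → R ≤ q ^ 3 * Real.log n →
      ∃ h E L k : ℕ, Par q h E L k ∧ j * JJ h E L ≤ n ∧
        (n : ℝ) ^ (c * Real.log (q ^ 3 * Real.log n)) * (1 / (tt h L : ℝ) ^ bb E L) ≤ δ := by
  have hl2 : 0 < Real.log 2 := Real.log_pos (by norm_num)
  have hl2' : Real.log 2 ≤ 1 := by have := Real.log_two_lt_d9; linarith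
  obtain ⟨θ, hθ, hθc⟩ := asym_theta (c * (4 * Real.log 2))
    (by rwa [lt_div_iff₀ (by positivity)] at hc')
  have hθ1 : 0 < θ - 1 := by linarith
  obtain ⟨A, hA⟩ := exists_nat_ge (max 2 (2 / (40 * (θ - 1))))
  have hA2 : 2 ≤ A := by exact_mod_cast (le_max_left _ _).trans hA
  have hA2' : (2 : ℝ) ≤ A := by exact_mod_cast hA2
  have hAθ : 40 * (A : ℝ) + 2 ≤ θ * (40 * A) := by
    have := (le_max_right _ _).trans hA
    rw [div_le_iff₀ (by positivity)] at this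
    nlinarith
  set g := Real.exp ((θ - 1) * Real.log 2) with hg
  have hg1 : 1 < g := Real.one_lt_exp_iff.2 (by positivity)
  set M := θ / (θ - 1) with hM
  have hM0 : 0 ≤ M := by positivity
  have hMθ : M * (θ - 1) = θ := div_mul_cancel₀ _ hθ1.ne'
  obtain ⟨L0, hL0⟩ := asym_L0 θ g M hθ hg1 hM0 A hA2
  set η := (1 - c * (4 * Real.log 2) * θ ^ 5) / (4 * θ ^ 4) with hη
  have hη0 : 0 < η := div_pos (by linarith) (by positivity)
  have hj0 : (0 : ℝ) < j := by exact_mod_cast hj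
  have hlj : 0 ≤ Real.log j := Real.log_natCast_nonneg j
  obtain ⟨N₀, hN₀⟩ := Filter.eventually_atTop.1
    (((Real.tendsto_log_atTop.comp tendsto_natCast_atTop_atTop).eventually_ge_atTop
      (max (max (M * Real.log j) (2 * Real.log j)) (max (-Real.log δ / η) 1))).and
      (Filter.eventually_ge_atTop 1))
  refine ⟨N₀, Real.exp (θ * Real.log 2 * L0), fun n hn q hq0 hq1 hR => ?_⟩
  obtain ⟨hℓ, hn1⟩ := hN₀ n hn
  simp only [Function.comp, max_le_iff] at hℓ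
  obtain ⟨⟨hℓ1, hℓ2⟩, hℓ3, hℓ4⟩ := hℓ
  have hn0 : (0 : ℝ) < n := by exact_mod_cast hn1
  set ℓ := Real.log n with hℓd
  set Y := q ^ 3 * ℓ with hY
  have hY0 : 0 < Y := (Real.exp_pos _).trans_le hR
  have hlY : θ * Real.log 2 * L0 ≤ Real.log Y := (Real.le_log_iff_exp_le hY0).2 hR
  have hθl : 0 < θ * Real.log 2 := by positivity
  have hlY0 : 0 ≤ Real.log Y := le_trans (by positivity) hlY
  set L := ⌊Real.log Y / (θ * Real.log 2)⌋₊ with hL
  have hL1 : L0 ≤ L := Nat.le_floor (by rw [le_div_iff₀ hθl]; linarith)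
  have hL2 : (L : ℝ) * (θ * Real.log 2) ≤ Real.log Y := by
    rw [← le_div_iff₀ hθl]; exact Nat.floor_le (by positivity)
  have hL3 : Real.log Y ≤ ((L : ℝ) + 1) * (θ * Real.log 2) := by
    rw [← div_le_iff₀ hθl]; exact (Nat.lt_floor_add_one _).le
  obtain ⟨a1, a2, a3⟩ := hL0 L hL1
  have hL0' : (0 : ℝ) < L := by exact_mod_cast (by omega : 0 < L)
  have hYg : 2 ^ L * g ^ L ≤ Y := by
    rw [← Real.exp_log hY0, hg, ← Real.exp_log (by norm_num : (0 : ℝ) < 2), ← Real.exp_nat_mul,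
      ← Real.exp_nat_mul, ← Real.exp_add, Real.log_exp]
    exact Real.exp_le_exp.2 (by linarith)
  set W : ℝ := (40 * A + 2) * L with hW
  have hW0 : 0 < W := by positivity
  set T := (ℓ - Real.log j) / (Real.log 2 * 2 ^ L * W) with hT
  set h := ⌊T⌋₊ with hh
  set Z : ℝ := 2 ^ 25 + ((540 + 20 * L) * (A * L) + 3) * L + M + 1 with hZ
  have hq3 : 0 < q ^ 3 := by positivity
  have hq3' : q ^ 3 ≤ 1 := pow_le_one₀ hq0.le hq1.le
  have hTZ : Z ≤ T * q ^ 3 := by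
    rw [hT, div_mul_eq_mul_div, le_div_iff₀ (by positivity)]
    have b1 : Z * (Real.log 2 * 2 ^ L * W) ≤ Z * (1 * 2 ^ L * W) := by gcongr
    have b2 : 2 ^ L * (2 * W * Z) ≤ 2 ^ L * g ^ L := by gcongr
    have b3 : 2 * Real.log j * q ^ 3 ≤ ℓ * q ^ 3 := by gcongr
    nlinarith
  have hP0 : (0 : ℝ) ≤ ((540 + 20 * L) * (A * L) + 3) * L := by positivity
  have hT0 : 0 ≤ T := div_nonneg (by linarith) (by positivity)
  have hTZ' : Z ≤ T := hTZ.trans (mul_le_of_le_one_right hT0 hq3')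
  have hh1 : (h : ℝ) ≤ T := Nat.floor_le hT0
  have hh2 : T ≤ h + 1 := (Nat.lt_floor_add_one T).le
  have hk : ((540 + 20 * L) * (A * L) + 3) * L ≤ h := by
    have : (((540 + 20 * L) * (A * L) + 3) * L : ℝ) ≤ h := by
      have : (0 : ℝ) ≤ 2 ^ 25 := by positivity
      linarith
    exact_mod_cast this
  have hk1 : 1 ≤ (540 + 20 * L) * (A * L) :=
    Nat.mul_pos (by omega) (Nat.mul_pos (by omega) (by omega))
  refine ⟨h, A * L, L, (540 + 20 * L) * (A * L), ⟨hq0, hq1, ?_, by omega,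
    Nat.mul_le_mul_right L hA2, le_rfl, hk, asym_hH _ _ _ (by omega) hk1 hk⟩, ?_, ?_⟩
  · rw [div_le_iff₀ hq3]
    nlinarith [mul_le_mul_of_nonneg_right hh2 hq3.le]
  · have b1 : (h : ℝ) * (Real.log 2 * 2 ^ L * W) ≤ ℓ - Real.log j := by
      rw [← le_div_iff₀ (by positivity)]; exact hh1
    have b2 : ((j * JJ h (A * L) L : ℕ) : ℝ) =
        Real.exp (Real.log j + h * (Real.log 2 * 2 ^ L * W)) := by
      have e : (h : ℝ) * (Real.log 2 * 2 ^ L * W) =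
          ((h * 2 ^ L * jj (A * L) L : ℕ) : ℝ) * Real.log 2 := by
        unfold jj; push_cast; rw [hW]; ring
      rw [Real.exp_add, Real.exp_log hj0, e, Real.exp_nat_mul, Real.exp_log (by norm_num)]
      unfold JJ tt; push_cast; rw [← pow_mul]
    have b3 : ((j * JJ h (A * L) L : ℕ) : ℝ) ≤ n := by
      rw [b2, ← Real.exp_log hn0]
      exact Real.exp_le_exp.2 (by linarith)
    exact_mod_cast b3
  · set X : ℝ := h * (Real.log 2 * 2 ^ L) with hX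
    have hX0 : 0 ≤ X := by positivity
    set B : ℝ := (bb (A * L) L : ℝ) with hB
    have hB0 : 0 ≤ B := Nat.cast_nonneg _
    have b1 : (tt h L : ℝ) ^ bb (A * L) L = Real.exp (X * B) := by
      have e : X * B = ((h * 2 ^ L * bb (A * L) L : ℕ) : ℝ) * Real.log 2 := by
        push_cast; rw [hX, hB]; ring
      rw [e, Real.exp_nat_mul, Real.exp_log (by norm_num)]
      unfold tt; push_cast; rw [← pow_mul]
    have b2 : T ≤ θ * h := by
      have : M ≤ T := by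
        have : (0 : ℝ) ≤ 2 ^ 25 := by positivity
        linarith
      have e1 := mul_le_mul_of_nonneg_right this hθ1.le
      have e2 := mul_le_mul_of_nonneg_left hh2 (by linarith : 0 ≤ θ)
      linarith
    have b3 : ℓ - Real.log j ≤ θ * X * W := by
      rw [hT, div_le_iff₀ (by positivity)] at b2
      rw [hX]; linarith
    have b4 : ℓ ≤ θ * (ℓ - Real.log j) := by
      have e1 := mul_le_mul_of_nonneg_right hℓ1 hθ1.le
      have e2 : M * Real.log j * (θ - 1) = θ * Real.log j := by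
        rw [mul_right_comm, hMθ]
      linarith
    have b5 : W ≤ θ * (40 * A) * L := by rw [hW]; gcongr
    have b6 : 10 * A * L * ((L : ℝ) + 1) ≤ θ * B := by
      have := asym_bb A L hA2 a1
      linarith [mul_le_mul_of_nonneg_left a2 hL0'.le,
        mul_le_mul_of_nonneg_left this (by linarith : 0 ≤ θ)]
    have b7 : ℓ ≤ θ * (θ * X * (θ * (40 * A) * L)) := by
      refine b4.trans (mul_le_mul_of_nonneg_left (b3.trans ?_) (by linarith))
      gcongr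
    have b8 : ℓ * (10 * A * L * ((L : ℝ) + 1)) ≤ (θ * (θ * X * (θ * (40 * A) * L))) * (θ * B) :=
      mul_le_mul b7 b6 (by positivity) (by positivity)
    have b9 : ℓ * ((L : ℝ) + 1) ≤ 4 * θ ^ 4 * (X * B) := by
      have e : (0 : ℝ) < 10 * A * L := by positivity
      refine le_of_mul_le_mul_left ?_ e
      linarith
    have b10 : η * (4 * θ ^ 4) = 1 - c * (4 * Real.log 2) * θ ^ 5 :=
      div_mul_cancel₀ _ (by positivity)
    have b11 : -Real.log δ ≤ ℓ * η := by rwa [div_le_iff₀ hη0] at hℓ3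
    have b12 : ℓ * (c * Real.log Y) ≤ ℓ * (c * (((L : ℝ) + 1) * (θ * Real.log 2))) := by
      gcongr
    have b13 : ℓ * η ≤ ℓ * ((L : ℝ) + 1) * η := by
      have : ℓ * 1 ≤ ℓ * ((L : ℝ) + 1) :=
        mul_le_mul_of_nonneg_left (by linarith) (by linarith)
      linarith [mul_le_mul_of_nonneg_right this hη0.le]
    have b14 : ℓ * (c * (((L : ℝ) + 1) * (θ * Real.log 2))) + ℓ * ((L : ℝ) + 1) * η ≤ X * B := by
      have e : (0 : ℝ) < 4 * θ ^ 4 := by positivity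
      refine le_of_mul_le_mul_left ?_ e
      have : 4 * θ ^ 4 * (ℓ * (c * (((L : ℝ) + 1) * (θ * Real.log 2))) + ℓ * ((L : ℝ) + 1) * η) =
          ℓ * ((L : ℝ) + 1) * (c * (4 * Real.log 2) * θ ^ 5 + η * (4 * θ ^ 4)) := by ring
      rw [this, b10]; linarith
    rw [b1, Real.rpow_def_of_pos hn0, one_div, ← Real.exp_neg, ← Real.exp_add,
      ← Real.exp_log hδ]
    exact Real.exp_le_exp.2 (by linarith)

end Crest.Agent.R300
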