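import Crest.Agent.R300.Basic

/-! Task POLY: norms of coefficient vectors, binomial laws, Thue-Morse. No `Dom` here. -/

set_option autoImplicit false

namespace Crest.Agent.R300

open Polynomial

theorem n1_add_le (f g : ℝ[X]) : n1 (f + g) ≤ n1 f + n1 g := by
  classical
  rw [n1_eq_sum (f + g) (f.support ∪ g.support) support_add,
    n1_eq_sum f (f.support ∪ g.support) Finset.subset_union_left,
    n1_eq_sum g (f.support ∪ g.support) Finset.subset_union_right, ← Finset.sum_add_distrib]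
  exact Finset.sum_le_sum fun i _ => by rw [coeff_add]; exact abs_add_le _ _

theorem n1_zero : n1 0 = 0 := by simp [n1]

theorem n1_sum_le {ι : Type*} (T : Finset ι) (f : ι → ℝ[X]) :
    n1 (∑ i ∈ T, f i) ≤ ∑ i ∈ T, n1 (f i) := by
  classical
  induction T using Finset.induction_on with
  | empty => simp [n1_zero]
  | insert i T hi ih =>
    rw [Finset.sum_insert hi, Finset.sum_insert hi]
    exact (n1_add_le _ _).trans (by linarith)

theorem support_X_pow_mul (u : ℕ) (e : ℝ[X]) :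
    (X ^ u * e).support ⊆ e.support.map (addRightEmbedding u) := fun i hi => by
  rw [mem_support_iff, coeff_X_pow_mul'] at hi
  split_ifs at hi with h
  · exact Finset.mem_map.2 ⟨i - u, mem_support_iff.2 hi, by simp; omega⟩
  · exact absurd rfl hi

theorem nsq_X_pow_mul (u : ℕ) (e : ℝ[X]) : nsq (X ^ u * e) = nsq e := by
  rw [nsq_eq_sum _ _ (support_X_pow_mul u e), Finset.sum_map, nsq_eq_sum e _ subset_rfl]
  exact Finset.sum_congr rfl fun i _ => by simp [coeff_X_pow_mul]

theorem n1_X_pow_mul (u : ℕ) (e : ℝ[X]) : n1 (X ^ u * e) = n1 e := by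
  rw [n1_eq_sum _ _ (support_X_pow_mul u e), Finset.sum_map, n1_eq_sum e _ subset_rfl]
  exact Finset.sum_congr rfl fun i _ => by simp [coeff_X_pow_mul]

theorem support_C_mul_subset (c : ℝ) (e : ℝ[X]) : (C c * e).support ⊆ e.support := fun i hi => by
  rw [mem_support_iff, coeff_C_mul] at hi
  exact mem_support_iff.2 (right_ne_zero_of_mul hi)

theorem n1_C_mul (c : ℝ) (e : ℝ[X]) : n1 (C c * e) = |c| * n1 e := by
  rw [n1_eq_sum _ _ (support_C_mul_subset c e), n1_eq_sum e _ subset_rfl, Finset.mul_sum]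
  exact Finset.sum_congr rfl fun i _ => by rw [coeff_C_mul, abs_mul]

theorem mul_eq_sum (f g : ℝ[X]) : f * g = ∑ i ∈ f.support, C (f.coeff i) * (X ^ i * g) := by
  conv_lhs => rw [f.as_sum_support_C_mul_X_pow, Finset.sum_mul]
  exact Finset.sum_congr rfl fun i _ => mul_assoc _ _ _

theorem n1_mul_le (f g : ℝ[X]) : n1 (f * g) ≤ n1 f * n1 g := by
  rw [mul_eq_sum]
  refine (n1_sum_le _ _).trans (le_of_eq ?_)
  rw [n1_eq_sum f _ subset_rfl, Finset.sum_mul]
  exact Finset.sum_congr rfl fun i _ => by rw [n1_C_mul, n1_X_pow_mul]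

theorem sum_sq_le_nsq (e : ℝ[X]) (s : Finset ℕ) : ∑ i ∈ s, e.coeff i ^ 2 ≤ nsq e := by
  classical
  rw [nsq_eq_sum e (s ∪ e.support) Finset.subset_union_right]
  exact Finset.sum_le_sum_of_subset_of_nonneg Finset.subset_union_left fun _ _ _ => sq_nonneg _

theorem sum_abs_le_n1 (e : ℝ[X]) (s : Finset ℕ) : ∑ i ∈ s, |e.coeff i| ≤ n1 e := by
  classical
  rw [n1_eq_sum e (s ∪ e.support) Finset.subset_union_right]
  exact Finset.sum_le_sum_of_subset_of_nonneg Finset.subset_union_left fun _ _ _ => abs_nonneg _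

/-- Young's inequality (expand `f` into monomials, Minkowski / Cauchy-Schwarz with weights `|f_i|`) -/
theorem nsq_mul_le (f g : ℝ[X]) : nsq (f * g) ≤ n1 f ^ 2 * nsq g := by
  rw [nsq_eq_sum (f * g) _ subset_rfl]
  have h1 : ∀ n, (f * g).coeff n ^ 2 ≤
      n1 f * ∑ i ∈ f.support, |f.coeff i| * (X ^ i * g).coeff n ^ 2 := fun n => by
    rw [mul_eq_sum, finsetSum_coeff, n1_eq_sum f _ subset_rfl]
    refine Finset.sum_sq_le_sum_mul_sum_of_sq_le_mul _ (fun i _ => abs_nonneg _)
      (fun i _ => mul_nonneg (abs_nonneg _) (sq_nonneg _)) fun i _ => le_of_eq ?_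
    rw [coeff_C_mul, mul_pow, ← sq_abs (f.coeff i)]; ring
  refine (Finset.sum_le_sum fun n _ => h1 n).trans ?_
  rw [← Finset.mul_sum, Finset.sum_comm, sq, mul_assoc]
  refine mul_le_mul_of_nonneg_left ?_ (n1_nonneg f)
  rw [n1_eq_sum f _ subset_rfl, Finset.sum_mul]
  refine Finset.sum_le_sum fun i _ => ?_
  rw [← Finset.mul_sum]
  exact mul_le_mul_of_nonneg_left ((sum_sq_le_nsq _ _).trans (nsq_X_pow_mul i g).le)
    (abs_nonneg _)

theorem n1_sq_le (e : ℝ[X]) (s : Finset ℕ) (hs : e.support ⊆ s) : n1 e ^ 2 ≤ s.card * nsq e := by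
  rw [n1_eq_sum e s hs, nsq_eq_sum e s hs]
  refine sq_sum_le_card_mul_sum_sq.trans (le_of_eq ?_)
  simp only [sq_abs]

theorem bin_zero : bin 0 = 1 := pow_zero _

theorem bin_add (a b : ℕ) : bin (a + b) = bin a * bin b := pow_add _ _ _

theorem bin_one : bin 1 = C (1 / 2 : ℝ) * (1 + X) := pow_one _

theorem bin_coeff (h s : ℕ) : (bin h).coeff s = (h.choose s : ℝ) / 2 ^ h := by
  unfold bin
  rw [mul_pow, ← C_pow, coeff_C_mul, coeff_one_add_X_pow]
  simp [div_eq_mul_inv, mul_comm]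

theorem bin_coeff_nonneg (h s : ℕ) : 0 ≤ (bin h).coeff s := by
  rw [bin_coeff]; positivity

theorem bin_eval (h : ℕ) (x : ℝ) : (bin h).eval x = ((1 + x) / 2) ^ h := by
  simp [bin, eval_pow]; congr 1; ring

theorem bin_eval_one (h : ℕ) : (bin h).eval 1 = 1 := by
  rw [bin_eval]; norm_num

theorem bin_supp (h : ℕ) : Supp (bin h) 0 h := fun i hi => by
  refine ⟨Nat.zero_le _, ?_⟩
  by_contra hn
  exact hi (by rw [bin_coeff, Nat.choose_eq_zero_of_lt (by omega)]; simp)

theorem Supp.support_subset {e : ℝ[X]} {lo hi : ℕ} (h : Supp e lo hi) :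
    e.support ⊆ Finset.range (hi + 1) := fun i hi' =>
  Finset.mem_range.2 (Nat.lt_succ_of_le (h i (mem_support_iff.1 hi')).2)

theorem eval_eq_sum_of_subset (e : ℝ[X]) (s : Finset ℕ) (hs : e.support ⊆ s) (x : ℝ) :
    e.eval x = ∑ i ∈ s, e.coeff i * x ^ i := by
  rw [eval_eq_sum]
  exact Polynomial.sum_eq_of_subset _ (by simp) hs

theorem bin_sum (h : ℕ) (x : ℝ) :
    ∑ i ∈ Finset.range (h + 1), (bin h).coeff i * x ^ i = ((1 + x) / 2) ^ h := by
  rw [← eval_eq_sum_of_subset _ _ (bin_supp h).support_subset, bin_eval]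

theorem n1_bin (h : ℕ) : n1 (bin h) = 1 := by
  rw [n1_eq_sum _ _ (bin_supp h).support_subset]
  have := bin_sum h 1
  simp only [one_pow, mul_one] at this
  rw [show ((1 + 1 : ℝ) / 2) = 1 by norm_num, one_pow] at this
  rw [← this]
  exact Finset.sum_congr rfl fun i _ => abs_of_nonneg (bin_coeff_nonneg h i)

theorem bin_succ_coeff_zero (h : ℕ) : (bin (h + 1)).coeff 0 = (bin h).coeff 0 / 2 := by
  rw [bin_coeff, bin_coeff]; simp [pow_succ]; ring

theorem bin_succ_coeff_succ (h s : ℕ) :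
    (bin (h + 1)).coeff (s + 1) = ((bin h).coeff s + (bin h).coeff (s + 1)) / 2 := by
  rw [bin_coeff, bin_coeff, bin_coeff, Nat.choose_succ_succ']
  push_cast; field_simp; ring

theorem bin_expect_succ (h : ℕ) (f : ℕ → ℝ) :
    ∑ i ∈ Finset.range (h + 2), (bin (h + 1)).coeff i * f i =
      ∑ i ∈ Finset.range (h + 1), (bin h).coeff i * ((f i + f (i + 1)) / 2) := by
  have h0 : (bin h).coeff (h + 1) = 0 := by
    rw [bin_coeff, Nat.choose_eq_zero_of_lt (by omega)]; simp
  have h1 : ∑ i ∈ Finset.range (h + 2), (bin h).coeff i * f i =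
      ∑ i ∈ Finset.range (h + 1), (bin h).coeff i * f i := by
    rw [Finset.sum_range_succ, h0]; simp
  rw [Finset.sum_range_succ' (fun i => (bin h).coeff i * f i)] at h1
  rw [Finset.sum_range_succ', bin_succ_coeff_zero]
  simp only [bin_succ_coeff_succ]
  have e1 : ∑ i ∈ Finset.range (h + 1), ((bin h).coeff i + (bin h).coeff (i + 1)) / 2 * f (i + 1) =
      (∑ i ∈ Finset.range (h + 1), (bin h).coeff i * f (i + 1)) / 2 +
        (∑ i ∈ Finset.range (h + 1), (bin h).coeff (i + 1) * f (i + 1)) / 2 := by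
    rw [Finset.sum_div, Finset.sum_div, ← Finset.sum_add_distrib]
    exact Finset.sum_congr rfl fun i _ => by ring
  have e2 : ∑ i ∈ Finset.range (h + 1), (bin h).coeff i * ((f i + f (i + 1)) / 2) =
      (∑ i ∈ Finset.range (h + 1), (bin h).coeff i * f i) / 2 +
        (∑ i ∈ Finset.range (h + 1), (bin h).coeff i * f (i + 1)) / 2 := by
    rw [Finset.sum_div, Finset.sum_div, ← Finset.sum_add_distrib]
    exact Finset.sum_congr rfl fun i _ => by ring
  rw [e1, e2]; linarith

theorem bin_total (h : ℕ) : ∑ i ∈ Finset.range (h + 1), (bin h).coeff i = 1 := by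
  have := bin_sum h 1
  simp only [one_pow, mul_one] at this
  rw [this]; norm_num

theorem bin_var (h : ℕ) :
    ∑ i ∈ Finset.range (h + 1), (bin h).coeff i * ((h : ℝ) - 2 * i) ^ 2 = (h : ℝ) := by
  induction h with
  | zero => simp
  | succ h ih =>
    rw [bin_expect_succ h fun i => (((h + 1 : ℕ) : ℝ) - 2 * i) ^ 2]
    have e : ∀ i : ℕ, (bin h).coeff i * (((((h + 1 : ℕ) : ℝ) - 2 * i) ^ 2 +
        (((h + 1 : ℕ) : ℝ) - 2 * ((i + 1 : ℕ) : ℝ)) ^ 2) / 2) =
        (bin h).coeff i * ((h : ℝ) - 2 * i) ^ 2 + (bin h).coeff i := fun i => by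
      push_cast; ring
    simp only [e]
    rw [Finset.sum_add_distrib, ih, bin_total]; push_cast; ring

theorem bin_diff_coeff (h k : ℕ) :
    (bin h * (1 - X)).coeff k = 2 * ((h + 1 : ℝ) - 2 * k) / (h + 1) * (bin (h + 1)).coeff k := by
  have hh : (h + 1 : ℝ) ≠ 0 := by positivity
  rw [mul_sub, mul_one, coeff_sub]
  cases k with
  | zero => rw [mul_coeff_zero, coeff_X_zero, bin_succ_coeff_zero]; field_simp; simp
  | succ j =>
    rw [coeff_mul_X, bin_coeff, bin_coeff, bin_coeff]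
    have e1 : ((h + 1 : ℝ)) * (h.choose j : ℝ) = ((h + 1).choose (j + 1) : ℝ) * (j + 1) := by
      exact_mod_cast Nat.add_one_mul_choose_eq h j
    have e2 : ((h + 1).choose (j + 1) : ℝ) = h.choose j + h.choose (j + 1) := by
      exact_mod_cast Nat.choose_succ_succ' h j
    push_cast
    field_simp
    rw [pow_succ]
    have e3 : (h.choose (j + 1) : ℝ) = ((h + 1).choose (j + 1) : ℝ) - h.choose j := by linarith
    rw [e3]
    linear_combination (-4 * 2 ^ h) * e1

theorem n1_bin_mul_one (h : ℕ) : n1 (bin h * (1 - X)) ≤ 2 / √(h + 1) := by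
  have hh : (0 : ℝ) < h + 1 := by positivity
  have hs : (bin h * (1 - X)).support ⊆ Finset.range (h + 2) := fun i hi => by
    rw [mem_support_iff, bin_diff_coeff] at hi
    exact (bin_supp (h + 1)).support_subset (mem_support_iff.2 (right_ne_zero_of_mul hi))
  rw [n1_eq_sum _ _ hs]
  have e : ∀ k, |(bin h * (1 - X)).coeff k| =
      2 / (h + 1) * ((bin (h + 1)).coeff k * |(h + 1 : ℝ) - 2 * k|) := fun k => by
    rw [bin_diff_coeff, abs_mul, abs_div, abs_mul, abs_of_pos hh,
      abs_of_nonneg (bin_coeff_nonneg _ _), abs_two]; ring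
  simp only [e]
  rw [← Finset.mul_sum]
  have h1 : (∑ k ∈ Finset.range (h + 2), (bin (h + 1)).coeff k * |(h + 1 : ℝ) - 2 * k|) ^ 2 ≤
      (∑ k ∈ Finset.range (h + 2), (bin (h + 1)).coeff k) *
        ∑ k ∈ Finset.range (h + 2), (bin (h + 1)).coeff k * (((h + 1 : ℕ) : ℝ) - 2 * k) ^ 2 :=
    Finset.sum_sq_le_sum_mul_sum_of_sq_le_mul _ (fun i _ => bin_coeff_nonneg _ _)
      (fun i _ => mul_nonneg (bin_coeff_nonneg _ _) (sq_nonneg _)) fun i _ => le_of_eq (by
        rw [mul_pow, sq_abs]; push_cast; ring)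
  rw [bin_total (h + 1), bin_var (h + 1), one_mul] at h1
  have h2 := (le_abs_self _).trans (Real.abs_le_sqrt h1)
  push_cast at h2
  have h3 : 0 < √((h : ℝ) + 1) := Real.sqrt_pos.2 hh
  calc _ ≤ 2 / (h + 1) * √((h : ℝ) + 1) := mul_le_mul_of_nonneg_left h2 (by positivity)
    _ = 2 / √(h + 1) := by
      field_simp
      exact Real.sq_sqrt hh.le

theorem n1_X_pow (u : ℕ) : n1 (X ^ u) = 1 := by
  unfold n1
  rw [X_pow_eq_monomial, Polynomial.sum_monomial_index] <;> simp

/-- `C(h,k) - C(h,k-1) = C(h+1,k) (h+1-2k)/(h+1)`, and `E|h+1-2K| ≤ √(E (h+1-2K)²) = √(h+1)` for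
`K ~ Bin(h+1,1/2)`; then `1 - X^u = (1 - X)(1 + X + ... + X^(u-1))`. -/
theorem n1_bin_mul (h u : ℕ) : n1 (bin h * (1 - X ^ u)) ≤ 2 * u / √(h + 1) := by
  have e : bin h * (1 - X ^ u) = (bin h * (1 - X)) * ∑ i ∈ Finset.range u, (X : ℝ[X]) ^ i := by
    rw [mul_assoc, mul_neg_geom_sum]
  have h1 : n1 (∑ i ∈ Finset.range u, (X : ℝ[X]) ^ i) ≤ u :=
    (n1_sum_le _ _).trans (by simp [n1_X_pow])
  rw [e]
  refine (n1_mul_le _ _).trans ?_
  calc _ ≤ 2 / √(h + 1) * u := mul_le_mul (n1_bin_mul_one h) h1 (n1_nonneg _) (by positivity)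
    _ = _ := by ring

/-- a coefficient is a partial sum of the coefficients of `bin h * (1 - X)`, whose total is `0` -/
theorem bin_coeff_le (h s : ℕ) : (bin h).coeff s ≤ 1 / √(h + 1) := by
  have hp : ∀ s, (bin h).coeff s = ∑ k ∈ Finset.range (s + 1), (bin h * (1 - X)).coeff k := by
    intro s
    induction s with
    | zero => simp [mul_sub]
    | succ s ih =>
      rw [Finset.sum_range_succ, ← ih, mul_sub, mul_one, coeff_sub, coeff_mul_X]; ring
  have h0 : (bin h).coeff (s + h + 1) = 0 := by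
    rw [bin_coeff, Nat.choose_eq_zero_of_lt (by omega)]; simp
  have h1 := hp (s + h + 1)
  rw [h0, show s + h + 1 + 1 = (s + 1) + (h + 1) by ring, Finset.sum_range_add, ← hp s] at h1
  have h2 := sum_abs_le_n1 (bin h * (1 - X)) (Finset.range ((s + 1) + (h + 1)))
  rw [Finset.sum_range_add] at h2
  have h3 : (bin h).coeff s ≤ ∑ k ∈ Finset.range (s + 1), |(bin h * (1 - X)).coeff k| := by
    rw [hp s]; exact Finset.sum_le_sum fun k _ => le_abs_self _
  have h4 : -∑ k ∈ Finset.range (h + 1), (bin h * (1 - X)).coeff (s + 1 + k) ≤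
      ∑ k ∈ Finset.range (h + 1), |(bin h * (1 - X)).coeff (s + 1 + k)| := by
    rw [← Finset.sum_neg_distrib]; exact Finset.sum_le_sum fun k _ => neg_le_abs _
  have h5 := n1_bin_mul_one h
  have : (2 : ℝ) / √(h + 1) = 2 * (1 / √(h + 1)) := by ring
  linarith

theorem nsq_bin (h : ℕ) : nsq (bin h) ≤ 1 / √(h + 1) := by
  rw [nsq_eq_sum _ _ (bin_supp h).support_subset]
  calc _ ≤ ∑ i ∈ Finset.range (h + 1), 1 / √(h + 1) * (bin h).coeff i :=
        Finset.sum_le_sum fun i _ => by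
          rw [sq]; exact mul_le_mul_of_nonneg_right (bin_coeff_le h i) (bin_coeff_nonneg h i)
    _ = _ := by rw [← Finset.mul_sum, bin_total, mul_one]

theorem bin_mgf (r : ℕ) (l : ℝ) :
    ∑ s ∈ Finset.range (r + 1), (bin r).coeff s * Real.exp (l * (s - r / 2)) ≤
      Real.exp (l ^ 2 * r / 8) := by
  have e : ∀ s : ℕ, (bin r).coeff s * Real.exp (l * (s - r / 2)) =
      Real.exp (-(l / 2)) ^ r * ((bin r).coeff s * Real.exp l ^ s) := fun s => by
    rw [← Real.exp_nat_mul, ← Real.exp_nat_mul, mul_left_comm, ← Real.exp_add]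
    congr 2; ring
  simp only [e]
  rw [← Finset.mul_sum, bin_sum, ← mul_pow]
  have h1 : Real.exp (-(l / 2)) * ((1 + Real.exp l) / 2) = Real.cosh (l / 2) := by
    rw [Real.cosh_eq]
    have : Real.exp (-(l / 2)) * Real.exp l = Real.exp (l / 2) := by
      rw [← Real.exp_add]; congr 1; ring
    rw [← this]; ring
  rw [h1]
  calc Real.cosh (l / 2) ^ r ≤ Real.exp ((l / 2) ^ 2 / 2) ^ r :=
        pow_le_pow_left₀ (Real.cosh_pos _).le (Real.cosh_le_exp_half_sq _) _
    _ = _ := by rw [← Real.exp_nat_mul]; congr 1; ring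

/-- Hoeffding (`Real.cosh_le_exp_half_sq`, evaluate `bin r` at `exp (±λ)`, `λ = 4R/r`);
`s + R < r/2` or `r/2 + R < s` (natural division) forces `|s - r/2| ≥ R` (real half). -/
theorem bin_tail (r R : ℕ) (hr : 0 < r) :
    ∑ s ∈ (Finset.range (r + 1)).filter (fun s => s + R < r / 2 ∨ r / 2 + R < s),
      (bin r).coeff s ≤ 2 * Real.exp (-(2 * (R : ℝ) ^ 2 / r)) := by
  have hr' : (0 : ℝ) < r := by exact_mod_cast hr
  set l : ℝ := 4 * R / r with hl
  have hl0 : 0 ≤ l := by positivity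
  have h1 : ∑ s ∈ (Finset.range (r + 1)).filter (fun s => s + R < r / 2 ∨ r / 2 + R < s),
      (bin r).coeff s ≤ ∑ s ∈ Finset.range (r + 1), Real.exp (-(l * R)) *
        ((bin r).coeff s * Real.exp (l * (s - r / 2)) +
          (bin r).coeff s * Real.exp (-l * (s - r / 2))) := by
    refine le_trans (Finset.sum_le_sum fun s hs => ?_)
      (Finset.sum_le_sum_of_subset_of_nonneg (Finset.filter_subset _ _) fun s _ _ => by
        have := bin_coeff_nonneg r s; positivity)
    have hc := bin_coeff_nonneg r s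
    have key : 1 ≤ Real.exp (-(l * R)) * (Real.exp (l * (s - r / 2)) +
        Real.exp (-l * (s - r / 2))) := by
      rw [mul_add, ← Real.exp_add, ← Real.exp_add]
      have ha : (2 * ((r / 2 : ℕ) : ℝ)) ≤ r := by exact_mod_cast Nat.mul_div_le r 2
      have hb : (r : ℝ) ≤ 2 * ((r / 2 : ℕ) : ℝ) + 1 := by
        have : r ≤ 2 * (r / 2) + 1 := by omega
        exact_mod_cast this
      rcases (Finset.mem_filter.1 hs).2 with h | h
      · have h' : (s : ℝ) + R + 1 ≤ ((r / 2 : ℕ) : ℝ) := by exact_mod_cast h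
        have : 0 ≤ -(l * R) + -l * (s - r / 2) := by nlinarith
        linarith [Real.add_one_le_exp (-(l * R) + -l * (s - r / 2)),
          Real.exp_pos (-(l * R) + l * (s - r / 2))]
      · have h' : ((r / 2 : ℕ) : ℝ) + R + 1 ≤ s := by exact_mod_cast h
        have : 0 ≤ -(l * R) + l * (s - r / 2) := by nlinarith
        linarith [Real.add_one_le_exp (-(l * R) + l * (s - r / 2)),
          Real.exp_pos (-(l * R) + -l * (s - r / 2))]
    calc (bin r).coeff s = (bin r).coeff s * 1 := (mul_one _).symm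
      _ ≤ (bin r).coeff s * (Real.exp (-(l * R)) * (Real.exp (l * (s - r / 2)) +
        Real.exp (-l * (s - r / 2)))) := mul_le_mul_of_nonneg_left key hc
      _ = _ := by ring
  refine h1.trans ?_
  rw [← Finset.mul_sum, Finset.sum_add_distrib]
  have h2 := bin_mgf r l
  have h3 := bin_mgf r (-l)
  rw [neg_sq] at h3
  calc _ ≤ Real.exp (-(l * R)) * (2 * Real.exp (l ^ 2 * r / 8)) :=
        mul_le_mul_of_nonneg_left (by linarith) (Real.exp_pos _).le
    _ = _ := by
      rw [mul_left_comm, ← Real.exp_add]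
      congr 2
      rw [hl]; field_simp; ring

theorem Supp.mono {e : ℝ[X]} {a b a' b' : ℕ} (h : Supp e a b) (ha : a' ≤ a) (hb : b ≤ b') :
    Supp e a' b' := fun i hi => ⟨ha.trans (h i hi).1, (h i hi).2.trans hb⟩

theorem Supp.mul {e f : ℝ[X]} {a b c d : ℕ} (he : Supp e a b) (hf : Supp f c d) :
    Supp (e * f) (a + c) (b + d) := fun i hi => by
  rw [coeff_mul] at hi
  obtain ⟨x, hx, hne⟩ := Finset.exists_ne_zero_of_sum_ne_zero hi
  have h1 := he _ (left_ne_zero_of_mul hne)
  have h2 := hf _ (right_ne_zero_of_mul hne)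
  have h3 := Finset.HasAntidiagonal.mem_antidiagonal.1 hx
  omega

theorem supp_X_pow (u : ℕ) : Supp (X ^ u) u u := fun i hi => by
  rw [coeff_X_pow] at hi
  split_ifs at hi with h
  · omega
  · exact absurd rfl hi

theorem supp_one_sub_X_pow (u : ℕ) : Supp (1 - X ^ u) 0 u := fun i hi => by
  refine ⟨Nat.zero_le _, ?_⟩
  by_contra hn
  apply hi
  rw [coeff_sub, coeff_one, coeff_X_pow, if_neg (by omega), if_neg (by omega), sub_zero]

theorem Supp.exists_shift {e : ℝ[X]} {lo hi a : ℕ} (h : Supp e lo hi) (ha : a ≤ lo) :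
    ∃ e' : ℝ[X], e = X ^ a * e' ∧ Supp e' (lo - a) (hi - a) := by
  have : X ^ a ∣ e := X_pow_dvd_iff.2 fun d hd => by
    by_contra hn
    have := h d hn
    omega
  obtain ⟨e', rfl⟩ := this
  refine ⟨e', rfl, fun i hi' => ?_⟩
  have := h (i + a) (by rwa [coeff_X_pow_mul])
  omega

theorem tm_length (k : ℕ) : (tm k).length = 2 ^ k := by
  induction k with
  | zero => rfl
  | succ k ih => simp [tm, ih, pow_succ]; ring

theorem tm_ne (k : ℕ) : tm k ≠ (tm k).map not := by
  have h := tm_length k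
  rcases hl : tm k with _ | ⟨a, l⟩
  · rw [hl] at h; simp at h; exact absurd h.symm (by positivity)
  · simp

theorem sgnPoly_supp' (l : List Bool) : ∀ i, (sgnPoly l).coeff i ≠ 0 → i < l.length := by
  induction l with
  | nil => simp [sgnPoly]
  | cons a l ih =>
    intro i hi
    cases i with
    | zero => simp
    | succ i =>
      rw [sgnPoly, coeff_add, coeff_C_succ, coeff_X_mul, zero_add] at hi
      simpa using ih i hi

theorem sgnPoly_supp (l : List Bool) : Supp (sgnPoly l) 0 (l.length - 1) := fun i hi =>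
  ⟨Nat.zero_le _, by have := sgnPoly_supp' l i hi; omega⟩

theorem sgnPoly_append (l l' : List Bool) :
    sgnPoly (l ++ l') = sgnPoly l + X ^ l.length * sgnPoly l' := by
  induction l with
  | nil => simp [sgnPoly]
  | cons a l ih => simp only [List.cons_append, sgnPoly, ih, List.length_cons]; ring

theorem sgnPoly_not (l : List Bool) : sgnPoly (l.map not) = -sgnPoly l := by
  induction l with
  | nil => simp [sgnPoly]
  | cons a l ih => cases a <;> simp [sgnPoly, ih] <;> ring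

theorem sgnPoly_tm (k : ℕ) : sgnPoly (tm k) = tmP k := by
  induction k with
  | zero => simp [tm, sgnPoly, tmP]
  | succ k ih =>
    rw [tm, sgnPoly_append, sgnPoly_not, ih, tm_length]
    unfold tmP
    rw [Finset.prod_range_succ]; ring

theorem tmP_supp (k : ℕ) : Supp (tmP k) 0 (2 ^ k - 1) := by
  have := sgnPoly_supp (tm k)
  rwa [sgnPoly_tm, tm_length] at this

/-- supersolution inequalities used with `smooth` -/
theorem super_inv {c x : ℝ} (hc0 : 0 ≤ c) (hc1 : c ≤ 1) (hx : 1 ≤ x) :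
    c * (1 / (x + 1)) + (1 - c) * (1 / x) ≤ 1 / (x + c / 2) := by
  have h1 : 0 < x := by linarith
  have e : c * (1 / (x + 1)) + (1 - c) * (1 / x) = (x + 1 - c) / (x * (x + 1)) := by
    field_simp; ring
  rw [e, div_le_div_iff₀ (by positivity) (by positivity)]
  nlinarith [mul_nonneg hc0 (show 0 ≤ x - (1 - c) by linarith)]

/-- from `super_inv` by concavity of `√` -/
theorem super_inv_sqrt {c x : ℝ} (hc0 : 0 ≤ c) (hc1 : c ≤ 1) (hx : 1 ≤ x) :
    c * (1 / √(x + 1)) + (1 - c) * (1 / √x) ≤ 1 / √(x + c / 2) := by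
  have h1 : 0 < x := by linarith
  have h2 := super_inv hc0 hc1 hx
  have ha : (1 / √(x + 1)) ^ 2 = 1 / (x + 1) := by
    rw [div_pow, Real.sq_sqrt (by linarith), one_pow]
  have hb : (1 / √x) ^ 2 = 1 / x := by rw [div_pow, Real.sq_sqrt h1.le, one_pow]
  have hd : (1 / √(x + c / 2)) ^ 2 = 1 / (x + c / 2) := by
    rw [div_pow, Real.sq_sqrt (by linarith), one_pow]
  refine (abs_le_of_sq_le_sq' ?_ (by positivity)).2
  rw [hd]
  refine le_trans ?_ h2
  rw [← ha, ← hb]
  nlinarith [mul_nonneg (mul_nonneg hc0 (sub_nonneg.2 hc1)) (sq_nonneg (1 / √(x + 1) - 1 / √x))]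

end Crest.Agent.R300
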