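import Crest.Agent.R300.Dom
import Crest.Agent.R300.Poly

/-! Task PAT: products of two kinds of letters, expansion by order in `Δ`. -/

set_option autoImplicit false
set_option linter.unusedSectionVars false

namespace Crest.Agent.R300

open Polynomial

variable {G : Type} [Monoid G]

theorem pat_append (P Δ : MA G) (l l' : List Bool) :
    pat P Δ (l ++ l') = pat P Δ l * pat P Δ l' := by
  induction l with
  | nil => simp [pat]
  | cons a l ih => simp only [List.cons_append, pat, ih, mul_assoc]

theorem pat_replicate (P Δ : MA G) (n : ℕ) : pat P Δ (List.replicate n false) = P ^ n := by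
  induction n with
  | zero => simp [pat]
  | succ n ih => simp [List.replicate_succ, pat, ih, pow_succ']

theorem pat_blk (P Δ : MA G) (M : ℕ) (l : List Bool) :
    pat P Δ (blk M l) = P ^ (M / 2) * pat P Δ l * P ^ (M - M / 2 - l.length) := by
  rw [blk, pat_append, pat_append, pat_replicate, pat_replicate]

theorem blk_length (M : ℕ) (l : List Bool) (h : M / 2 + l.length ≤ M) : (blk M l).length = M := by
  simp only [blk, List.length_append, List.length_replicate]
  omega

theorem blk_count (M : ℕ) (l : List Bool) : (blk M l).count true ≤ l.length := by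
  simp only [blk, List.count_append, List.count_replicate]
  simpa using List.count_le_length

theorem prob_pat {P Δ : MA G} (hP : Prob P) (hQ : Prob (P + Δ)) (l : List Bool) :
    Prob (pat P Δ l) := by
  induction l with
  | nil => exact Prob.one
  | cons a l ih =>
    cases a
    · exact hP.mul ih
    · exact hQ.mul ih

theorem mass_pat {P Δ : MA G} (hP : mass P = 1) (h0 : mass Δ = 0) (l : List Bool) :
    mass (pat P Δ l) = 1 := by
  induction l with
  | nil => exact mass_one
  | cons a l ih => cases a <;> simp [pat, mass_mul, mass_add, ih, hP, h0]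

/-- `pat (a :: l) - P^(n+1) = P * (pat l - P^n) + [a] Δ * pat l`, `Dom.orthL₁`, `Dom.add_ref` -/
theorem dom_pat {P Δ : MA G} {η : ℝ} (hP : Prob P) (h0 : mass Δ = 0) (hΔ : Dom Δ P η)
    (l : List Bool) :
    Dom (pat P Δ l - P ^ l.length) (P ^ l.length) ((1 + η) ^ l.count true - 1) := by
  induction l with
  | nil => simpa [pat] using Dom.zero (NN.one (G := G)) le_rfl
  | cons a l ih =>
    cases a
    · have h := Dom.mul hP.1 (hP.1.pow _) hP.dom ih
      rw [one_mul, mul_sub, ← pow_succ'] at h
      simpa [pat] using h
    · have hm : mass (pat P Δ l - P ^ l.length) = 0 := by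
        rw [mass_sub, mass_pat hP.2 h0, (hP.pow _).2, sub_self]
      have h1 := Dom.add_ref (hP.pow _) ih hm 1
      rw [one_smul, add_sub_cancel] at h1
      have h := Dom.orthL₁ hP (hP.1.pow _) ih h0 hΔ h1
      rw [← pow_succ'] at h
      have e : P * (pat P Δ l - P ^ l.length) + Δ * pat P Δ l =
          pat P Δ (true :: l) - P ^ (l.length + 1) := by
        simp only [pat, if_true, pow_succ']; noncomm_ring
      rw [e] at h
      simp only [List.length_cons, List.count_cons_self]
      convert h using 1
      ring

theorem one_add_pow_le {η : ℝ} (hη : 0 ≤ η) (K : ℕ) (h : K * η ≤ 1) :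
    (1 + η) ^ K - 1 ≤ 2 * K * η := by
  have h1 : (1 + η) ^ K ≤ Real.exp (K * η) := by
    rw [Real.exp_nat_mul]
    exact pow_le_pow_left₀ (by linarith) (by linarith [Real.add_one_le_exp η]) K
  have h0 : 0 ≤ K * η := by positivity
  have h2 := Real.abs_exp_sub_one_le (x := K * η) (by rwa [abs_of_nonneg h0])
  rw [abs_of_nonneg h0] at h2
  linarith [le_abs_self (Real.exp (K * η) - 1)]

theorem abs_pat {P Δ : MA G} {θ : ℝ} (hP : NN P) (hθ : 0 ≤ θ) (hΔ : Abs Δ θ P) (l : List Bool) :
    Abs (pat P Δ l - P ^ l.length) ((1 + θ) ^ l.count true - 1) (P ^ l.length) := by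
  induction l with
  | nil => simpa [pat] using Abs.zero (NN.one (G := G)) le_rfl
  | cons a l ih =>
    have h1 := Abs.mul (Abs.refl hP) ih
    cases a
    · rw [one_mul, mul_sub, ← pow_succ'] at h1
      simpa [pat] using h1
    · have h2 := (Abs.refl (hP.pow l.length)).add ih
      rw [add_sub_cancel] at h2
      have h := h1.add (hΔ.mul h2)
      rw [← pow_succ'] at h
      have e : P * (pat P Δ l - P ^ l.length) + Δ * pat P Δ l =
          pat P Δ (true :: l) - P ^ (l.length + 1) := by
        simp only [pat, if_true, pow_succ']; noncomm_ring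
      rw [e] at h
      simp only [List.length_cons, List.count_cons_self]
      convert h using 1
      ring

/-- indicator of a letter -/
def pInd (a : Bool) : ℝ := if a then 1 else 0

/-- first order term -/
noncomputable def pO1 (P Δ : MA G) : List Bool → MA G
  | [] => 0
  | a :: l => P * pO1 P Δ l + (pInd a • Δ) * P ^ l.length

/-- second order term -/
noncomputable def pO2 (P Δ : MA G) : List Bool → MA G
  | [] => 0
  | a :: l => P * pO2 P Δ l + (pInd a • Δ) * pO1 P Δ l

theorem pat_cons (P Δ : MA G) (a : Bool) (l : List Bool) :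
    pat P Δ (a :: l) = (P + pInd a • Δ) * pat P Δ l := by
  cases a <;> simp [pat, pInd]

theorem dom_pInd {P Δ : MA G} {η : ℝ} (hP : NN P) (hΔ : Dom Δ P η) (a : Bool) :
    Dom (pInd a • Δ) P η := by
  cases a
  · simpa [pInd] using Dom.zero hP hΔ.1
  · simpa [pInd] using hΔ

theorem dom_t1 {P Δ : MA G} {η : ℝ} (hP : Prob P) (h0 : mass Δ = 0) (hΔ : Dom Δ P η)
    (l : List Bool) (hK : l.length * η ≤ 1) :
    Dom (pat P Δ l - P ^ l.length) (P ^ l.length) (2 * l.length * η) := by
  refine (dom_pat hP h0 hΔ l).mono (hP.1.pow _) (le_trans ?_ (one_add_pow_le hΔ.1 _ hK))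
  have := pow_le_pow_right₀ (a := 1 + η) (by linarith [hΔ.1]) (List.count_le_length (a := true) (l := l))
  linarith

theorem dom_t2 {P Δ : MA G} {η : ℝ} (hP : Prob P) (h0 : mass Δ = 0) (hΔ : Dom Δ P η)
    (l : List Bool) (hK : l.length * η ≤ 1) :
    Dom (pat P Δ l - P ^ l.length - pO1 P Δ l) (P ^ l.length) ((l.length * η) ^ 2) := by
  have hη := hΔ.1
  induction l with
  | nil => simpa [pat, pO1] using Dom.zero (NN.one (G := G)) le_rfl
  | cons a l ih =>
    have hK' : l.length * η ≤ 1 := by
      simp only [List.length_cons] at hK; push_cast at hK; nlinarith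
    have h := Dom.orthL₁ hP (hP.1.pow _) (ih hK') (α := pInd a • Δ)
      (by rw [mass_smul, h0, mul_zero]) (dom_pInd hP.1 hΔ a) (dom_t1 hP h0 hΔ l hK')
    rw [← pow_succ'] at h
    have e : P * (pat P Δ l - P ^ l.length - pO1 P Δ l) +
        pInd a • Δ * (pat P Δ l - P ^ l.length) =
          pat P Δ (a :: l) - P ^ (l.length + 1) - pO1 P Δ (a :: l) := by
      rw [pat_cons, pO1, pow_succ']; noncomm_ring
    rw [e] at h
    refine h.mono (hP.1.pow _) ?_
    simp only [List.length_cons]; push_cast
    nlinarith [sq_nonneg η]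

theorem dom_t3 {P Δ : MA G} {η : ℝ} (hP : Prob P) (h0 : mass Δ = 0) (hΔ : Dom Δ P η)
    (l : List Bool) (hK : l.length * η ≤ 1) :
    Dom (pat P Δ l - P ^ l.length - pO1 P Δ l - pO2 P Δ l) (P ^ l.length)
      ((l.length * η) ^ 3) ∧ mass (pat P Δ l - P ^ l.length - pO1 P Δ l - pO2 P Δ l) = 0 := by
  have hη := hΔ.1
  induction l with
  | nil => simpa [pat, pO1, pO2] using Dom.zero (NN.one (G := G)) le_rfl
  | cons a l ih =>
    have hK' : l.length * η ≤ 1 := by
      simp only [List.length_cons] at hK; push_cast at hK; nlinarith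
    have h := Dom.orthL₁ hP (hP.1.pow _) (ih hK').1 (α := pInd a • Δ)
      (by rw [mass_smul, h0, mul_zero]) (dom_pInd hP.1 hΔ a) (dom_t2 hP h0 hΔ l hK')
    rw [← pow_succ'] at h
    have e : P * (pat P Δ l - P ^ l.length - pO1 P Δ l - pO2 P Δ l) +
        pInd a • Δ * (pat P Δ l - P ^ l.length - pO1 P Δ l) =
          pat P Δ (a :: l) - P ^ (l.length + 1) - pO1 P Δ (a :: l) - pO2 P Δ (a :: l) := by
      rw [pat_cons, pO1, pO2, pow_succ']; noncomm_ring
    rw [e] at h
    refine ⟨h.mono (hP.1.pow _) ?_, ?_⟩
    · simp only [List.length_cons]; push_cast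
      have h1 : (0 : ℝ) ≤ l.length := Nat.cast_nonneg _
      have h2 : 0 ≤ η ^ 3 * (2 * (l.length : ℝ) ^ 2 + 3 * l.length + 1) := by positivity
      nlinarith
    · rw [List.length_cons, ← e, mass_add, mass_mul, mass_mul, (ih hK').2, mass_smul, h0]
      ring

theorem pO1_not (P Δ : MA G) (l : List Bool) :
    pO1 P Δ (l.map not) - pO1 P Δ l =
      lin (fun i => P ^ i * Δ * P ^ (l.length - 1 - i)) (sgnPoly l) := by
  induction l with
  | nil => simp [pO1, sgnPoly]
  | cons a l ih =>
    have e1 : lin (fun s => P ^ (s + 1) * Δ * P ^ ((a :: l).length - 1 - (s + 1))) (sgnPoly l) =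
        P * (pO1 P Δ (l.map not) - pO1 P Δ l) := by
      rw [ih, ← lin_mul_left]
      congr 1
      funext s
      rw [show (a :: l).length - 1 - (s + 1) = l.length - 1 - s by simp; omega, pow_succ']
      simp only [mul_assoc]
    rw [sgnPoly, lin_add, lin_X_mul, e1, ← mul_one (C _), lin_C_mul, lin_one, List.map_cons, pO1,
      pO1, List.length_map]
    cases a <;> simp [pInd] <;> noncomm_ring

theorem pO1_eq (P Δ : MA G) (l : List Bool) (N : ℕ) (hN : l.length ≤ N) :
    pO1 P Δ l = ∑ i ∈ Finset.range N,
      pInd (l.getD i false) • (P ^ i * Δ * P ^ (l.length - 1 - i)) := by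
  induction l generalizing N with
  | nil => simp [pO1, pInd]
  | cons a l ih =>
    obtain ⟨N, rfl⟩ : ∃ N', N = N' + 1 := ⟨N - 1, by simp at hN; omega⟩
    rw [Finset.sum_range_succ', pO1, ih N (by simpa using hN), Finset.mul_sum]
    congr 1
    · refine Finset.sum_congr rfl fun i _ => ?_
      rw [show (a :: l).length - 1 - (i + 1) = l.length - 1 - i by simp; omega, pow_succ',
        List.getD_cons_succ, mul_smul_comm]
      simp only [mul_assoc]
    · simp

theorem pO2_eq (P Δ : MA G) (l : List Bool) (N M : ℕ) (hN : l.length ≤ N) (hM : l.length ≤ M) :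
    pO2 P Δ l = ∑ i ∈ Finset.range N, ∑ d ∈ Finset.range M,
      (pInd (l.getD i false) * pInd (l.getD (i + d + 1) false)) •
        (P ^ i * (Δ * P ^ d * Δ) * P ^ (l.length - (d + 2) - i)) := by
  induction l generalizing N with
  | nil => simp [pO2, pInd]
  | cons a l ih =>
    obtain ⟨N, rfl⟩ : ∃ N', N = N' + 1 := ⟨N - 1, by simp at hN; omega⟩
    have hM' : l.length ≤ M := by simp at hM; omega
    rw [Finset.sum_range_succ', pO2, ih N (by simpa using hN) hM', Finset.mul_sum,
      pO1_eq P Δ l M hM', Finset.mul_sum]
    congr 1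
    · refine Finset.sum_congr rfl fun i _ => ?_
      rw [Finset.mul_sum]
      refine Finset.sum_congr rfl fun d _ => ?_
      rw [show (a :: l).length - (d + 2) - (i + 1) = l.length - (d + 2) - i by simp; omega,
        pow_succ', show i + 1 + d + 1 = (i + d + 1) + 1 by ring, List.getD_cons_succ,
        List.getD_cons_succ, mul_smul_comm]
      simp only [mul_assoc]
    · refine Finset.sum_congr rfl fun d _ => ?_
      rw [show (a :: l).length - (d + 2) - 0 = l.length - 1 - d by simp; omega, zero_add,
        List.getD_cons_succ, List.getD_cons_zero, smul_mul_smul_comm, pow_zero, one_mul]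
      simp only [mul_assoc]

theorem pInd_getD {l : List Bool} {j : ℕ} (h : pInd (l.getD j false) ≠ 0) : j < l.length := by
  by_contra hj
  rw [List.getD_eq_default _ _ (not_lt.1 hj)] at h
  exact h (by simp [pInd])

/-- Expansion of the difference of a pattern and its complement by order in `Δ`.
Define recursively `o1 (a::l) = P * o1 l + [a] Δ * P^|l|`, `o2 (a::l) = P * o2 l + [a] Δ * o1 l`,
`o3 l = pat l - P^|l| - o1 l - o2 l` (so `o3 (a::l) = P * o3 l + [a] Δ * (o2 l + o3 l)`), bound
`t1 = pat - P^K` by `2Kη`, `t2 = o2 + o3` by `(Kη)²`, `o3` by `(Kη)³` with `Dom.orthL₁`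
(`K η ≤ 1`), and compute `o1`, `o2` in closed form by induction on the list. -/
theorem pat_decomp {P Δ : MA G} {η : ℝ} (hP : Prob P) (h0 : mass Δ = 0) (hΔ : Dom Δ P η)
    (l : List Bool) (hK : l.length * η ≤ 1) :
    ∃ (w : ℕ → ℕ → ℝ) (R₃ : MA G), (∀ i d, |w i d| ≤ 1) ∧
      (∀ i d, w i d ≠ 0 → i + d + 2 ≤ l.length) ∧ mass R₃ = 0 ∧
      Dom R₃ (P ^ l.length) (4 * (l.length * η) ^ 3) ∧
      pat P Δ (l.map not) - pat P Δ l =
        lin (fun i => P ^ i * Δ * P ^ (l.length - 1 - i)) (sgnPoly l) +
          (∑ i ∈ Finset.range l.length, ∑ d ∈ Finset.range l.length,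
            w i d • (P ^ i * (Δ * P ^ d * Δ) * P ^ (l.length - (d + 2) - i))) + R₃ := by
  have h1 := dom_t3 hP h0 hΔ l hK
  have h2 := dom_t3 hP h0 hΔ (l.map not) (by rwa [List.length_map])
  rw [List.length_map] at h2
  refine ⟨fun i d => pInd ((l.map not).getD i false) * pInd ((l.map not).getD (i + d + 1) false) -
    pInd (l.getD i false) * pInd (l.getD (i + d + 1) false), _, fun i d => ?_, fun i d h => ?_,
    ?_, (Dom.sub (hP.1.pow _) h2.1 h1.1).mono (hP.1.pow _) (le_of_eq (by ring)), ?_⟩
  · beta_reduce
    generalize (l.map not).getD i false = a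
    generalize (l.map not).getD (i + d + 1) false = b
    generalize l.getD i false = c
    generalize l.getD (i + d + 1) false = e
    cases a <;> cases b <;> cases c <;> cases e <;> simp [pInd]
  · by_contra hlt
    apply h
    have e1 : pInd ((l.map not).getD (i + d + 1) false) = 0 := by
      by_contra hne
      have := pInd_getD hne
      rw [List.length_map] at this
      omega
    have e2 : pInd (l.getD (i + d + 1) false) = 0 := by
      by_contra hne
      have := pInd_getD hne
      omega
    simp only [e1, e2, mul_zero, sub_zero]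
  · rw [mass_sub, h1.2, h2.2, sub_zero]
  · have e2 := pO2_eq P Δ (l.map not) l.length l.length (by simp) (by simp)
    rw [List.length_map] at e2
    simp only [sub_smul, Finset.sum_sub_distrib]
    rw [← e2, ← pO2_eq P Δ l l.length l.length le_rfl le_rfl, ← pO1_not]
    abel

/-! ### trace laws of words -/

theorem law_append (q : ℝ) (x y : List Bool) : law q (x ++ y) = law q x * law q y := by
  simp [law]

theorem prob_law {q : ℝ} (h0 : 0 ≤ q) (h1 : q ≤ 1) (x : List Bool) : Prob (law q x) := by
  induction x with
  | nil => simpa [law] using Prob.one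
  | cons b x ih =>
    have hb : Prob (chan q b) := by
      refine ⟨(NN.one.smul h0).add ((NN.single _ zero_le_one).smul (by linarith)), ?_⟩
      rw [chan, mass_add, mass_smul, mass_smul, mass_one, mass_single]; ring
    simpa [law] using hb.mul ih

theorem subst_append (x y l l' : List Bool) : subst x y (l ++ l') = subst x y l ++ subst x y l' := by
  simp [subst]

theorem subst_cons (x y : List Bool) (a : Bool) (l : List Bool) :
    subst x y (a :: l) = (if a then y else x) ++ subst x y l := by
  simp [subst]

theorem subst_length (x y l : List Bool) (h : x.length = y.length) :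
    (subst x y l).length = l.length * x.length := by
  induction l with
  | nil => simp [subst]
  | cons a l ih =>
    rw [subst_cons, List.length_append, ih, List.length_cons]
    cases a <;> simp [h] <;> ring

/-- words over two distinct letters of equal length -/
theorem subst_inj (x y : List Bool) (h : x.length = y.length) (hxy : x ≠ y) (l l' : List Bool)
    (hl : l.length = l'.length) (he : subst x y l = subst x y l') : l = l' := by
  induction l generalizing l' with
  | nil => exact (List.length_eq_zero_iff.1 hl.symm).symm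
  | cons a l ih =>
    cases l' with
    | nil => simp at hl
    | cons b l' =>
      rw [subst_cons, subst_cons] at he
      have h1 := List.append_inj he (by cases a <;> cases b <;> simp [h])
      rw [ih l' (by simpa using hl) h1.2]
      have h2 := h1.1
      cases a <;> cases b <;> simp_all

theorem law_subst (q : ℝ) (x y l : List Bool) :
    law q (subst x y l) = pat (law q x) (law q y - law q x) l := by
  induction l with
  | nil => simp [subst, law, pat]
  | cons a l ih =>
    rw [subst_cons, law_append, ih, pat]
    cases a <;> simp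

theorem l1_pat {q : ℝ} (h0 : 0 ≤ q) (h1 : q ≤ 1) (x y : List Bool) {P Δ : MA (FreeMonoid Bool)}
    (hP : Prob P) (hQ : Prob (P + Δ)) {ε : ℝ} (hx : L1 (P - law q x) ε)
    (hy : L1 (P + Δ - law q y) ε) (l : List Bool) :
    L1 (pat P Δ l - law q (subst x y l)) (l.length * ε) := by
  induction l with
  | nil => simpa [subst, law, pat] using L1.zero (G := FreeMonoid Bool)
  | cons a l ih =>
    rw [subst_cons, law_append, pat]
    have h := L1.mul_sub_mul (a := if a then P + Δ else P) (δ := ε)
      (prob_law h0 h1 (if a then y else x)) (prob_pat hP hQ l) (by cases a <;> simpa) ih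
    refine h.mono (le_of_eq ?_)
    simp only [List.length_cons]; push_cast; ring

theorem blk_ne (M : ℕ) (l l' : List Bool) (hl : l.length = l'.length) (h : l ≠ l') :
    blk M l ≠ blk M l' := by
  intro he
  simp only [blk, hl, List.append_assoc, List.append_cancel_left_eq,
    List.append_cancel_right_eq] at he
  exact h he

end Crest.Agent.R300
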