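import Crest.Agent.R300.First
import Crest.Agent.R300.Pat

/-! Task BASE: level 0 (`01` versus `1`) and level 1 (one defect shifted by one period, truncated). -/

set_option autoImplicit false
set_option linter.unusedSectionVars false

namespace Crest.Agent.R300

open Polynomial

variable {G : Type} [Monoid G]

namespace BaseAux

open Finset

theorem ev_chan (q : ℝ) (b : Bool) (f : FreeMonoid Bool → ℝ) :
    ev (chan q b) f = q * f 1 + (1 - q) * f (FreeMonoid.of b) := by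
  rw [chan, ev_add, ev_smul, ev_smul, ev_one, ev_single, one_mul]

theorem law_one (q : ℝ) (b : Bool) : law q [b] = chan q b := by simp [law]

theorem law_two (q : ℝ) (a b : Bool) : law q [a, b] = chan q a * chan q b := by simp [law]

theorem le_pow {a b : MA G} (ha : NN a) (h : Le a b) (n : ℕ) : Le (a ^ n) (b ^ n) := by
  induction n with
  | zero => simpa using Le.refl _
  | succ n ih => rw [pow_succ, pow_succ]; exact ih.mul h (ha.pow n) ha

theorem le_pow_succ {a : MA G} {b : ℝ} (ha : NN a) (hb : 0 ≤ b) (n : ℕ) :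
    Le (((n + 1) * b) • a ^ n) ((b • 1 + a) ^ (n + 1)) := by
  have h1 : Le a (b • 1 + a) := by simpa [Le] using NN.one.smul hb
  induction n with
  | zero => simpa [Le] using ha
  | succ n ih =>
    have := ((le_pow ha h1 (n + 1)).smul hb).add (ih.mul_right ha)
    convert this using 1
    · rw [smul_mul_assoc, ← pow_succ, ← add_smul]
      congr 1
      push_cast
      ring
    · rw [pow_succ _ (n + 1), mul_add, mul_smul_comm, mul_one]

theorem dens {P Δ : MA G} {κ : ℝ} (hP : NN P) (hΔ : Dom Δ P κ) (hA : Abs Δ κ P) :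
    ∃ x : G → ℝ, (∀ g, Δ.coeff g = P.coeff g * x g) ∧ (ev P fun g => x g ^ 2) ≤ κ ∧ ∀ g, |x g| ≤ κ := by
  classical
  obtain ⟨x, h1, h2⟩ := hΔ.exists_dens hP
  refine ⟨fun g => if P.coeff g = 0 then 0 else x g, fun g => ?_, ?_, fun g => ?_⟩
  · dsimp only
    split_ifs with h
    · rw [h1, h, zero_mul, zero_mul]
    · exact h1 g
  · exact (ev_congr P fun g hg => by simp only [if_neg hg]).trans_le h2
  · dsimp only
    split_ifs with h
    · simpa using hΔ.1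
    · have h3 := abs_iff_coeff.1 hA g
      have h4 : 0 < P.coeff g := (hP g).lt_of_ne' h
      rw [h1, abs_mul, abs_of_pos h4, mul_comm κ] at h3
      exact le_of_mul_le_mul_left h3 h4

theorem mgf {P Δ : MA G} {κ lam : ℝ} (hP : Prob P) (h0 : mass Δ = 0) (hΔ : Dom Δ P κ)
    (hA : Abs Δ κ P) (hlam : 1 ≤ lam) (n : ℕ) : ∀ (μ : ℕ → ℝ) (u : ℝ) (f : G → ℝ),
      (∀ i, lam * |μ i| * κ ≤ 1) → (∀ g, 0 ≤ f g ∧ f g ≤ 1) →
      u * ev (P ^ n) f + ∑ i ∈ range n, μ i * ev (P ^ i * Δ * P ^ (n - 1 - i)) f ≤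
        Real.exp (lam * u + lam ^ 2 * κ * ∑ i ∈ range n, μ i ^ 2) / lam := by
  obtain ⟨x, x1, x2, x3⟩ := dens hP.1 hΔ hA
  have x0 : ev P x = 0 := by
    have := ev_dens x1 fun _ => 1
    simp only [mul_one] at this
    exact this.symm.trans h0
  have l0 : 0 < lam := by linarith
  induction n with
  | zero =>
    intro μ u f _ hf
    simp only [pow_zero, ev_one, range_zero, sum_empty, mul_zero, add_zero]
    rw [le_div_iff₀ l0]
    have h1 := Real.add_one_le_exp (lam * u)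
    have h2 := Real.exp_pos (lam * u)
    obtain ⟨h3, h4⟩ := hf 1
    rcases le_total 0 (lam * u) with h | h <;> nlinarith
  | succ n ih =>
    intro μ u f hμ hf
    have e1 : u * ev (P ^ (n + 1)) f + ∑ i ∈ range (n + 1), μ i * ev (P ^ i * Δ * P ^ (n + 1 - 1 - i)) f =
        ev P fun g => (u + μ 0 * x g) * ev (P ^ n) (fun v => f (g * v)) +
          ∑ i ∈ range n, μ (i + 1) * ev (P ^ i * Δ * P ^ (n - 1 - i)) fun v => f (g * v) := by
      rw [sum_range_succ', pow_succ', ev_mul, pow_zero, one_mul, ev_mul, ev_dens x1, ev_fun_add,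
        ev_fun_sum]
      simp only [add_mul, mul_assoc, ev_fun_add, ev_fun_mul, Nat.add_sub_cancel, Nat.sub_zero]
      rw [add_comm (∑ i ∈ range n, _), add_assoc]
      congr 2
      refine sum_congr rfl fun i _ => ?_
      rw [pow_succ', mul_assoc, ev_mul, show n - (i + 1) = n - 1 - i by omega]
    rw [e1]
    set B := Real.exp (lam * u + lam ^ 2 * κ * ∑ i ∈ range n, μ (i + 1) ^ 2) / lam with hB
    have B0 : 0 ≤ B := by positivity
    refine (ev_mono hP.1 (g := fun g => B * (1 + lam * μ 0 * x g + (lam * μ 0) ^ 2 * x g ^ 2))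
      fun g => (ih _ _ _ (fun i => hμ _) fun v => hf _).trans ?_).trans ?_
    · have h1 : |lam * μ 0 * x g| ≤ 1 := by
        rw [abs_mul, abs_mul, abs_of_pos l0]
        exact (mul_le_mul_of_nonneg_left (x3 g) (by positivity)).trans (hμ 0)
      have h2 := (abs_le.1 (Real.abs_exp_sub_one_sub_id_le h1)).2
      rw [show lam * (u + μ 0 * x g) + lam ^ 2 * κ * ∑ i ∈ range n, μ (i + 1) ^ 2 =
        (lam * u + lam ^ 2 * κ * ∑ i ∈ range n, μ (i + 1) ^ 2) + lam * μ 0 * x g by ring, Real.exp_add,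
        mul_div_right_comm]
      exact mul_le_mul_of_nonneg_left (by rw [← mul_pow]; linarith) B0
    · rw [ev_fun_mul, ev_fun_add, ev_fun_add, ev_fun_const, ev_fun_mul, ev_fun_mul, x0, hP.2,
        sum_range_succ', mul_add (lam ^ 2 * κ), ← add_assoc, Real.exp_add, mul_div_right_comm]
      refine mul_le_mul_of_nonneg_left ?_ B0
      have h1 := Real.add_one_le_exp (lam ^ 2 * κ * μ 0 ^ 2)
      have h2 := mul_le_mul_of_nonneg_left x2 (sq_nonneg (lam * μ 0))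
      nlinarith

theorem outer {Φ : MA G → MA G → ℝ → Prop} (hΦ : Persp Φ) {P : MA G} (Δ : MA G) (hP : Prob P) {J : ℕ}
    (hC : Coin P J (1 / 2)) {a b r : ℕ} (e : ℝ[X]) {w : ℕ} (he : Supp e 0 w) (hb : r + w ≤ b)
    (ψ : ℕ → ℕ → ℝ) (hψ : ∀ j h, ψ j (h + 1) / 4 + 3 / 8 * (ψ j h + ψ j h) ≤ ψ (j + 1) h)
    (h0 : ∀ u h, u + h ≤ r → Φ (lin (fun i => P ^ i * Δ * P ^ (a + 1 + b - 1 - i))
      (X ^ (a + u) * bin h * e)) (P ^ (a + 1 + b)) (ψ 0 h)) :
    Φ (lin (fun s => P ^ (a + r * (J + 1) + s) * Δ * P ^ (b + r * J - s)) e)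
      (P ^ (a + 1 + b + r * (2 * J + 1))) (ψ r 0) := by
  have := smooth hΦ hP hC (fun s => P ^ (s + a) * Δ * P ^ (a + 1 + b - 1 - (s + a))) (a + 1 + b) e r
    (fun j _ h => ψ j h) (fun j _ h => hψ j h) (fun u h huh => by
      have := h0 u h huh
      rwa [pow_add X, mul_assoc (X ^ a), mul_assoc (X ^ a), lin_X_pow_mul] at this) r 0 0 le_rfl
  rw [pow_zero, bin_zero, one_mul, one_mul] at this
  rwa [lin_congr fun s hs => sm_iter_place P Δ J a b 0 (r + w) hb _ (fun s _ _ => by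
    rw [add_comm s a, show a + 1 + b - 1 - (a + s) = b - s by omega]) r s (Nat.zero_le _)
    (by have := (he s hs).2; omega)] at this

theorem supp_one : Supp (1 : ℝ[X]) 0 0 := by simpa using supp_X_pow 0

theorem num (r : ℕ) : (2 : ℝ) ^ (r / 8) * (7 / 8) ^ r ≤ Real.exp (-(r / 25)) := by
  have h1 : (7 / 8 : ℝ) ≤ 175 / 192 * Real.exp (-(1 / 25)) := by
    have := Real.add_one_le_exp (-(1 / 25))
    linarith
  have h2 : (175 / 192 : ℝ) ^ r ≤ (1 / 2) ^ (r / 8) :=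
    calc (175 / 192 : ℝ) ^ r ≤ (175 / 192) ^ (8 * (r / 8)) :=
          pow_le_pow_of_le_one (by norm_num) (by norm_num) (Nat.mul_div_le r 8)
      _ ≤ (1 / 2) ^ (r / 8) := by rw [pow_mul]; exact pow_le_pow_left₀ (by norm_num) (by norm_num) _
  calc (2 : ℝ) ^ (r / 8) * (7 / 8) ^ r ≤ 2 ^ (r / 8) * (175 / 192 * Real.exp (-(1 / 25))) ^ r := by
        gcongr
    _ = 2 ^ (r / 8) * (175 / 192) ^ r * Real.exp (-(r / 25)) := by
        rw [mul_pow, ← Real.exp_nat_mul, mul_assoc]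
        congr 3
        ring
    _ ≤ 2 ^ (r / 8) * (1 / 2) ^ (r / 8) * Real.exp (-(r / 25)) := by gcongr
    _ = _ := by rw [← mul_pow]; simp

theorem hk_set {ν ρ : MA G} {θ b : ℝ} (h : Hk (θ / 2) ν ρ b) :
    θ / 2 * ev ρ (fun g => if θ * ρ.coeff g < ν.coeff g then 1 else 0) ≤ b := by
  have h1 := h (fun g => if θ * ρ.coeff g < ν.coeff g then 1 else 0) fun g => by split_ifs <;> norm_num
  have h2 : 0 ≤ ev (ν - θ • ρ) fun g => if θ * ρ.coeff g < ν.coeff g then 1 else 0 :=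
    sum_nonneg fun g _ => by
      simp only [MonoidAlgebra.coeff_sub, Finsupp.sub_apply, MonoidAlgebra.coeff_smul_apply, smul_eq_mul]
      split_ifs with h <;> linarith
  rw [ev_sub, ev_smul] at h2
  linarith

theorem truncate {ρ ν ν' : MA G} {κ θ τ b c : ℝ} (hρ : Prob ρ) (hU : Prob (ρ + ν)) (hV : Prob (ρ + ν'))
    (a1 : Abs ν κ ρ) (a2 : Abs ν' κ ρ) (hκ : 0 ≤ κ) (hθ0 : 0 < θ) (hθ1 : θ ≤ 1 / 8)
    (k1 : Hk (θ / 2) ν ρ c) (k2 : Hk (θ / 2) (-ν) ρ c) (k3 : Hk (θ / 2) ν' ρ c)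
    (k4 : Hk (θ / 2) (-ν') ρ c) (hτ : 16 * κ * c / θ ≤ τ) (hτθ : τ ≤ θ) (hd : Dom (ν' - ν) ρ b) :
    ∃ Q : MA G, Prob Q ∧ L1 (Q - (ρ + ν')) (2 * τ) ∧ Dom (Q - (ρ + ν)) (ρ + ν) (4 * b + 2 * τ ^ 2) ∧
      Abs (Q - (ρ + ν)) (5 * θ) (ρ + ν) := by
  classical
  set p : G → Prop := fun g => |ν.coeff g| ≤ θ * ρ.coeff g ∧ |ν'.coeff g| ≤ θ * ρ.coeff g with hp
  set χ : G → ℝ := fun g => if p g then 1 else 0 with hχ
  have hE : θ / 2 * ev ρ (fun g => 1 - χ g) ≤ 4 * c := by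
    have h1 := hk_set k1
    have h2 := hk_set k2
    have h3 := hk_set k3
    have h4 := hk_set k4
    refine le_trans ?_ ((add_le_add (add_le_add (add_le_add h1 h2) h3) h4).trans (le_of_eq (by ring)))
    rw [← mul_add, ← mul_add, ← mul_add, ← ev_fun_add, ← ev_fun_add, ← ev_fun_add]
    refine mul_le_mul_of_nonneg_left (ev_mono hρ.1 fun g => ?_) (by positivity)
    have key : ∀ x y t : ℝ, y = -x → (0 : ℝ) ≤ (if t < x then 1 else 0) + (if t < y then 1 else 0) ∧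
        (¬ |x| ≤ t → (1 : ℝ) ≤ (if t < x then 1 else 0) + (if t < y then 1 else 0)) := fun x y t hy => by
      rw [abs_le', ← hy]
      split_ifs with c1 c2 <;> simp_all
    have u1 := key (ν.coeff g) ((-ν).coeff g) (θ * ρ.coeff g) (by simp)
    have u2 := key (ν'.coeff g) ((-ν').coeff g) (θ * ρ.coeff g) (by simp)
    simp only [hχ]
    by_cases h : p g
    · rw [if_pos h]
      linarith [u1.1, u2.1]
    · rw [if_neg h]
      rcases not_and_or.1 h with h | h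
      · linarith [u1.2 h, u2.1]
      · linarith [u1.1, u2.2 h]
  have hE' : (κ + κ) * ev ρ (fun g => 1 - χ g) ≤ τ := by
    refine le_trans ?_ hτ
    rw [le_div_iff₀ hθ0]
    nlinarith
  set W : MA G := MonoidAlgebra.ofCoeff ((ν' - ν).coeff.filter p) with hW
  have cW : ∀ g, W.coeff g = (ν' - ν).coeff g * χ g := fun g => by
    simp only [hW, hχ, MonoidAlgebra.coeff_ofCoeff, Finsupp.filter_apply]
    split_ifs <;> simp
  have lW : L1 (W - (ν' - ν)) τ := fun f hf => by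
    rw [ev_sub, ev_dens cW, ← ev_fun_sub]
    refine ((le_abs_self _).trans ((a2.sub a1).ev fun g => ?_)).trans hE'
    have := hf g
    simp only [hχ]
    split_ifs <;> simp [this]
  have m0 : mass (ν' - ν) = 0 := by
    rw [mass_sub, mass_eq_zero_of_prob hρ hU, mass_eq_zero_of_prob hρ hV, sub_self]
  have hm : |mass W| ≤ τ := by
    have := lW.abs_ev (f := fun _ => 1) (B := 1) (by simp)
    rwa [one_mul, ev_sub, show ev (ν' - ν) (fun _ => 1) = 0 from m0, sub_zero] at this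
  have half : ∀ g, p g → ρ.coeff g ≤ 2 * (ρ + ν).coeff g := fun g hg => by
    have h1 := (abs_le.1 hg.1).1
    have h2 := hρ.1 g
    rw [MonoidAlgebra.coeff_add, Finsupp.add_apply]
    nlinarith
  have aW : Abs W (4 * θ) (ρ + ν) := abs_iff_coeff.2 fun g => by
    rw [cW]
    simp only [hχ]
    split_ifs with h
    · have h1 := half g h
      have h2 := abs_sub (ν'.coeff g) (ν.coeff g)
      rw [mul_one, MonoidAlgebra.coeff_sub, Finsupp.sub_apply]
      nlinarith [h.1, h.2]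
    · simpa using mul_nonneg (by positivity : 0 ≤ 4 * θ) (hU.1 g)
  have dW : Dom W (ρ + ν) (2 * b) := ⟨by linarith [hd.1], fun f => by
    rw [ev_dens cW, mul_comm 2 b, mul_assoc]
    refine (hd.2 _).trans (mul_le_mul_of_nonneg_left ?_ hd.1)
    have : 0 ≤ ev ((2 : ℝ) • (ρ + ν)) (fun g => f g ^ 2) - ev ρ fun g => (χ g * f g) ^ 2 := by
      rw [ev_eq_sum _ _ (((2 : ℝ) • (ρ + ν)).coeff.support ∪ ρ.coeff.support) subset_union_left,
        ev_eq_sum _ _ (((2 : ℝ) • (ρ + ν)).coeff.support ∪ ρ.coeff.support) subset_union_right,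
        ← sum_sub_distrib]
      refine sum_nonneg fun g _ => ?_
      rw [MonoidAlgebra.coeff_smul_apply, smul_eq_mul]
      simp only [hχ]
      split_ifs with h
      · rw [one_mul, ← sub_mul]
        exact mul_nonneg (by linarith [half g h]) (sq_nonneg _)
      · have := hU.1 g
        simp only [zero_mul, ne_eq, OfNat.ofNat_ne_zero, not_false_eq_true, zero_pow, mul_zero, sub_zero]
        positivity
    rw [ev_smul] at this
    linarith⟩
  have aQ : Abs (W - mass W • (ρ + ν)) (5 * θ) (ρ + ν) :=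
    (aW.sub ((Abs.refl hU.1).smul (mass W))).mono hU.1 (by linarith)
  refine ⟨ρ + ν + (W - mass W • (ρ + ν)), ⟨fun g => ?_, ?_⟩, ?_, ?_, ?_⟩
  · have h1 := (abs_le.1 (abs_iff_coeff.1 aQ g)).1
    have h2 := hU.1 g
    rw [MonoidAlgebra.coeff_add, Finsupp.add_apply]
    nlinarith
  · rw [mass_add, mass_sub, mass_smul, hU.2]
    ring
  · convert (lW.add (hU.l1.smul (mass W)).neg).mono (show _ ≤ 2 * τ by linarith) using 1
    abel
  · rw [add_sub_cancel_left]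
    refine (dW.sub hU.1 (hU.dom.smul (mass W))).mono hU.1 ?_
    have := sq_le_sq' (abs_le.1 hm).1 (abs_le.1 hm).2
    linarith
  · rwa [add_sub_cancel_left]

end BaseAux

open Finset BaseAux

/-- `law [1] - law [0,1] = (1 - chan 0) * chan 1`; `|1 - chan 0| ≤ q⁻¹ chan 0` and chi-square
`(1-q)/q ≤ 1/q` (density `(1-q)/q` at the empty word, `-1` at `[0]`). -/
theorem base0 {q : ℝ} (h0 : 0 < q) (h1 : q < 1) :
    Dom (law q [true] - law q [false, true]) (law q [false, true]) (1 / q) ∧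
      Abs (law q [true] - law q [false, true]) (1 / q) (law q [false, true]) := by
  have p0 : Prob (chan q false) := law_one q false ▸ prob_law h0.le h1.le _
  have p1 : Prob (chan q true) := law_one q true ▸ prob_law h0.le h1.le _
  have e : law q [true] - law q [false, true] = (1 - chan q false) * chan q true := by
    rw [law_one, law_two, sub_mul, one_mul]
  have d : Dom (1 - chan q false) (chan q false) (1 / q) := ⟨by positivity, fun f => by
    rw [ev_sub, ev_one, ev_chan, ev_chan, one_div, le_inv_mul_iff₀ h0]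
    generalize f 1 = a
    generalize f (FreeMonoid.of false) = b
    have h2 : 0 ≤ q * q * (1 - q) * (a - b) ^ 2 :=
      mul_nonneg (mul_nonneg (mul_nonneg h0.le h0.le) (by linarith)) (sq_nonneg _)
    nlinarith [sq_nonneg (q * a + (1 - q) * b)]⟩
  have a : Abs (1 - chan q false) (1 / q) (chan q false) := abs_of_ev fun f hf => by
    rw [ev_sub, ev_one, ev_chan, one_div, le_inv_mul_iff₀ h0, ← abs_of_pos h0, ← abs_mul, abs_of_pos h0,
      abs_le]
    have h2 := hf 1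
    have h3 := hf (FreeMonoid.of false)
    generalize f 1 = a at *
    generalize f (FreeMonoid.of false) = b at *
    have h4 : 0 < 1 - q := by linarith
    have := mul_nonneg h0.le h2
    have := mul_nonneg h4.le h3
    constructor <;> nlinarith
  rw [e, law_two]
  exact ⟨by simpa using Dom.mul p0.1 p1.1 d p1.dom, by simpa using a.mul (Abs.refl p1.1)⟩

/-- With `b = min (q²) (1/4)`, `P = b • 1 + P'`, `P' ≥ 0` of mass `1 - b`, `J₀ = ⌈1/b⌉`:
`P'^J₀ ≤ P^J₀` and `P'^J₀ ≤ (J₀+1) b • P'^J₀ ≤ P^(J₀+1)` (induction: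
`(b•1 + P')^(n+1) ≥ P'^(n+1) + (n+1) b • P'^n`), `(1-b)^J₀ ≥ 1/5`; then `Coin.amp` with `r = 30`. -/
theorem coin0 {q : ℝ} (h0 : 0 < q) (h1 : q < 1) (J : ℕ) (hJ : 210 / q ^ 2 ≤ J) :
    Coin (law q [false, true]) J (1 / 2) := by
  have hP := prob_law h0.le h1.le [false, true]
  have q2 : 0 < q ^ 2 := by positivity
  have hN : NN (law q [false, true] - q ^ 2 • 1) := nn_of_ev fun f hf => by
    rw [ev_sub, ev_smul, ev_one, law_two, ev_mul, ev_chan, ev_chan, ev_chan, one_mul]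
    have h4 : 0 ≤ 1 - q := by linarith
    have := mul_nonneg h0.le (mul_nonneg h4 (hf (1 * FreeMonoid.of true)))
    have := mul_nonneg h4 (add_nonneg (mul_nonneg h0.le (hf (FreeMonoid.of false * 1)))
      (mul_nonneg h4 (hf (FreeMonoid.of false * FreeMonoid.of true))))
    nlinarith
  generalize law q [false, true] = P at *
  obtain ⟨a, rfl⟩ : ∃ a, P = q ^ 2 • 1 + a := ⟨P - q ^ 2 • 1, by abel⟩
  rw [add_sub_cancel_left] at hN
  have ma : mass a = 1 + -q ^ 2 := by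
    have := hP.2
    rw [mass_add, mass_smul, mass_one] at this
    linarith
  set n := ⌊1 / (2 * q ^ 2)⌋₊ with hn
  have n1 : (n : ℝ) * (2 * q ^ 2) ≤ 1 := (le_div_iff₀ (by positivity)).1 (Nat.floor_le (by positivity))
  have n2 : 1 < (n + 1 : ℝ) * (2 * q ^ 2) := (div_lt_iff₀ (by positivity)).1 (Nat.lt_floor_add_one _)
  have hc : Coin (q ^ 2 • 1 + a) n (1 / 4) := by
    refine Coin.of_le ((hN.pow n).smul (show (0 : ℝ) ≤ 1 / 2 by norm_num)) ?_ ?_ (by norm_num) ?_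
    · refine (Le.smul_mono (hN.pow n) (show (1 / 2 : ℝ) ≤ 1 by norm_num)).trans ?_
      rw [one_smul]
      exact le_pow hN (by simpa [Le] using NN.one.smul q2.le) n
    · exact (Le.smul_mono (hN.pow n) (by linarith)).trans (le_pow_succ hN q2.le n)
    · have := one_add_mul_le_pow (a := -q ^ 2) (by nlinarith) n
      rw [mass_smul, mass_pow, ma]
      linarith
  refine hc.amp hP (by norm_num) 24 J (by norm_num) ?_
  rw [div_le_iff₀ q2] at hJ
  have : ((24 * (n + 1) : ℕ) : ℝ) * q ^ 2 ≤ J * q ^ 2 := by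
    push_cast
    nlinarith
  exact_mod_cast le_of_mul_le_mul_right this q2

/-- Exponential moment. `x` = density of `Δ` (`|x| ≤ κ`, `∑ P x = 0`, `∑ P x² ≤ κ`). For all real `u` and
coefficients `μ`: `u • P^n + ∑_{i<n} μ_i P^i Δ P^(n-1-i) ≤ (exp (λ u)/λ) • ∏_i P·exp(λ μ_i x)`
(induction on `n`, peel the first letter, `y ≤ exp (λ y)/λ`), and each factor has mass
`≤ 1 + λ² μ_i² κ ≤ exp (λ² μ_i² κ)` when `λ |μ_i| κ ≤ 1`. Use `u = -t`. -/
theorem hk_exp {P Δ : MA G} {κ lam t : ℝ} (hP : Prob P) (h0 : mass Δ = 0) (hΔ : Dom Δ P κ)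
    (hA : Abs Δ κ P) (hlam : 1 ≤ lam) (n : ℕ) (μ : ℝ[X]) (hμ : Supp μ 0 (n - 1)) (hn : 0 < n)
    (hb : ∀ i, lam * |μ.coeff i| * κ ≤ 1) :
    Hk t (lin (fun i => P ^ i * Δ * P ^ (n - 1 - i)) μ) (P ^ n)
      (Real.exp (-(lam * t) + lam ^ 2 * κ * nsq μ)) := by
  intro f hf
  have hs : μ.support ⊆ range n := fun i hi => by
    have := (hμ i (mem_support_iff.1 hi)).2
    exact mem_range.2 (by omega)
  have := mgf hP h0 hΔ hA hlam n μ.coeff (-t) f hb hf
  rw [lin_eq_sum _ _ _ hs, nsq_eq_sum _ _ hs, ev_sum]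
  simp only [ev_smul]
  rw [← mul_neg]
  exact le_trans (by linarith) (this.trans (div_le_self (Real.exp_pos _).le hlam))

theorem BaseAux.inner_big {P Δ : MA G} {κ θ Z : ℝ} (hP : Prob P) (h0 : mass Δ = 0) (hΔ : Dom Δ P κ)
    (hA : Abs Δ κ P) (hκ : 1 ≤ κ) (hθ0 : 0 < θ) (hθ1 : θ ≤ 1) (hZ : 1 ≤ Z) {h₀ h v n : ℕ}
    (s1 : 16 * κ * Z ≤ θ ^ 2 * √(h₀ + 1 : ℝ)) (hh : h₀ ≤ h) (hn : v + h < n) :
    Hk (θ / 2) (lin (fun i => P ^ i * Δ * P ^ (n - 1 - i)) (X ^ v * bin h)) (P ^ n) (Real.exp (-Z)) := by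
  have k0 : 0 < κ := by linarith
  have s0 : 0 < √(h₀ + 1 : ℝ) := Real.sqrt_pos.2 (by positivity)
  have t1 : 1 / √((h : ℝ) + 1) ≤ 1 / √(h₀ + 1 : ℝ) := one_div_le_one_div_of_le s0
    (Real.sqrt_le_sqrt (by exact_mod_cast Nat.succ_le_succ hh))
  generalize √(h₀ + 1 : ℝ) = s at *
  have t2 : θ ^ 2 * s ≤ θ * s := mul_le_mul_of_nonneg_right (by nlinarith) s0.le
  have := hk_exp (lam := θ * s / (4 * κ)) (t := θ / 2) hP h0 hΔ hA
    (by rw [le_div_iff₀ (by positivity)]; nlinarith) n (X ^ v * bin h)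
    (((supp_X_pow _).mul (bin_supp h)).mono (Nat.zero_le _) (by omega)) (by omega) fun i => by
      have t3 : |(X ^ v * bin h).coeff i| ≤ 1 / s := by
        rw [coeff_X_pow_mul']
        split_ifs
        · rw [abs_of_nonneg (bin_coeff_nonneg _ _)]
          exact (bin_coeff_le _ _).trans t1
        · simp [s0.le]
      calc _ ≤ θ * s / (4 * κ) * (1 / s) * κ := by gcongr
        _ = θ / 4 := by field_simp
        _ ≤ 1 := by linarith
  refine (persp_hk _).mono _ _ _ _ (hP.1.pow _) this (Real.exp_le_exp.2 ?_)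
  rw [nsq_X_pow_mul]
  calc _ ≤ -(θ * s / (4 * κ) * (θ / 2)) + (θ * s / (4 * κ)) ^ 2 * κ * (1 / s) :=
        add_le_add le_rfl (mul_le_mul_of_nonneg_left ((nsq_bin h).trans t1) (by positivity))
    _ = -(θ ^ 2 * s / (16 * κ)) := by field_simp; ring
    _ ≤ -Z := by rw [neg_le_neg_iff, le_div_iff₀ (by positivity)]; linarith

theorem BaseAux.inner_small {P Δ : MA G} {κ t : ℝ} (hP : Prob P) (hA : Abs Δ κ P) (ht : 0 ≤ t)
    (h v n : ℕ) : Hk t (lin (fun i => P ^ i * Δ * P ^ (n - 1 - i)) (X ^ v * bin h)) (P ^ n) κ := by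
  intro f hf
  have l1 : L1 (lin (fun i => P ^ i * Δ * P ^ (n - 1 - i)) (X ^ v * bin h)) κ := by
    have h1 : n1 (X ^ v * bin h) = 1 := by rw [n1_X_pow_mul, n1_bin]
    generalize X ^ v * bin h = e at h1
    have h2 : ∀ i, L1 (P ^ i * Δ * P ^ (n - 1 - i)) κ := fun i => by
      simpa [hP.2] using ((hP.pow i).l1.mul hA.l1).mul (hP.pow (n - 1 - i)).l1
    have := L1.sum e.support fun i _ => (h2 i).smul (e.coeff i)
    rw [← sum_mul, ← n1_eq_sum _ _ subset_rfl, h1, one_mul] at this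
    rwa [lin_eq_sum _ _ _ subset_rfl]
  have t1 := l1 f fun g => by rw [abs_of_nonneg (hf g).1]; exact (hf g).2
  have t2 := mul_nonneg ht (ev_nonneg (hP.1.pow n) fun g => (hf g).1)
  linarith

/-- Tail of one smeared defect: `smooth (persp_hk (θ/2))` with `r` window pairs, `h₀ = r/8`,
`λ = θ √(h₀+1)/(4κ)`, `ψ j u h = exp (-Z) + κ 2^h₀ (1/2)^h (7/8)^j`; for `h ≥ h₀` use `hk_exp`
(`bin_coeff_le`, `nsq_bin`; exponent `-λθ/2 + λθ/4 ≤ -Z`), for `h < h₀` the trivial bound `κ`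
(`Abs`); `2^(r/8) (7/8)^r ≤ exp (-r/25)`. (Apply it to `Δ` and to `-Δ`.) -/
theorem hk_tail {P Δ : MA G} {κ θ Z : ℝ} {J : ℕ} (hP : Prob P) (h0 : mass Δ = 0) (hΔ : Dom Δ P κ)
    (hA : Abs Δ κ P) (hκ : 1 ≤ κ) (hC : Coin P J (1 / 2)) (M a r : ℕ) (ha : r * (J + 1) ≤ a)
    (hM : a + 1 + r * (J + 1) ≤ M) (hθ0 : 0 < θ) (hθ1 : θ ≤ 1) (hZ : 1 ≤ Z)
    (hr1 : 16 * κ * Z ≤ θ ^ 2 * √(r / 8)) (hr2 : 25 * Z ≤ r) :
    Hk (θ / 2) (P ^ a * Δ * P ^ (M - 1 - a)) (P ^ M) (2 * κ * Real.exp (-Z)) := by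
  obtain ⟨a, rfl⟩ := Nat.exists_eq_add_of_le' ha
  have e1 : r * (J + 1) = r * J + r := by ring
  have e2 : r * (2 * J + 1) = r * J + r * J + r := by ring
  obtain ⟨b, rfl⟩ : ∃ b, M = a + 1 + b + r * (2 * J + 1) := ⟨M - (a + 1 + r * (2 * J + 1)), by omega⟩
  have k0 : 0 < κ := by linarith
  have s1 : 16 * κ * Z ≤ θ ^ 2 * √((r / 8 : ℕ) + 1 : ℝ) := by
    refine hr1.trans (mul_le_mul_of_nonneg_left (Real.sqrt_le_sqrt ?_) (sq_nonneg _))
    have : (r : ℝ) ≤ 8 * ((r / 8 : ℕ) + 1) := by exact_mod_cast (show r ≤ 8 * (r / 8 + 1) by omega)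
    linarith
  have := outer (persp_hk (θ / 2)) Δ hP hC (a := a) (b := b) (r := r) 1 supp_one (by omega)
    (fun j h => Real.exp (-Z) + κ * 2 ^ (r / 8) * (1 / 2) ^ h * (7 / 8) ^ j)
    (fun j h => le_of_eq (by ring)) fun u h huh => by
      rw [mul_one, pow_zero, mul_one]
      rcases le_or_gt (r / 8) h with hh | hh
      · exact (persp_hk _).mono _ _ _ _ (hP.1.pow _)
          (inner_big hP h0 hΔ hA hκ hθ0 hθ1 hZ s1 hh (by omega)) (le_add_of_nonneg_right (by positivity))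
      · refine (persp_hk _).mono _ _ _ _ (hP.1.pow _) (inner_small hP hA (by positivity) _ _ _) ?_
        have t3 : κ ≤ κ * 2 ^ (r / 8) * (1 / 2) ^ h := by
          rw [mul_assoc, one_div, inv_pow, ← div_eq_mul_inv]
          exact le_mul_of_one_le_right k0.le ((one_le_div (by positivity)).2
            (pow_le_pow_right₀ one_le_two hh.le))
        exact t3.trans (le_add_of_nonneg_left (Real.exp_pos _).le)
  rw [lin_one, add_zero, Nat.sub_zero] at this
  rw [show a + 1 + b + r * (2 * J + 1) - 1 - (a + r * (J + 1)) = b + r * J by omega]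
  refine (persp_hk _).mono _ _ _ _ (hP.1.pow _) this ?_
  have t1 := (num r).trans (Real.exp_le_exp.2 (show -(r / 25 : ℝ) ≤ -Z by linarith))
  have t2 := mul_le_mul_of_nonneg_left t1 k0.le
  have t3 := mul_le_mul_of_nonneg_right hκ (Real.exp_pos (-Z)).le
  simp only [pow_zero, mul_one]
  linarith

/-- `ν_(a+1) - ν_a = - lin F (X^a * tmP 1)`: outer `r` windows by `smooth persp_dom`
(`ψ j u h = 128 κ/r / √(h + j/8 + 1)`), inner bound `first_order` with `k = 1`. -/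
theorem dom_shift {P Δ : MA G} {κ : ℝ} {J : ℕ} (hP : Prob P) (h0 : mass Δ = 0) (hΔ : Dom Δ P κ)
    (hC : Coin P J (1 / 2)) (M a r : ℕ) (hr : 0 < r) (ha : 2 * (r * (J + 1)) ≤ a)
    (hM : a + 2 + 2 * (r * (J + 1)) ≤ M) :
    Dom (P ^ (a + 1) * Δ * P ^ (M - 2 - a) - P ^ a * Δ * P ^ (M - 1 - a)) (P ^ M)
      (400 * κ / (r * √r)) := by
  obtain ⟨a, rfl⟩ := Nat.exists_eq_add_of_le' (show r * (J + 1) ≤ a by omega)
  have e1 : r * (J + 1) = r * J + r := by ring
  have e2 : r * (2 * J + 1) = r * J + r * J + r := by ring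
  obtain ⟨b, rfl⟩ : ∃ b, M = a + 1 + b + r * (2 * J + 1) := ⟨M - (a + 1 + r * (2 * J + 1)), by omega⟩
  have k0 := hΔ.1
  have r0 : (0 : ℝ) < r := by exact_mod_cast hr
  have := outer persp_dom Δ hP hC (a := a) (b := b) (r := r) (tmP 1) (tmP_supp 1) (by omega)
    (fun j h => 128 * κ / r * (1 / √(h + j / 8 + 1)))
    (fun j h => by
      have h3 := mul_le_mul_of_nonneg_left (super_inv_sqrt (c := 1 / 4) (x := h + j / 8 + 1) (by norm_num)
        (by norm_num) (le_add_of_nonneg_left (by positivity))) (show 0 ≤ 128 * κ / r by positivity)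
      rw [show ((h + 1 : ℕ) : ℝ) + j / 8 + 1 = h + j / 8 + 1 + 1 by push_cast; ring,
        show (h : ℝ) + ((j + 1 : ℕ) : ℝ) / 8 + 1 = h + j / 8 + 1 + 1 / 4 / 2 by push_cast; ring]
      linarith)
    fun u h huh => by
      refine (first_order hP hC h0 hΔ r hr 1 (a + 1 + b) _ _ _ ((supp_X_pow (a + u)).mul (bin_supp h))
        (by omega) (by omega)).mono (hP.1.pow _) ?_
      rw [nsq_X_pow_mul, show κ * (32 * 4 ^ 1 / r) ^ 1 = 128 * κ / r by ring]
      exact mul_le_mul_of_nonneg_left (by simpa using nsq_bin h) (by positivity)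
  have e : tmP 1 = X ^ 0 - X ^ 1 := by simp [tmP]
  rw [e, lin_sub, lin_X_pow, lin_X_pow, add_zero, Nat.sub_zero] at this
  rw [show a + 1 + b + r * (2 * J + 1) - 1 - (a + r * (J + 1)) = b + r * J by omega,
    show a + 1 + b + r * (2 * J + 1) - 2 - (a + r * (J + 1)) = b + r * J - 1 by omega, ← neg_sub]
  refine this.neg.mono (hP.1.pow _) ?_
  have s0 : 0 < √(r : ℝ) := Real.sqrt_pos.2 r0
  have t : 128 * √(r : ℝ) ≤ 400 * √((0 : ℕ) + r / 8 + 1 : ℝ) := by
    refine abs_le_of_sq_le_sq' ?_ (by positivity) |>.2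
    rw [mul_pow, mul_pow, Real.sq_sqrt r0.le, Real.sq_sqrt (by positivity)]
    push_cast
    linarith
  rw [div_mul_div_comm, div_le_div_iff₀ (by positivity) (by positivity)]
  nlinarith [mul_le_mul_of_nonneg_left t (mul_nonneg k0 r0.le)]

/-- Level 1. `ρ = P^M`, `U = ρ + ν_a`, `V = ρ + ν_(a+1)`, `E = {g | |ν_a g| > θ ρ g ∨ |ν_(a+1) g| > θ ρ g}`.
`hk_tail` (four times) gives `ρ(E) ≤ 16 κ e^(-Z)/θ`; `|ν_i| ≤ κ ρ`. `W = 1_(Eᶜ) (V - U)`, `m = mass W`,
`|m| ≤ 2κ ρ(E) ≤ τ`; `Q = U + W - m • U`. Off `E`: `U ≥ ρ/2`, `|W| ≤ 2θρ ≤ 4θ U`. -/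
theorem level1 {P Δ : MA G} {κ θ Z τ : ℝ} {J : ℕ} (hP : Prob P) (hQ : Prob (P + Δ))
    (hΔ : Dom Δ P κ) (hA : Abs Δ κ P) (hκ : 1 ≤ κ) (hC : Coin P J (1 / 2)) (M a r : ℕ)
    (ha : 2 * (r * (J + 1)) ≤ a) (hM : a + 2 + 2 * (r * (J + 1)) ≤ M) (hθ0 : 0 < θ)
    (hθ1 : θ ≤ 1 / 8) (hZ : 1 ≤ Z) (hr1 : 16 * κ * Z ≤ θ ^ 2 * √(r / 8)) (hr2 : 25 * Z ≤ r)
    (hτ : 32 * κ ^ 2 * Real.exp (-Z) / θ ≤ τ) (hτθ : τ ≤ θ) :
    ∃ Q : MA G, Prob Q ∧ L1 (Q - P ^ (a + 1) * (P + Δ) * P ^ (M - 2 - a)) (2 * τ) ∧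
      Dom (Q - P ^ a * (P + Δ) * P ^ (M - 1 - a)) (P ^ a * (P + Δ) * P ^ (M - 1 - a))
        (1600 * κ / (r * √r) + 2 * τ ^ 2) ∧
      Abs (Q - P ^ a * (P + Δ) * P ^ (M - 1 - a)) (5 * θ) (P ^ a * (P + Δ) * P ^ (M - 1 - a)) := by
  have h0 := mass_eq_zero_of_prob hP hQ
  have e : ∀ i j, i + 1 + j = M → P ^ i * (P + Δ) * P ^ j = P ^ M + P ^ i * Δ * P ^ j := fun i j h => by
    rw [mul_add, add_mul, ← pow_succ, ← pow_add, h]
  have ab : ∀ i j, i + 1 + j = M → Abs (P ^ i * Δ * P ^ j) κ (P ^ M) := fun i j h => by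
    have := ((Abs.refl (hP.1.pow i)).mul hA).mul (Abs.refl (hP.1.pow j))
    rwa [← pow_succ, ← pow_add, h, one_mul, mul_one] at this
  have k := fun i hi hi' => hk_tail hP h0 hΔ hA hκ hC M i r hi hi' hθ0 (by linarith) hZ hr1 hr2
  have k' := fun i hi hi' => hk_tail hP (by rw [mass_neg, h0, neg_zero]) hΔ.neg hA.neg hκ hC M i r hi hi'
    hθ0 (by linarith) hZ hr1 hr2
  simp only [mul_neg, neg_mul] at k'
  have pU := ((hP.pow a).mul hQ).mul (hP.pow (M - 1 - a))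
  have pV := ((hP.pow (a + 1)).mul hQ).mul (hP.pow (M - 2 - a))
  have e2 : M - 1 - (a + 1) = M - 2 - a := by omega
  rw [e _ _ (by omega)] at pU pV ⊢
  rw [e a _ (by omega)]
  obtain ⟨Q, q1, q2, q3, q4⟩ := truncate (hP.pow M) pU pV (ab _ _ (by omega)) (ab _ _ (by omega))
    (by linarith) hθ0 hθ1 (k a (by omega) (by omega)) (k' a (by omega) (by omega))
    (e2 ▸ k (a + 1) (by omega) (by omega)) (e2 ▸ k' (a + 1) (by omega) (by omega))
    (le_of_eq_of_le (by ring) hτ) hτθ (dom_shift hP h0 hΔ hC M a r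
      (by exact_mod_cast (show (0 : ℝ) < r by linarith)) ha hM)
  exact ⟨Q, q1, q2, q3.mono pU.1 (le_of_eq (by ring)), q4⟩

end Crest.Agent.R300
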