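import Crest.Agent.R300.Pat

/-! Task CONV: changing the reference measure from `P^N` to a sparsely perturbed product. -/

set_option autoImplicit false
set_option linter.unusedSectionVars false

namespace Crest.Agent.R300

open Polynomial

variable {G : Type} [Monoid G]

namespace Conv

/-- reweighting -/
noncomputable def wt (a : MA G) (w : G → ℝ) : MA G :=
  MonoidAlgebra.ofCoeff (Finsupp.onFinset a.coeff.support (fun g => a.coeff g * w g)
    fun g hg => Finsupp.mem_support_iff.2 fun h => hg (by rw [h, zero_mul]))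

theorem ev_wt (a : MA G) (w f : G → ℝ) : ev (wt a w) f = ev a fun g => w g * f g :=
  ev_dens (fun _ => rfl) f

theorem wt_nn {a : MA G} (ha : NN a) {w : G → ℝ} (hw : ∀ g, 0 ≤ w g) : NN (wt a w) :=
  fun g => mul_nonneg (ha g) (hw g)

theorem ev_le_ev {a b : MA G} {f f' : G → ℝ} (h : ∀ g, a.coeff g * f g ≤ b.coeff g * f' g) :
    ev a f ≤ ev b f' := by
  classical
  rw [ev_eq_sum a f (a.coeff.support ∪ b.coeff.support) Finset.subset_union_left,
    ev_eq_sum b f' (a.coeff.support ∪ b.coeff.support) Finset.subset_union_right]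
  exact Finset.sum_le_sum fun g _ => h g

theorem inv_pow_le {x : ℝ} {Z : ℕ} (hZ : 1 ≤ Z) (h : Z * |x| ≤ 1 / 4) :
    (1 + x)⁻¹ ^ Z ≤ 1 - Z * x + 5 * Z ^ 2 * x ^ 2 := by
  have hZ' : (1 : ℝ) ≤ Z := by exact_mod_cast hZ
  have hx : |x| ≤ 1 / 4 := by nlinarith [abs_nonneg x]
  obtain ⟨hx1, hx2⟩ := abs_le.1 hx
  have h1 : (1 + x)⁻¹ ≤ Real.exp (-x + 2 * x ^ 2) := by
    refine le_trans ?_ (Real.add_one_le_exp _)
    rw [inv_eq_one_div, div_le_iff₀ (by linarith)]
    nlinarith [mul_nonneg (sq_nonneg x) (show 0 ≤ 1 + 2 * x by linarith)]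
  have h2 : (1 + x)⁻¹ ^ Z ≤ Real.exp (Z * (-x + 2 * x ^ 2)) := by
    rw [Real.exp_nat_mul]
    exact pow_le_pow_left₀ (inv_nonneg.2 (by linarith)) h1 Z
  have h3 : |(Z : ℝ) * x| ≤ 1 / 4 := by rwa [abs_mul, abs_of_nonneg (by linarith : (0 : ℝ) ≤ Z)]
  have h4 : |(Z : ℝ) * (-x + 2 * x ^ 2)| ≤ 1 := by
    have e : (Z : ℝ) * (-x + 2 * x ^ 2) = (Z * x) * (2 * x - 1) := by ring
    rw [e, abs_mul]
    have : |2 * x - 1| ≤ 2 := abs_le.2 ⟨by linarith, by linarith⟩
    nlinarith [abs_nonneg ((Z : ℝ) * x), abs_nonneg (2 * x - 1)]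
  have h5 := (abs_le.1 (Real.abs_exp_sub_one_sub_id_le h4)).2
  have h6 : ((Z : ℝ) * (-x + 2 * x ^ 2)) ^ 2 ≤ 3 * (Z ^ 2 * x ^ 2) := by
    have e : ((Z : ℝ) * (-x + 2 * x ^ 2)) ^ 2 = (2 * x - 1) ^ 2 * (Z ^ 2 * x ^ 2) := by ring
    rw [e]
    exact mul_le_mul_of_nonneg_right (by nlinarith) (by positivity)
  have h7 : (Z : ℝ) * x ^ 2 ≤ Z ^ 2 * x ^ 2 :=
    mul_le_mul_of_nonneg_right (by nlinarith) (sq_nonneg x)
  linarith

theorem base {w : ℝ} (hw : 0 < w) (Z : ℕ) : 1 ≤ w + w⁻¹ ^ Z := by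
  rcases le_total 1 w with h | h
  · have : 0 ≤ w⁻¹ ^ Z := by positivity
    linarith
  · have : 1 ≤ w⁻¹ ^ Z := one_le_pow₀ (one_le_inv_iff₀.2 ⟨hw, h⟩)
    linarith

theorem markov {P Δ : MA G} (hP : NN P) {x : G → ℝ} (hx : ∀ g, Δ.coeff g = P.coeff g * x g)
    (hx1 : ∀ g, 0 < 1 + x g) (Z : ℕ) (l : List Bool) : ∀ (w : ℝ), 0 < w → ∀ f : G → ℝ,
      (∀ g, 0 ≤ f g) → ev (P ^ l.length) f ≤ w * ev (pat P Δ l) f +
        w⁻¹ ^ Z * ev (pat P (wt P (fun g => (1 + x g)⁻¹ ^ Z) - P) l) f := by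
  induction l with
  | nil =>
    intro w hw f hf
    simp only [List.length_nil, pow_zero, pat, ev_one]
    have := mul_le_mul_of_nonneg_right (base hw Z) (hf 1)
    linarith
  | cons a l ih =>
    intro w hw f hf
    rw [List.length_cons, pow_succ', ev_mul]
    cases a with
    | false =>
      simp only [pat, Bool.false_eq_true, if_false]
      rw [ev_mul, ev_mul, ← ev_fun_mul, ← ev_fun_mul, ← ev_fun_add]
      exact ev_mono hP fun g => ih w hw _ fun v => hf _
    | true =>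
      simp only [pat, if_true, add_sub_cancel]
      rw [ev_mul, ev_mul, ev_wt, ev_add, ev_dens hx, ← ev_fun_add, ← ev_fun_mul, ← ev_fun_mul,
        ← ev_fun_add]
      refine ev_mono hP fun g => ?_
      refine (ih (w * (1 + x g)) (mul_pos hw (hx1 g)) _ fun v => hf _).trans (le_of_eq ?_)
      rw [mul_inv, mul_pow]
      ring

theorem pat_mass {P Q : MA G} (hP : Prob P) (hQ : NN Q) (l : List Bool) :
    NN (pat P (Q - P) l) ∧ mass (pat P (Q - P) l) = mass Q ^ l.count true := by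
  induction l with
  | nil => simpa [pat] using NN.one
  | cons a l ih =>
    cases a with
    | false =>
      simp only [pat, Bool.false_eq_true, if_false]
      refine ⟨hP.1.mul ih.1, ?_⟩
      rw [mass_mul, hP.2, ih.2, one_mul, List.count_cons_of_ne (by simp)]
    | true =>
      simp only [pat, if_true, add_sub_cancel]
      refine ⟨hQ.mul ih.1, ?_⟩
      rw [mass_mul, ih.2, List.count_cons_self, pow_succ']

theorem two_thirds : (3 / 2 : ℝ)⁻¹ ≤ Real.exp (-(2 / 5)) := by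
  rw [Real.exp_neg]
  refine inv_anti₀ (Real.exp_pos _) ?_
  have h1 : Real.exp (1 / 40) ≤ 1 / (1 - 1 / 40) :=
    Real.exp_bound_div_one_sub_of_interval (by norm_num) (by norm_num)
  have h2 : Real.exp (2 / 5) = Real.exp (1 / 40) ^ 16 := by
    rw [← Real.exp_nat_mul]; norm_num
  rw [h2]
  refine (pow_le_pow_left₀ (Real.exp_pos _).le h1 16).trans ?_
  norm_num

theorem pat_flatten (P Δ : MA G) (l : List Bool) (N : ℕ) :
    pat P Δ (List.replicate N l).flatten = pat P Δ l ^ N := by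
  induction N with
  | zero => simp [pat]
  | succ N ih => rw [List.replicate_succ, List.flatten_cons, pat_append, ih, pow_succ']

theorem count_flatten (l : List Bool) (N : ℕ) :
    (List.replicate N l).flatten.count true = N * l.count true := by
  induction N with
  | zero => simp
  | succ N ih => rw [List.replicate_succ, List.flatten_cons, List.count_append, ih]; ring

theorem length_flatten (l : List Bool) (N : ℕ) :
    (List.replicate N l).flatten.length = N * l.length := by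
  induction N with
  | zero => simp
  | succ N ih => rw [List.replicate_succ, List.flatten_cons, List.length_append, ih]; ring

end Conv

open Conv in
/-- Negative moments. Let `x` be a density of `Δ` (`Δ.coeff g = P.coeff g * x g`, `|x| ≤ θ`;
take `x g = Δ g / P g`), `Q'` the measure with coefficients `P g * (1 + x g)⁻¹ ^ Z`.
For every list `l` and every `u > 0`:
`P^|l| ≤ (3/2) u • pat P Δ l + (2/3)^Z (u⁻¹)^Z • pat P (Q' - P) l` coefficientwise: induction on `l`
(test against `f ≥ 0`, `ev_mul`, apply the hypothesis with `u (1 + x g)` for a `true` letter);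
base case `1 ≤ (3/2) u + (2/3)^Z u⁻¹^Z`. Moreover `mass Q' ≤ 1 + 5 Z² η ≤ exp (5 Z² η)` because
`(1+x)⁻¹^Z ≤ 1 - Z x + 5 Z² x²` for `Z |x| ≤ 1/4` (`Z ≥ 1`; e.g. `(1+x)⁻¹ ≤ exp (-x + 2x²)`,
`exp y ≤ 1 + y + y²` for `|y| ≤ 1`), `∑ P x = 0`, `∑ P x² ≤ η`. Testing against the indicator of
`E = {g | pat g < P^|l| g / 2}` gives `ρ(E) ≤ (3/4) ρ(E) + (2/3)^Z exp (5 Z² η · count)`. -/
theorem neg_moment {P Δ : MA G} {η θ : ℝ} (hP : Prob P) (h0 : mass Δ = 0) (hΔ : Dom Δ P η)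
    (hA : Abs Δ θ P) (l : List Bool) (Z : ℕ) (hZ : 1 ≤ Z) (hθ : Z * θ ≤ 1 / 4)
    (hη : 25 * Z * (l.count true) * η ≤ 1) (f : G → ℝ) (hf : ∀ g, 0 ≤ f g ∧ f g ≤ 1)
    (hE : ∀ g, f g ≠ 0 → (pat P Δ l).coeff g ≤ (P ^ l.length).coeff g / 2) :
    ev (P ^ l.length) f ≤ 4 * Real.exp (-(Z / 5)) := by
  set x : G → ℝ := fun g => Δ.coeff g / P.coeff g with hxdef
  have hA' := abs_iff_coeff.1 hA
  have hZ' : (1 : ℝ) ≤ Z := by exact_mod_cast hZ
  have hx : ∀ g, Δ.coeff g = P.coeff g * x g := fun g => by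
    rcases (hP.1 g).eq_or_lt with h | h
    · have h1 := hA' g
      rw [← h, mul_zero] at h1
      rw [← h, zero_mul]; exact abs_nonpos_iff.1 h1
    · simp only [hxdef]; field_simp
  have hxZ : ∀ g, Z * |x g| ≤ 1 / 4 := fun g => by
    rcases (hP.1 g).eq_or_lt with h | h
    · simp only [hxdef]; rw [← h]; simp
    · have h1 : |x g| ≤ θ := by
        simp only [hxdef]
        rw [abs_div, abs_of_pos h, div_le_iff₀ h]; exact hA' g
      exact (mul_le_mul_of_nonneg_left h1 (by linarith)).trans hθ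
  have hx1 : ∀ g, 0 < 1 + x g := fun g => by
    have h1 : |x g| ≤ 1 / 4 := by nlinarith [hxZ g, abs_nonneg (x g)]
    linarith [(abs_le.1 h1).1]
  have hη0 := hΔ.nonneg
  have hS : (ev P fun g => x g ^ 2) ≤ η := by
    have h1 := hΔ.2 x
    rw [ev_dens hx] at h1
    simp only [← pow_two] at h1
    have h2 : 0 ≤ ev P fun g => x g ^ 2 := ev_nonneg hP.1 fun g => sq_nonneg _
    by_contra hn
    push Not at hn
    nlinarith
  set Q' := wt P fun g => (1 + x g)⁻¹ ^ Z with hQ'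
  have hQn : NN Q' := wt_nn hP.1 fun g => pow_nonneg (inv_nonneg.2 (hx1 g).le) _
  have hQm : mass Q' ≤ Real.exp (5 * Z ^ 2 * η) := by
    have h1 : mass Q' ≤ ev P fun g => 1 - Z * x g + 5 * Z ^ 2 * x g ^ 2 := by
      unfold mass
      rw [hQ', ev_wt]
      exact ev_mono hP.1 fun g => by rw [mul_one]; exact inv_pow_le hZ (hxZ g)
    have h2 : (ev P fun g => x g) = 0 := by
      have := ev_dens hx fun _ => 1
      simp only [mul_one] at this
      rw [← this]; exact h0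
    rw [ev_fun_add, ev_fun_sub, ev_fun_mul, ev_fun_mul, h2, ev_fun_const, hP.2] at h1
    have h3 := mul_le_mul_of_nonneg_left hS (show (0 : ℝ) ≤ 5 * Z ^ 2 by positivity)
    linarith [Real.add_one_le_exp (5 * Z ^ 2 * η)]
  have h1 := markov hP.1 hx hx1 Z l (3 / 2) (by norm_num) f fun g => (hf g).1
  have h2 : ev (pat P Δ l) f ≤ 1 / 2 * ev (P ^ l.length) f := by
    rw [← ev_fun_mul]
    refine ev_le_ev fun g => ?_
    by_cases h : f g = 0
    · simp [h]
    · have := mul_le_mul_of_nonneg_right (hE g h) (hf g).1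
      linarith
  obtain ⟨h3, h4⟩ := pat_mass hP hQn l
  have h5 : ev (pat P (Q' - P) l) f ≤ Real.exp (Z / 5) := by
    refine (ev_mono h3 fun g => (hf g).2).trans ?_
    refine (le_of_eq h4).trans ((pow_le_pow_left₀ hQn.mass_nonneg hQm _).trans ?_)
    rw [← Real.exp_nat_mul]
    refine Real.exp_le_exp.2 ?_
    have := mul_le_mul_of_nonneg_left hη (show (0 : ℝ) ≤ Z / 5 by positivity)
    linarith
  have h6 : (3 / 2 : ℝ)⁻¹ ^ Z ≤ Real.exp (Z * -(2 / 5)) := by
    rw [Real.exp_nat_mul]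
    exact pow_le_pow_left₀ (by norm_num) two_thirds Z
  have h7 : (3 / 2 : ℝ)⁻¹ ^ Z * ev (pat P (Q' - P) l) f ≤ Real.exp (-(Z / 5)) := by
    refine (mul_le_mul h6 h5 (ev_nonneg h3 fun g => (hf g).1) (Real.exp_pos _).le).trans
      (le_of_eq ?_)
    rw [← Real.exp_add]; congr 1; ring
  linarith

open Conv in
/-- Split `σ` along `E = {g | ρ' g < ρ g / 2}` (`ρ = P^|l|`, `ρ' = pat P Δ l`): off `E`,
`f² ρ ≤ 2 f² ρ'`; on `E`, `|σ| ≤ κ ρ'` and `ρ'(E) ≤ ρ(E)/2 ≤ 2 exp (-Z/5)`; combine with `Dom.split`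
(`ρ' = ρ' 1_E + ρ' 1_(Eᶜ)`) or directly by Cauchy-Schwarz. -/
theorem convert {P Δ σ : MA G} {η θ b κ : ℝ} (hP : Prob P) (hQ : Prob (P + Δ)) (hΔ : Dom Δ P η)
    (hA : Abs Δ θ P) (l : List Bool) (Z : ℕ) (hZ : 1 ≤ Z) (hθ : Z * θ ≤ 1 / 4)
    (hη : 25 * Z * (l.count true) * η ≤ 1) (hσ : Dom σ (P ^ l.length) b)
    (hκ : Abs σ κ (pat P Δ l)) :
    Dom σ (pat P Δ l) (2 * b + 4 * κ ^ 2 * Real.exp (-(Z / 5))) := by
  classical
  have hρ := (hP.pow l.length).1
  have hρ' := (prob_pat hP hQ l).1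
  set e : G → ℝ := fun g => if (pat P Δ l).coeff g ≤ (P ^ l.length).coeff g / 2 then 1 else 0 with he
  have he01 : ∀ g, 0 ≤ e g ∧ e g ≤ 1 := fun g => by
    simp only [he]; split_ifs <;> norm_num
  have hee : ∀ g, e g ^ 2 = e g := fun g => by
    simp only [he]; split_ifs <;> norm_num
  have hm := neg_moment hP (mass_eq_zero_of_prob hP hQ) hΔ hA l Z hZ hθ hη e he01 fun g hg => by
    by_contra hn
    exact hg (by simp only [he]; rw [if_neg hn])
  have hm' : ev (pat P Δ l) e ≤ 4 * Real.exp (-(Z / 5)) := by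
    refine le_trans (ev_le_ev fun g => ?_) hm
    simp only [he]
    split_ifs with h
    · linarith [hρ g]
    · simp
  have d1 : Dom (wt σ fun g => 1 - e g) (wt (pat P Δ l) fun g => 1 - e g) (2 * b) := by
    refine ⟨by linarith [hσ.1], fun f => ?_⟩
    rw [ev_wt, ev_wt]
    refine (hσ.2 _).trans ?_
    rw [mul_comm 2 b, mul_assoc, ← ev_fun_mul _ 2]
    refine mul_le_mul_of_nonneg_left (ev_le_ev (G := G) fun g => ?_) hσ.1
    simp only [he]
    split_ifs with h
    · simp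
    · push Not at h
      have := mul_le_mul_of_nonneg_right h.le (sq_nonneg (f g))
      simp only [sub_zero, one_mul]
      linarith
  have d2 : Dom (wt σ e) (wt (pat P Δ l) e) (4 * κ ^ 2 * Real.exp (-(Z / 5))) := by
    refine ⟨by positivity, fun f => ?_⟩
    rw [ev_wt, ev_wt]
    have h1 := hκ.ev (f := fun g => e g * f g) (F := fun g => e g * (e g * |f g|)) fun g => by
      rw [abs_mul, abs_of_nonneg (he01 g).1, ← mul_assoc, ← pow_two, hee]
    have h2 := ev_cs hρ' e fun g => e g * |f g|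
    simp only [mul_pow, hee, sq_abs] at h2
    have h3 : 0 ≤ ev (pat P Δ l) fun g => e g * f g ^ 2 :=
      ev_nonneg hρ' fun g => mul_nonneg (he01 g).1 (sq_nonneg _)
    calc (ev σ fun g => e g * f g) ^ 2 = |ev σ fun g => e g * f g| ^ 2 := (sq_abs _).symm
      _ ≤ (κ * ev (pat P Δ l) fun g => e g * (e g * |f g|)) ^ 2 :=
        pow_le_pow_left₀ (abs_nonneg _) h1 2
      _ ≤ κ ^ 2 * (4 * Real.exp (-(Z / 5)) * ev (pat P Δ l) fun g => e g * f g ^ 2) := by
        rw [mul_pow]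
        exact mul_le_mul_of_nonneg_left (h2.trans (mul_le_mul_of_nonneg_right hm' h3)) (sq_nonneg κ)
      _ = _ := by ring
  have h := Dom.split (wt_nn hρ' fun g => sub_nonneg.2 (he01 g).2) (wt_nn hρ' fun g => (he01 g).1)
    d1 d2
  have es : ∀ a : MA G, (wt a fun g => 1 - e g) + wt a e = a := fun a => ext_ev fun f => by
    rw [ev_add, ev_wt, ev_wt, ← ev_fun_add]
    congr 1
    funext g; ring
  rwa [es, es] at h

open Conv in
/-- the same for a power of a block -/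
theorem convert_pow {P Δ σ : MA G} {η θ b κ : ℝ} (hP : Prob P) (hQ : Prob (P + Δ))
    (hΔ : Dom Δ P η) (hA : Abs Δ θ P) (l : List Bool) (N Z : ℕ) (hZ : 1 ≤ Z)
    (hθ : Z * θ ≤ 1 / 4) (hη : 25 * Z * (N * l.count true) * η ≤ 1)
    (hσ : Dom σ (P ^ (N * l.length)) b) (hκ : Abs σ κ (pat P Δ l ^ N)) :
    Dom σ (pat P Δ l ^ N) (2 * b + 4 * κ ^ 2 * Real.exp (-(Z / 5))) := by
  rw [← pat_flatten] at hκ ⊢
  rw [← length_flatten] at hσ
  refine convert hP hQ hΔ hA _ Z hZ hθ ?_ hσ hκ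
  rw [count_flatten]
  push_cast
  exact hη

end Crest.Agent.R300
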