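import Crest.Agent.R300.First
import Crest.Agent.R300.Conv

/-! Level 1: shift of one defect (`dom_shift_core`) and truncation (`trunc_core`). -/

set_option autoImplicit false
set_option linter.unusedSectionVars false

namespace Crest.Agent.R300

open Polynomial

variable {G : Type} [Monoid G]

theorem dom_shift_core {P Δ : MA G} {κ : ℝ} {J : ℕ} (hP : Prob P) (h0 : mass Δ = 0)
    (hΔ : Dom Δ P κ) (hC : Coin P J (1 / 2)) (M a r : ℕ) (hr : 0 < r) (ha : 2 * (r * (J + 1)) ≤ a)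
    (hM : a + 2 + 2 * (r * (J + 1)) ≤ M) :
    Dom (P ^ (a + 1) * Δ * P ^ (M - 2 - a) - P ^ a * Δ * P ^ (M - 1 - a)) (P ^ M)
      (400 * κ / (r * √r)) := by
  have hκ := hΔ.1
  have hr' : (0 : ℝ) < r := by exact_mod_cast hr
  have e1 : r * (J + 1) = r * J + r := by ring
  have e2 : r * (2 * J + 1) = 2 * (r * J) + r := by ring
  obtain ⟨n, rfl⟩ : ∃ n, M = n + r * (2 * J + 1) := ⟨M - r * (2 * J + 1), by omega⟩
  obtain ⟨a', rfl⟩ : ∃ a', a = r * (J + 1) + a' := ⟨a - r * (J + 1), by omega⟩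
  set F : ℕ → MA G := fun i => P ^ i * Δ * P ^ (n - 1 - i) with hF
  have hpl := sm_iter_place P Δ J 0 (n - 1) 0 (n - 1) le_rfl F
    (fun s _ _ => by simp only [hF, zero_add]) r
  have key := smooth persp_dom hP hC F n (X ^ a' * tmP 1) r
    (fun j _ h => 128 * κ / r * (1 / √(h + j / 8 + 1))) (fun j u h => ?_) (fun u h huh => ?_)
    r 0 0 (by omega)
  · have e3 : lin ((sm P J)^[r] F) (X ^ 0 * bin 0 * (X ^ a' * tmP 1)) =
        ((sm P J)^[r] F) a' - ((sm P J)^[r] F) (a' + 1) := by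
      rw [pow_zero, bin_zero, one_mul, one_mul, tmP, Finset.prod_range_one, pow_zero, pow_one,
        mul_sub, mul_one, lin_sub, lin_X_pow, ← pow_succ, lin_X_pow]
    rw [e3, hpl a' (by omega) (by omega), hpl (a' + 1) (by omega) (by omega)] at key
    have key' := key.neg
    rw [neg_sub, zero_add] at key'
    rw [show n + r * (2 * J + 1) - 2 - (r * (J + 1) + a') = n - 1 + r * J - (a' + 1) by omega,
      show n + r * (2 * J + 1) - 1 - (r * (J + 1) + a') = n - 1 + r * J - a' by omega,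
      add_assoc]
    refine key'.mono (hP.1.pow _) ?_
    have s0 : 0 < √(r : ℝ) := Real.sqrt_pos.2 hr'
    have h1 : √(r : ℝ) / 3 ≤ √(((0 : ℕ) : ℝ) + r / 8 + 1) := Real.le_sqrt_of_sq_le (by
      rw [div_pow, Real.sq_sqrt hr'.le]; push_cast; linarith)
    calc 128 * κ / r * (1 / √(((0 : ℕ) : ℝ) + r / 8 + 1)) ≤ 128 * κ / r * (1 / (√r / 3)) :=
          mul_le_mul_of_nonneg_left (one_div_le_one_div_of_le (by positivity) h1) (by positivity)
      _ = 384 * κ / (r * √r) := by field_simp; ring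
      _ ≤ _ := by gcongr; norm_num
  · have h3 := super_inv_sqrt (c := 1 / 4) (x := h + j / 8 + 1) (by norm_num) (by norm_num)
      (by have : (0 : ℝ) ≤ h + j / 8 := by positivity
          linarith)
    have h4 := mul_le_mul_of_nonneg_left h3 (by positivity : 0 ≤ 128 * κ / r)
    rw [show ((h + 1 : ℕ) : ℝ) + j / 8 + 1 = h + j / 8 + 1 + 1 by push_cast; ring,
      show (h : ℝ) + ((j + 1 : ℕ) : ℝ) / 8 + 1 = h + j / 8 + 1 + 1 / 4 / 2 by push_cast; ring]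
    linarith
  · have hs : Supp (X ^ u * bin h * X ^ a') (u + 0 + a') (u + h + a') :=
      ((supp_X_pow u).mul (bin_supp h)).mul (supp_X_pow a')
    have h1 := first_order hP hC h0 hΔ r hr 1 n _ _ _ hs (by omega) (by omega)
    rw [← mul_assoc]
    refine h1.mono (hP.1.pow _) ?_
    rw [mul_right_comm (X ^ u), ← pow_add, nsq_X_pow_mul]
    have h2 := nsq_bin h
    calc κ * (32 * 4 ^ 1 / r) ^ 1 * nsq (bin h) = 128 * κ / r * nsq (bin h) := by ring
      _ ≤ 128 * κ / r * (1 / √(h + 1)) := mul_le_mul_of_nonneg_left h2 (by positivity)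
      _ = _ := by simp

/-- mass of the set where the signal exceeds `θ ρ` -/
theorem Hk.mass_le {ν ρ : MA G} {θ B : ℝ} (h : Hk (θ / 2) ν ρ B) (hθ : 0 < θ) :
    ev ρ (fun g => if θ * ρ.coeff g < ν.coeff g then 1 else 0) ≤ 2 * B / θ := by
  have h1 := h (fun g => if θ * ρ.coeff g < ν.coeff g then 1 else 0) fun g => by
    split_ifs <;> norm_num
  have h2 := Conv.ev_le_ev (a := θ • ρ) (b := ν)
    (f := fun g => if θ * ρ.coeff g < ν.coeff g then 1 else 0)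
    (f' := fun g => if θ * ρ.coeff g < ν.coeff g then 1 else 0) fun g => by
      rw [MonoidAlgebra.coeff_smul_apply, smul_eq_mul]
      split_ifs with hg
      · linarith
      · simp
  rw [ev_smul] at h2
  rw [le_div_iff₀ hθ]
  linarith

/-- truncation of the pair `ρ + ν₀`, `ρ + ν₁` -/
theorem trunc_core {ρ ν₀ ν₁ : MA G} {κ θ B τ b : ℝ} (hρ : Prob ρ) (hU : Prob (ρ + ν₀))
    (hV : Prob (ρ + ν₁)) (hA₀ : Abs ν₀ κ ρ) (hA₁ : Abs ν₁ κ ρ) (hκ : 0 ≤ κ) (hθ0 : 0 < θ)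
    (hθ1 : θ ≤ 1 / 8) (t₁ : Hk (θ / 2) ν₀ ρ B) (t₂ : Hk (θ / 2) (-ν₀) ρ B)
    (t₃ : Hk (θ / 2) ν₁ ρ B) (t₄ : Hk (θ / 2) (-ν₁) ρ B) (hτ : 16 * κ * B / θ ≤ τ) (hτθ : τ ≤ θ)
    (hD : Dom (ν₁ - ν₀) ρ b) :
    ∃ Q : MA G, Prob Q ∧ L1 (Q - (ρ + ν₁)) (2 * τ) ∧
      Dom (Q - (ρ + ν₀)) (ρ + ν₀) (4 * b + 2 * τ ^ 2) ∧ Abs (Q - (ρ + ν₀)) (5 * θ) (ρ + ν₀) := by
  classical
  set χ : G → ℝ := fun g =>
    if |ν₀.coeff g| ≤ θ * ρ.coeff g ∧ |ν₁.coeff g| ≤ θ * ρ.coeff g then 1 else 0 with hχ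
  have hχ0 : ∀ g, 0 ≤ χ g ∧ χ g ≤ 1 := fun g => by simp only [hχ]; split_ifs <;> norm_num
  have hE : ev ρ (fun g => 1 - χ g) ≤ 8 * B / θ := by
    have h1 := t₁.mass_le hθ0
    have h2 := t₂.mass_le hθ0
    have h3 := t₃.mass_le hθ0
    have h4 := t₄.mass_le hθ0
    have h5 := ev_mono hρ.1 (f := fun g => 1 - χ g)
      (g := fun g => (((if θ * ρ.coeff g < ν₀.coeff g then 1 else 0) +
        (if θ * ρ.coeff g < (-ν₀).coeff g then 1 else 0)) +
        (if θ * ρ.coeff g < ν₁.coeff g then 1 else 0)) +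
        (if θ * ρ.coeff g < (-ν₁).coeff g then 1 else 0)) fun g => by
      simp only [hχ, MonoidAlgebra.coeff_neg, Finsupp.neg_apply, abs_le]
      split_ifs <;> first | (norm_num; done) | (exfalso; grind)
    rw [ev_fun_add, ev_fun_add, ev_fun_add] at h5
    have : 8 * B / θ = 2 * B / θ + 2 * B / θ + 2 * B / θ + 2 * B / θ := by ring
    linarith
  have hAd : Abs (ν₁ - ν₀) (κ + κ) ρ := hA₁.sub hA₀
  have hbad : ∀ f : G → ℝ, (∀ g, |f g| ≤ 1) →
      |ev (ν₁ - ν₀) fun g => (1 - χ g) * f g| ≤ τ := fun f hf => by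
    refine (hAd.ev (F := fun g => 1 - χ g) fun g => ?_).trans ?_
    · rw [abs_mul, abs_of_nonneg (by linarith [(hχ0 g).2])]
      exact mul_le_of_le_one_right (by linarith [(hχ0 g).2]) (hf g)
    · calc (κ + κ) * ev ρ (fun g => 1 - χ g) ≤ (κ + κ) * (8 * B / θ) :=
            mul_le_mul_of_nonneg_left hE (by linarith)
        _ = 16 * κ * B / θ := by ring
        _ ≤ τ := hτ
  set W := Conv.wt (ν₁ - ν₀) χ with hW
  have hWc : ∀ g, W.coeff g = (ν₁.coeff g - ν₀.coeff g) * χ g := fun g => by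
    rw [← Finsupp.sub_apply, ← MonoidAlgebra.coeff_sub]; rfl
  have hUc : ∀ g, (ρ + ν₀).coeff g = ρ.coeff g + ν₀.coeff g := fun g => by
    rw [MonoidAlgebra.coeff_add, Finsupp.add_apply]
  have hsplit : ∀ f : G → ℝ, ev W f = ev (ν₁ - ν₀) f - ev (ν₁ - ν₀) fun g => (1 - χ g) * f g :=
    fun f => by
      rw [hW, Conv.ev_wt, ← ev_fun_sub]
      congr 1; funext g; ring
  have hm : |mass W| ≤ τ := by
    have h1 := hsplit fun _ => 1
    have h2 : mass (ν₁ - ν₀) = 0 := by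
      rw [mass_sub, mass_eq_zero_of_prob hρ hU, mass_eq_zero_of_prob hρ hV, sub_zero]
    have h3 := hbad (fun _ => 1) (by simp)
    unfold mass at h2 ⊢
    rw [h1, h2, zero_sub, abs_neg]; exact h3
  have hτ0 : 0 ≤ τ := (abs_nonneg _).trans hm
  have hWA : Abs W (4 * θ) (ρ + ν₀) := abs_iff_coeff.2 fun g => by
    have h1 := hU.1 g
    have h2 := hρ.1 g
    rw [hWc]
    rw [hUc] at h1 ⊢
    simp only [hχ]
    split_ifs with hg
    · obtain ⟨⟨a1, a2⟩, a3, a4⟩ := (⟨abs_le.1 hg.1, abs_le.1 hg.2⟩ : _ ∧ _)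
      rw [mul_one, abs_le]
      have h3 : θ * ρ.coeff g ≤ 1 / 8 * ρ.coeff g := mul_le_mul_of_nonneg_right hθ1 h2
      have h4 : θ * (ρ.coeff g / 2) ≤ θ * (ρ.coeff g + ν₀.coeff g) :=
        mul_le_mul_of_nonneg_left (by linarith) hθ0.le
      constructor <;> linarith
    · rw [mul_zero, abs_zero]; positivity
  have hmA : Abs (mass W • (ρ + ν₀)) θ (ρ + ν₀) :=
    ((Abs.refl hU.1).smul (mass W)).mono hU.1 (by linarith)
  have eQ : ρ + ν₀ + (W - mass W • (ρ + ν₀)) - (ρ + ν₀) = W - mass W • (ρ + ν₀) := by abel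
  have hA : Abs (W - mass W • (ρ + ν₀)) (5 * θ) (ρ + ν₀) := by
    have := hWA.sub hmA
    rwa [show 4 * θ + θ = 5 * θ by ring] at this
  refine ⟨ρ + ν₀ + (W - mass W • (ρ + ν₀)), ⟨fun g => ?_, ?_⟩, fun f hf => ?_, ?_, ?_⟩
  · have h1 := (abs_le.1 (abs_iff_coeff.1 hA g)).1
    have h2 := hU.1 g
    rw [MonoidAlgebra.coeff_add, Finsupp.add_apply]
    nlinarith
  · rw [mass_add, mass_sub, mass_smul, hU.2]; ring
  · have h1 := hsplit f
    have h2 := abs_le.1 (hbad f hf)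
    have h3 := (hU.l1.smul (mass W)).abs_ev hf
    rw [show ρ + ν₀ + (W - mass W • (ρ + ν₀)) - (ρ + ν₁) =
      W - (ν₁ - ν₀) - mass W • (ρ + ν₀) by abel, ev_sub, ev_sub]
    have h4 := (abs_le.1 h3).1
    linarith
  · rw [eQ]
    have h1 : Dom W (ρ + ν₀) (2 * b) := by
      refine ⟨by linarith [hD.1], fun f => ?_⟩
      rw [hW, Conv.ev_wt]
      refine (hD.2 _).trans ?_
      rw [mul_comm 2 b, mul_assoc, ← ev_smul 2]
      refine mul_le_mul_of_nonneg_left (Conv.ev_le_ev fun g => ?_) hD.1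
      have h1 := hU.1 g
      have h2 := hρ.1 g
      rw [MonoidAlgebra.coeff_smul_apply, smul_eq_mul]
      rw [hUc] at h1 ⊢
      simp only [hχ]
      split_ifs with hg
      · have a1 := (abs_le.1 hg.1).1
        have h3 : θ * ρ.coeff g ≤ 1 / 8 * ρ.coeff g := mul_le_mul_of_nonneg_right hθ1 h2
        rw [one_mul]
        exact mul_le_mul_of_nonneg_right (by linarith) (sq_nonneg _)
      · simp only [zero_mul, ne_eq, OfNat.ofNat_ne_zero, not_false_eq_true, zero_pow, mul_zero]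
        positivity
    refine (h1.sub hU.1 (hU.dom.smul (mass W))).mono hU.1 ?_
    have : mass W ^ 2 ≤ τ ^ 2 := by rw [← sq_abs]; exact pow_le_pow_left₀ (abs_nonneg _) hm 2
    linarith
  · rw [eQ]; exact hA

/-- `level1` from the tail bound -/
theorem level1_core {P Δ : MA G} {κ θ Z τ : ℝ} {J : ℕ} (hP : Prob P) (hQ : Prob (P + Δ))
    (hΔ : Dom Δ P κ) (hA : Abs Δ κ P) (hκ : 1 ≤ κ) (hC : Coin P J (1 / 2)) (M a r : ℕ)
    (ha : 2 * (r * (J + 1)) ≤ a) (hM : a + 2 + 2 * (r * (J + 1)) ≤ M) (hθ0 : 0 < θ)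
    (hθ1 : θ ≤ 1 / 8) (hZ : 1 ≤ Z) (hr2 : 25 * Z ≤ r)
    (hτ : 32 * κ ^ 2 * Real.exp (-Z) / θ ≤ τ) (hτθ : τ ≤ θ)
    (tail : ∀ (D : MA G) (i : ℕ), mass D = 0 → Dom D P κ → Abs D κ P → r * (J + 1) ≤ i →
      i + 1 + r * (J + 1) ≤ M →
      Hk (θ / 2) (P ^ i * D * P ^ (M - 1 - i)) (P ^ M) (2 * κ * Real.exp (-Z))) :
    ∃ Q : MA G, Prob Q ∧ L1 (Q - P ^ (a + 1) * (P + Δ) * P ^ (M - 2 - a)) (2 * τ) ∧
      Dom (Q - P ^ a * (P + Δ) * P ^ (M - 1 - a)) (P ^ a * (P + Δ) * P ^ (M - 1 - a))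
        (1600 * κ / (r * √r) + 2 * τ ^ 2) ∧
      Abs (Q - P ^ a * (P + Δ) * P ^ (M - 1 - a)) (5 * θ) (P ^ a * (P + Δ) * P ^ (M - 1 - a)) := by
  have h0 := mass_eq_zero_of_prob hP hQ
  have h0' : mass (-Δ) = 0 := by rw [mass_neg, h0, neg_zero]
  have hr : 0 < r := by
    have : (0 : ℝ) < r := by linarith
    exact_mod_cast this
  have eM : M - 1 - (a + 1) = M - 2 - a := by omega
  have e : ∀ i j, i + 1 + j = M → P ^ i * (P + Δ) * P ^ j = P ^ M + P ^ i * Δ * P ^ j :=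
    fun i j hij => by rw [mul_add, add_mul, ← pow_succ, ← pow_add, hij]
  have ab : ∀ i j, i + 1 + j = M → Abs (P ^ i * Δ * P ^ j) κ (P ^ M) := fun i j hij => by
    have := ((Abs.refl (hP.1.pow i)).mul hA).mul (Abs.refl (hP.1.pow j))
    rwa [one_mul, mul_one, ← pow_succ, ← pow_add, hij] at this
  have p₀ := ((hP.pow a).mul hQ).mul (hP.pow (M - 1 - a))
  have p₁ := ((hP.pow (a + 1)).mul hQ).mul (hP.pow (M - 2 - a))
  rw [e a _ (by omega)] at p₀
  rw [e (a + 1) _ (by omega)] at p₁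
  have t₁ := tail Δ a h0 hΔ hA (by omega) (by omega)
  have t₂ := tail (-Δ) a h0' hΔ.neg hA.neg (by omega) (by omega)
  have t₃ := tail Δ (a + 1) h0 hΔ hA (by omega) (by omega)
  have t₄ := tail (-Δ) (a + 1) h0' hΔ.neg hA.neg (by omega) (by omega)
  rw [mul_neg, neg_mul] at t₂ t₄
  rw [eM] at t₃ t₄
  rw [e a _ (by omega), e (a + 1) _ (by omega)]
  have := trunc_core (hP.pow M) p₀ p₁ (ab a _ (by omega)) (ab (a + 1) _ (by omega)) (by linarith)
    hθ0 hθ1 t₁ t₂ t₃ t₄ (τ := τ) (le_trans (le_of_eq (by ring)) hτ) hτθ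
    (dom_shift_core hP h0 hΔ hC M a r hr ha hM)
  rwa [show 4 * (400 * κ / (r * √r)) = 1600 * κ / (r * √r) by ring] at this

end Crest.Agent.R300
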