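import Crest.Agent.R300.Defs

/-! Task BASIC: linear algebra of `ev`, `NN`, `Le`, `mass`, `Prob`, `Abs`, `L1`, `lin`. -/

set_option autoImplicit false
set_option linter.unusedSectionVars false

namespace Crest.Agent.R300

open Polynomial

variable {G : Type} [Monoid G]

theorem ev_eq_sum (a : MA G) (f : G → ℝ) (s : Finset G) (hs : a.coeff.support ⊆ s) :
    ev a f = ∑ g ∈ s, a.coeff g * f g := by
  unfold ev
  exact Finsupp.sum_of_support_subset _ hs _ (by simp)

@[simp] theorem ev_zero (f : G → ℝ) : ev (0 : MA G) f = 0 := by simp [ev]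

theorem ev_add (a b : MA G) (f : G → ℝ) : ev (a + b) f = ev a f + ev b f := by
  unfold ev
  rw [MonoidAlgebra.coeff_add, Finsupp.sum_add_index']
  · simp
  · intros; ring

theorem ev_smul (c : ℝ) (a : MA G) (f : G → ℝ) : ev (c • a) f = c * ev a f := by
  classical
  rw [ev_eq_sum (c • a) f a.coeff.support, ev_eq_sum a f a.coeff.support subset_rfl,
    Finset.mul_sum]
  · refine Finset.sum_congr rfl fun g _ => ?_
    rw [MonoidAlgebra.coeff_smul_apply, smul_eq_mul]; ring
  · rw [MonoidAlgebra.coeff_smul]; exact Finsupp.support_smul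

theorem ev_neg (a : MA G) (f : G → ℝ) : ev (-a) f = -ev a f := by
  have := ev_smul (-1) a f
  simpa using this

theorem ev_sub (a b : MA G) (f : G → ℝ) : ev (a - b) f = ev a f - ev b f := by
  rw [sub_eq_add_neg, ev_add, ev_neg]; ring

theorem ev_sum {ι : Type*} (T : Finset ι) (a : ι → MA G) (f : G → ℝ) :
    ev (∑ i ∈ T, a i) f = ∑ i ∈ T, ev (a i) f := by
  classical
  induction T using Finset.induction_on with
  | empty => simp
  | insert i T hi ih => rw [Finset.sum_insert hi, Finset.sum_insert hi, ev_add, ih]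

@[simp] theorem ev_single (g : G) (r : ℝ) (f : G → ℝ) :
    ev (MonoidAlgebra.single g r) f = r * f g := by
  unfold ev
  rw [MonoidAlgebra.coeff_single, Finsupp.sum_single_index]; simp

@[simp] theorem ev_one (f : G → ℝ) : ev (1 : MA G) f = f 1 := by
  rw [MonoidAlgebra.one_def, ev_single, one_mul]

theorem ev_fun_add (a : MA G) (f g : G → ℝ) :
    ev a (fun u => f u + g u) = ev a f + ev a g := by
  simp only [ev, Finsupp.sum, mul_add, Finset.sum_add_distrib]

theorem ev_fun_sub (a : MA G) (f g : G → ℝ) :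
    ev a (fun u => f u - g u) = ev a f - ev a g := by
  simp only [ev, Finsupp.sum, mul_sub, Finset.sum_sub_distrib]

theorem ev_fun_mul (a : MA G) (c : ℝ) (f : G → ℝ) :
    ev a (fun u => c * f u) = c * ev a f := by
  simp only [ev, Finsupp.sum, Finset.mul_sum]
  exact Finset.sum_congr rfl fun _ _ => by ring

theorem ev_fun_neg (a : MA G) (f : G → ℝ) : ev a (fun u => -f u) = -ev a f := by
  have := ev_fun_mul a (-1) f
  simpa using this

theorem ev_fun_const (a : MA G) (c : ℝ) : ev a (fun _ => c) = c * mass a := by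
  have := ev_fun_mul a c (fun _ => 1)
  simpa [mass] using this

theorem ev_fun_sum {ι : Type*} (a : MA G) (T : Finset ι) (f : ι → G → ℝ) :
    ev a (fun u => ∑ i ∈ T, f i u) = ∑ i ∈ T, ev a (f i) := by
  simp only [ev, Finsupp.sum, Finset.mul_sum]
  exact Finset.sum_comm

theorem ev_congr (a : MA G) {f g : G → ℝ} (h : ∀ u, a.coeff u ≠ 0 → f u = g u) :
    ev a f = ev a g := by
  unfold ev
  refine Finset.sum_congr rfl fun u hu => ?_
  simp only [h u (Finsupp.mem_support_iff.1 hu)]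

theorem ev_mul (a b : MA G) (f : G → ℝ) :
    ev (a * b) f = ev a fun u => ev b fun v => f (u * v) := by
  induction a using MonoidAlgebra.induction_linear with
  | zero => simp
  | add a a' ih ih' => rw [add_mul, ev_add, ev_add, ih, ih']
  | single u r =>
    rw [ev_single]
    induction b using MonoidAlgebra.induction_linear with
    | zero => simp
    | add b b' ih ih' => rw [mul_add, ev_add, ev_add, ih, ih']; ring
    | single v s => rw [MonoidAlgebra.single_mul_single, ev_single, ev_single]; ring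

theorem ev_comm (a b : MA G) (F : G → G → ℝ) :
    (ev a fun u => ev b fun v => F u v) = ev b fun v => ev a fun u => F u v := by
  simp only [ev, Finsupp.sum, Finset.mul_sum]
  rw [Finset.sum_comm]
  exact Finset.sum_congr rfl fun _ _ => Finset.sum_congr rfl fun _ _ => by ring

theorem ev_mul' (a b : MA G) (f : G → ℝ) :
    ev (a * b) f = ev b fun v => ev a fun u => f (u * v) := by
  rw [ev_mul, ev_comm]

theorem ev_indicator [DecidableEq G] (a : MA G) (g : G) :
    ev a (fun u => if u = g then 1 else 0) = a.coeff g := by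
  classical
  rw [ev_eq_sum a _ (insert g a.coeff.support) (Finset.subset_insert _ _)]
  simp

theorem ev_nonneg {a : MA G} (ha : NN a) {f : G → ℝ} (hf : ∀ g, 0 ≤ f g) : 0 ≤ ev a f :=
  Finset.sum_nonneg fun g _ => mul_nonneg (ha g) (hf g)

theorem ev_mono {a : MA G} (ha : NN a) {f g : G → ℝ} (h : ∀ u, f u ≤ g u) : ev a f ≤ ev a g :=
  Finset.sum_le_sum fun u _ => mul_le_mul_of_nonneg_left (h u) (ha u)

theorem nn_of_ev {a : MA G} (h : ∀ f : G → ℝ, (∀ g, 0 ≤ f g) → 0 ≤ ev a f) : NN a := by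
  classical
  intro g
  rw [← ev_indicator a g]
  exact h _ fun u => by split_ifs <;> norm_num

theorem ext_ev {a b : MA G} (h : ∀ f : G → ℝ, ev a f = ev b f) : a = b := by
  classical
  ext g
  rw [← ev_indicator a g, ← ev_indicator b g, h]

theorem NN.zero : NN (0 : MA G) := fun g => by simp

theorem NN.single (g : G) {r : ℝ} (hr : 0 ≤ r) : NN (MonoidAlgebra.single g r : MA G) :=
  nn_of_ev fun f hf => by rw [ev_single]; exact mul_nonneg hr (hf g)

theorem NN.one : NN (1 : MA G) := nn_of_ev fun f hf => by rw [ev_one]; exact hf 1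

theorem NN.add {a b : MA G} (ha : NN a) (hb : NN b) : NN (a + b) :=
  nn_of_ev fun f hf => by rw [ev_add]; exact add_nonneg (ev_nonneg ha hf) (ev_nonneg hb hf)

theorem NN.smul {a : MA G} (ha : NN a) {c : ℝ} (hc : 0 ≤ c) : NN (c • a) :=
  nn_of_ev fun f hf => by rw [ev_smul]; exact mul_nonneg hc (ev_nonneg ha hf)

theorem NN.mul {a b : MA G} (ha : NN a) (hb : NN b) : NN (a * b) :=
  nn_of_ev fun f hf => by
    rw [ev_mul]; exact ev_nonneg ha fun u => ev_nonneg hb fun v => hf _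

theorem NN.pow {a : MA G} (ha : NN a) (n : ℕ) : NN (a ^ n) := by
  induction n with
  | zero => simpa using NN.one
  | succ n ih => rw [pow_succ]; exact ih.mul ha

theorem NN.sum {ι : Type*} (T : Finset ι) {a : ι → MA G} (h : ∀ i ∈ T, NN (a i)) :
    NN (∑ i ∈ T, a i) :=
  nn_of_ev fun f hf => by
    rw [ev_sum]; exact Finset.sum_nonneg fun i hi => ev_nonneg (h i hi) hf

theorem le_iff_coeff {a b : MA G} : Le a b ↔ ∀ g, a.coeff g ≤ b.coeff g := by
  unfold Le NN
  refine forall_congr' fun g => ?_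
  rw [MonoidAlgebra.coeff_sub, Finsupp.sub_apply, sub_nonneg]

theorem Le.ev {a b : MA G} (h : Le a b) {f : G → ℝ} (hf : ∀ g, 0 ≤ f g) : ev a f ≤ ev b f := by
  have := ev_nonneg h hf
  rw [ev_sub] at this; linarith

theorem le_of_ev {a b : MA G} (h : ∀ f : G → ℝ, (∀ g, 0 ≤ f g) → ev a f ≤ ev b f) : Le a b :=
  nn_of_ev fun f hf => by rw [ev_sub]; linarith [h f hf]

theorem Le.refl (a : MA G) : Le a a := le_of_ev fun _ _ => le_rfl

theorem Le.trans {a b c : MA G} (h : Le a b) (h' : Le b c) : Le a c :=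
  le_of_ev fun _ hf => (h.ev hf).trans (h'.ev hf)

theorem Le.add {a b c d : MA G} (h : Le a b) (h' : Le c d) : Le (a + c) (b + d) :=
  le_of_ev fun _ hf => by rw [ev_add, ev_add]; exact add_le_add (h.ev hf) (h'.ev hf)

theorem Le.smul {a b : MA G} (h : Le a b) {c : ℝ} (hc : 0 ≤ c) : Le (c • a) (c • b) :=
  le_of_ev fun _ hf => by rw [ev_smul, ev_smul]; exact mul_le_mul_of_nonneg_left (h.ev hf) hc

theorem Le.smul_mono {a : MA G} (ha : NN a) {c d : ℝ} (h : c ≤ d) : Le (c • a) (d • a) :=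
  le_of_ev fun _ hf => by
    rw [ev_smul, ev_smul]; exact mul_le_mul_of_nonneg_right h (ev_nonneg ha hf)

theorem Le.mul_right {a b : MA G} (h : Le a b) {c : MA G} (hc : NN c) : Le (a * c) (b * c) := by
  unfold Le at *; rw [← sub_mul]; exact h.mul hc

theorem Le.mul_left {a b : MA G} (h : Le a b) {c : MA G} (hc : NN c) : Le (c * a) (c * b) := by
  unfold Le at *; rw [← mul_sub]; exact hc.mul h

theorem NN.of_le {a b : MA G} (ha : NN a) (h : Le a b) : NN b := by
  have : b = a + (b - a) := by abel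
  rw [this]; exact ha.add h

theorem Le.mul {a b c d : MA G} (h : Le a b) (h' : Le c d) (ha : NN a) (hc : NN c) :
    Le (a * c) (b * d) :=
  (h.mul_right hc).trans (h'.mul_left (ha.of_le h))

theorem NN.le {a : MA G} (ha : NN a) : Le 0 a := by unfold Le; simpa using ha

@[simp] theorem mass_zero : mass (0 : MA G) = 0 := ev_zero _
@[simp] theorem mass_one : mass (1 : MA G) = 1 := ev_one _
theorem mass_add (a b : MA G) : mass (a + b) = mass a + mass b := ev_add _ _ _
theorem mass_sub (a b : MA G) : mass (a - b) = mass a - mass b := ev_sub _ _ _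
theorem mass_neg (a : MA G) : mass (-a) = -mass a := ev_neg _ _
theorem mass_smul (c : ℝ) (a : MA G) : mass (c • a) = c * mass a := ev_smul _ _ _
theorem mass_sum {ι : Type*} (T : Finset ι) (a : ι → MA G) :
    mass (∑ i ∈ T, a i) = ∑ i ∈ T, mass (a i) := ev_sum _ _ _
@[simp] theorem mass_single (g : G) (r : ℝ) : mass (MonoidAlgebra.single g r : MA G) = r := by
  simp [mass]

theorem mass_mul (a b : MA G) : mass (a * b) = mass a * mass b := by
  unfold mass
  rw [ev_mul, ev_fun_const]; unfold mass; ring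

theorem mass_pow (a : MA G) (n : ℕ) : mass (a ^ n) = mass a ^ n := by
  induction n with
  | zero => simp
  | succ n ih => rw [pow_succ, mass_mul, ih, pow_succ]

theorem NN.mass_nonneg {a : MA G} (ha : NN a) : 0 ≤ mass a := ev_nonneg ha fun _ => zero_le_one

theorem Le.mass {a b : MA G} (h : Le a b) : mass a ≤ mass b := h.ev fun _ => zero_le_one

theorem Prob.one : Prob (1 : MA G) := ⟨NN.one, mass_one⟩

theorem Prob.mul {a b : MA G} (ha : Prob a) (hb : Prob b) : Prob (a * b) :=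
  ⟨ha.1.mul hb.1, by rw [mass_mul, ha.2, hb.2, one_mul]⟩

theorem Prob.pow {a : MA G} (ha : Prob a) (n : ℕ) : Prob (a ^ n) :=
  ⟨ha.1.pow n, by rw [mass_pow, ha.2, one_pow]⟩

theorem mass_eq_zero_of_prob {P Δ : MA G} (hP : Prob P) (hQ : Prob (P + Δ)) : mass Δ = 0 := by
  have := hQ.2; rw [mass_add, hP.2] at this; linarith

/-! ### `Abs` -/

theorem abs_iff_coeff {ν ρ : MA G} {κ : ℝ} :
    Abs ν κ ρ ↔ ∀ g, |ν.coeff g| ≤ κ * ρ.coeff g := by
  unfold Abs
  rw [le_iff_coeff, le_iff_coeff, ← forall_and]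
  refine forall_congr' fun g => ?_
  rw [abs_le, MonoidAlgebra.coeff_smul_apply, smul_eq_mul, MonoidAlgebra.coeff_neg,
    Finsupp.neg_apply]
  constructor
  · rintro ⟨h1, h2⟩; constructor <;> linarith
  · rintro ⟨h1, h2⟩; constructor <;> linarith

theorem Abs.ev {ν ρ : MA G} {κ : ℝ} (h : Abs ν κ ρ) {f F : G → ℝ} (hf : ∀ g, |f g| ≤ F g) :
    |ev ν f| ≤ κ * ev ρ F := by
  classical
  rw [abs_iff_coeff] at h
  rw [ev_eq_sum ν f (ν.coeff.support ∪ ρ.coeff.support) Finset.subset_union_left,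
    ev_eq_sum ρ F (ν.coeff.support ∪ ρ.coeff.support) Finset.subset_union_right, Finset.mul_sum]
  refine (Finset.abs_sum_le_sum_abs _ _).trans (Finset.sum_le_sum fun g _ => ?_)
  rw [abs_mul, ← mul_assoc]
  exact mul_le_mul (h g) (hf g) (abs_nonneg _) ((abs_nonneg _).trans (h g))

theorem abs_of_ev {ν ρ : MA G} {κ : ℝ}
    (h : ∀ f : G → ℝ, (∀ g, 0 ≤ f g) → |ev ν f| ≤ κ * ev ρ f) : Abs ν κ ρ := by
  constructor
  · exact le_of_ev fun f hf => by rw [ev_smul]; exact (le_abs_self _).trans (h f hf)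
  · exact le_of_ev fun f hf => by rw [ev_smul, ev_neg]; exact (neg_le_abs _).trans (h f hf)

theorem Abs.refl {ρ : MA G} (h : NN ρ) : Abs ρ 1 ρ :=
  abs_iff_coeff.2 fun g => by rw [abs_of_nonneg (h g), one_mul]

theorem Abs.zero {ρ : MA G} (h : NN ρ) {κ : ℝ} (hκ : 0 ≤ κ) : Abs 0 κ ρ :=
  abs_iff_coeff.2 fun g => by simpa using mul_nonneg hκ (h g)

theorem Abs.mono {ν ρ : MA G} {κ κ' : ℝ} (h : Abs ν κ ρ) (hρ : NN ρ) (hκ : κ ≤ κ') :
    Abs ν κ' ρ :=
  abs_iff_coeff.2 fun g =>
    (abs_iff_coeff.1 h g).trans (mul_le_mul_of_nonneg_right hκ (hρ g))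

theorem Abs.neg {ν ρ : MA G} {κ : ℝ} (h : Abs ν κ ρ) : Abs (-ν) κ ρ :=
  ⟨h.2, by simpa using h.1⟩

theorem Abs.add {ν μ ρ : MA G} {κ κ' : ℝ} (h : Abs ν κ ρ) (h' : Abs μ κ' ρ) :
    Abs (ν + μ) (κ + κ') ρ :=
  abs_iff_coeff.2 fun g => by
    rw [MonoidAlgebra.coeff_add, Finsupp.add_apply, add_mul]
    exact (abs_add_le _ _).trans (add_le_add (abs_iff_coeff.1 h g) (abs_iff_coeff.1 h' g))

theorem Abs.sub {ν μ ρ : MA G} {κ κ' : ℝ} (h : Abs ν κ ρ) (h' : Abs μ κ' ρ) :
    Abs (ν - μ) (κ + κ') ρ := by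
  rw [sub_eq_add_neg]; exact h.add h'.neg

theorem Abs.smul {ν ρ : MA G} {κ : ℝ} (h : Abs ν κ ρ) (c : ℝ) : Abs (c • ν) (|c| * κ) ρ :=
  abs_iff_coeff.2 fun g => by
    rw [MonoidAlgebra.coeff_smul_apply, smul_eq_mul, abs_mul, mul_assoc]
    exact mul_le_mul_of_nonneg_left (abs_iff_coeff.1 h g) (abs_nonneg c)

theorem Abs.sum {ι : Type*} (T : Finset ι) {ν : ι → MA G} {κ : ι → ℝ} {ρ : MA G} (hρ : NN ρ)
    (h : ∀ i ∈ T, Abs (ν i) (κ i) ρ) : Abs (∑ i ∈ T, ν i) (∑ i ∈ T, κ i) ρ := by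
  classical
  induction T using Finset.induction_on with
  | empty => simpa using Abs.zero hρ le_rfl
  | insert i T hi ih =>
    rw [Finset.sum_insert hi, Finset.sum_insert hi]
    exact (h i (Finset.mem_insert_self _ _)).add
      (ih fun j hj => h j (Finset.mem_insert_of_mem hj))

theorem Abs.mul {ν ρ μ σ : MA G} {κ κ' : ℝ} (h : Abs ν κ ρ) (h' : Abs μ κ' σ) :
    Abs (ν * μ) (κ * κ') (ρ * σ) := by
  refine abs_of_ev fun f hf => ?_
  rw [ev_mul, ev_mul, mul_assoc, ← ev_fun_mul]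
  exact h.ev fun u => h'.ev fun v => by rw [abs_of_nonneg (hf _)]

theorem Abs.trans_le {ν ρ ρ' : MA G} {κ c : ℝ} (h : Abs ν κ ρ) (hκ : 0 ≤ κ)
    (hle : Le ρ (c • ρ')) : Abs ν (κ * c) ρ' :=
  abs_iff_coeff.2 fun g => by
    have h1 := abs_iff_coeff.1 h g
    have h2 := le_iff_coeff.1 hle g
    rw [MonoidAlgebra.coeff_smul_apply, smul_eq_mul] at h2
    rw [mul_assoc]
    exact h1.trans (mul_le_mul_of_nonneg_left h2 hκ)

/-! ### `L1` -/

theorem L1.mono {ν : MA G} {δ δ' : ℝ} (h : L1 ν δ) (hδ : δ ≤ δ') : L1 ν δ' :=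
  fun f hf => (h f hf).trans hδ

theorem L1.nonneg {ν : MA G} {δ : ℝ} (h : L1 ν δ) : 0 ≤ δ := by
  have := h (fun _ => 0) (by simp)
  rwa [ev_fun_const, zero_mul] at this

theorem L1.neg {ν : MA G} {δ : ℝ} (h : L1 ν δ) : L1 (-ν) δ := fun f hf => by
  rw [ev_neg, ← ev_fun_neg]; exact h _ fun g => by rw [abs_neg]; exact hf g

theorem L1.symm {a b : MA G} {δ : ℝ} (h : L1 (a - b) δ) : L1 (b - a) δ := by
  have := h.neg; rwa [neg_sub] at this

theorem L1.zero : L1 (0 : MA G) 0 := fun f _ => by simp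

theorem L1.add {ν μ : MA G} {δ δ' : ℝ} (h : L1 ν δ) (h' : L1 μ δ') : L1 (ν + μ) (δ + δ') :=
  fun f hf => by rw [ev_add]; exact add_le_add (h f hf) (h' f hf)

theorem L1.trans {a b c : MA G} {δ δ' : ℝ} (h : L1 (a - b) δ) (h' : L1 (b - c) δ') :
    L1 (a - c) (δ + δ') := by
  have := h.add h'; rwa [sub_add_sub_cancel] at this

theorem L1.abs_ev {ν : MA G} {δ : ℝ} (h : L1 ν δ) {f : G → ℝ} {B : ℝ} (hf : ∀ g, |f g| ≤ B) :
    |ev ν f| ≤ B * δ := by
  have hB : 0 ≤ B := (abs_nonneg _).trans (hf 1)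
  rcases hB.eq_or_lt with rfl | hB
  · have : f = fun _ => 0 := funext fun g => abs_nonpos_iff.1 (hf g)
    rw [this, ev_fun_const]; simp
  have key : ∀ {μ : MA G}, L1 μ δ → ev μ f ≤ B * δ := fun {μ} hμ => by
    have h1 := hμ (fun g => B⁻¹ * f g) fun g => by
      rw [abs_mul, abs_inv, abs_of_pos hB, inv_mul_le_iff₀ hB, mul_one]; exact hf g
    rw [ev_fun_mul, inv_mul_le_iff₀ hB] at h1; exact h1
  have h1 := key h
  have h2 := key h.neg
  rw [ev_neg] at h2
  exact abs_le.2 ⟨by linarith, h1⟩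

theorem L1.smul {ν : MA G} {δ : ℝ} (h : L1 ν δ) (c : ℝ) : L1 (c • ν) (|c| * δ) := fun f hf => by
  rw [ev_smul]
  have := h.abs_ev hf
  rw [one_mul] at this
  calc c * ev ν f ≤ |c * ev ν f| := le_abs_self _
    _ = |c| * |ev ν f| := abs_mul _ _
    _ ≤ |c| * δ := mul_le_mul_of_nonneg_left this (abs_nonneg c)

theorem L1.sum {ι : Type*} (T : Finset ι) {ν : ι → MA G} {δ : ι → ℝ}
    (h : ∀ i ∈ T, L1 (ν i) (δ i)) : L1 (∑ i ∈ T, ν i) (∑ i ∈ T, δ i) := fun f hf => by
  rw [ev_sum]; exact Finset.sum_le_sum fun i hi => h i hi f hf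

theorem L1.mul {ν μ : MA G} {δ δ' : ℝ} (h : L1 ν δ) (h' : L1 μ δ') : L1 (ν * μ) (δ * δ') :=
  fun f hf => by
    rw [ev_mul]
    have := h.abs_ev (f := fun u => ev μ fun v => f (u * v)) (B := δ') fun u => by
      have := h'.abs_ev (f := fun v => f (u * v)) (B := 1) fun v => hf _
      rwa [one_mul] at this
    rw [mul_comm δ' δ] at this
    exact (le_abs_self _).trans this

theorem Abs.l1 {ν ρ : MA G} {κ : ℝ} (h : Abs ν κ ρ) : L1 ν (κ * mass ρ) := fun _ hf =>
  (le_abs_self _).trans (h.ev hf)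

theorem NN.l1 {a : MA G} (ha : NN a) : L1 a (mass a) := by
  simpa using (Abs.refl ha).l1

theorem Prob.l1 {a : MA G} (ha : Prob a) : L1 a 1 := by
  have := ha.1.l1; rwa [ha.2] at this

theorem Prob.l1_sub {a b : MA G} (ha : Prob a) (hb : Prob b) : L1 (a - b) 2 := by
  have := ha.l1.add hb.l1.neg
  rw [← sub_eq_add_neg] at this; norm_num at this; exact this

theorem L1.mul_sub_mul {a a' b b' : MA G} {δ δ' : ℝ} (ha' : Prob a') (hb : Prob b)
    (h : L1 (a - a') δ) (h' : L1 (b - b') δ') : L1 (a * b - a' * b') (δ + δ') := by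
  have h1 := h.mul hb.l1
  have h2 := ha'.l1.mul h'
  have h3 := h1.add h2
  have e : (a - a') * b + a' * (b - b') = a * b - a' * b' := by noncomm_ring
  rw [e, mul_one, one_mul] at h3; exact h3

/-- common part of two probability vectors -/
theorem exists_overlap {a b : MA G} {δ : ℝ} (ha : Prob a) (hb : Prob b) (h : L1 (a - b) δ) :
    ∃ S : MA G, NN S ∧ Le S a ∧ Le S b ∧ 1 - δ / 2 ≤ mass S := by
  classical
  set s := a.coeff.support ∪ b.coeff.support with hs
  let S : MA G := MonoidAlgebra.ofCoeff (Finsupp.onFinset s (fun g => min (a.coeff g) (b.coeff g))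
    (fun g hg => by
      by_contra hn
      rw [hs, Finset.mem_union, not_or, Finsupp.notMem_support_iff,
        Finsupp.notMem_support_iff] at hn
      exact hg (by rw [hn.1, hn.2, min_self])))
  have hS : ∀ g, S.coeff g = min (a.coeff g) (b.coeff g) := fun g => rfl
  refine ⟨S, fun g => by rw [hS]; exact le_min (ha.1 g) (hb.1 g),
    le_iff_coeff.2 fun g => by rw [hS]; exact min_le_left _ _,
    le_iff_coeff.2 fun g => by rw [hS]; exact min_le_right _ _, ?_⟩
  have h1 := h (fun g => if b.coeff g ≤ a.coeff g then 1 else -1) fun g => by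
    split_ifs <;> simp
  have hsub : (a - b).coeff.support ⊆ s := by
    rw [MonoidAlgebra.coeff_sub]; exact Finsupp.support_sub
  rw [ev_eq_sum _ _ s hsub] at h1
  have h2 : mass S = ∑ g ∈ s, S.coeff g * 1 :=
    ev_eq_sum S _ s (fun g hg => by
      by_contra hn
      rw [hs, Finset.mem_union, not_or, Finsupp.notMem_support_iff,
        Finsupp.notMem_support_iff] at hn
      exact Finsupp.mem_support_iff.1 hg (by rw [hS, hn.1, hn.2, min_self]))
  have h3 : mass a = ∑ g ∈ s, a.coeff g * 1 := ev_eq_sum a _ s Finset.subset_union_left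
  have h4 : mass b = ∑ g ∈ s, b.coeff g * 1 := ev_eq_sum b _ s Finset.subset_union_right
  have h5 : 2 * mass S = mass a + mass b -
      ∑ g ∈ s, (a - b).coeff g * (if b.coeff g ≤ a.coeff g then 1 else -1) := by
    rw [h2, h3, h4, Finset.mul_sum, ← Finset.sum_add_distrib, ← Finset.sum_sub_distrib]
    refine Finset.sum_congr rfl fun g _ => ?_
    rw [hS, MonoidAlgebra.coeff_sub, Finsupp.sub_apply]
    split_ifs with hg
    · rw [min_eq_right hg]; ring
    · rw [min_eq_left (le_of_not_ge hg)]; ring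
  rw [ha.2, hb.2] at h5
  linarith

/-! ### `Coin` -/

theorem Coin.of_le {P S : MA G} {J : ℕ} {c : ℝ} (hS : NN S) (h1 : Le S (P ^ J))
    (h2 : Le S (P ^ (J + 1))) (hc : 0 ≤ c) (hm : c ≤ mass S) : Coin P J c := by
  rcases hS.mass_nonneg.eq_or_lt with h0 | h0
  · exact ⟨S, hS, h1, h2, by linarith⟩
  have hq : c / mass S ≤ 1 := (div_le_one h0).2 hm
  have hle : Le ((c / mass S) • S) S := by
    have := Le.smul_mono hS hq
    rwa [one_smul] at this
  exact ⟨(c / mass S) • S, hS.smul (div_nonneg hc h0.le), hle.trans h1, hle.trans h2, by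
    rw [mass_smul]; field_simp⟩

theorem Coin.mono {P : MA G} {J J' : ℕ} {c : ℝ} (hP : Prob P) (h : Coin P J c) (hJ : J ≤ J') :
    Coin P J' c := by
  obtain ⟨S, hS, h1, h2, hm⟩ := h
  obtain ⟨d, rfl⟩ := Nat.exists_eq_add_of_le hJ
  refine ⟨S * P ^ d, hS.mul (hP.1.pow d), ?_, ?_, ?_⟩
  · rw [pow_add]; exact h1.mul_right (hP.1.pow d)
  · rw [show J + d + 1 = (J + 1) + d by ring, pow_add]; exact h2.mul_right (hP.1.pow d)
  · rw [mass_mul, hm, (hP.pow d).2, mul_one]

theorem coin_of_l1 {P : MA G} {J : ℕ} (hP : Prob P) (h : L1 (P ^ J - P ^ (J + 1)) 1) :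
    Coin P J (1 / 2) := by
  obtain ⟨S, hS, h1, h2, hm⟩ := exists_overlap (hP.pow J) (hP.pow (J + 1)) h
  exact Coin.of_le hS h1 h2 (by norm_num) (by linarith)

/-! ### `lin` -/

theorem lin_eq_sum (F : ℕ → MA G) (e : ℝ[X]) (s : Finset ℕ) (hs : e.support ⊆ s) :
    lin F e = ∑ i ∈ s, e.coeff i • F i := by
  unfold lin
  exact Polynomial.sum_eq_of_subset _ (by simp) hs

@[simp] theorem lin_zero (F : ℕ → MA G) : lin F 0 = 0 := by simp [lin]

theorem lin_add (F : ℕ → MA G) (e e' : ℝ[X]) : lin F (e + e') = lin F e + lin F e' := by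
  unfold lin
  exact Polynomial.sum_add_index _ _ _ (by simp) (fun _ _ _ => add_smul _ _ _)

theorem lin_monomial (F : ℕ → MA G) (s : ℕ) (c : ℝ) : lin F (monomial s c) = c • F s := by
  unfold lin
  exact Polynomial.sum_monomial_index _ _ (by simp)

theorem lin_X_pow (F : ℕ → MA G) (s : ℕ) : lin F (X ^ s) = F s := by
  rw [X_pow_eq_monomial, lin_monomial, one_smul]

theorem lin_one (F : ℕ → MA G) : lin F 1 = F 0 := by
  have := lin_X_pow F 0; rwa [pow_zero] at this

theorem lin_C_mul (F : ℕ → MA G) (c : ℝ) (e : ℝ[X]) : lin F (C c * e) = c • lin F e := by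
  induction e using Polynomial.induction_on' with
  | add p q hp hq => rw [mul_add, lin_add, lin_add, hp, hq, smul_add]
  | monomial n a => rw [C_mul_monomial, lin_monomial, lin_monomial, mul_smul]

theorem lin_neg (F : ℕ → MA G) (e : ℝ[X]) : lin F (-e) = -lin F e := by
  have := lin_C_mul F (-1) e
  simpa using this

theorem lin_sub (F : ℕ → MA G) (e e' : ℝ[X]) : lin F (e - e') = lin F e - lin F e' := by
  rw [sub_eq_add_neg, lin_add, lin_neg, ← sub_eq_add_neg]

theorem lin_X_pow_mul (F : ℕ → MA G) (u : ℕ) (e : ℝ[X]) :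
    lin F (X ^ u * e) = lin (fun s => F (s + u)) e := by
  induction e using Polynomial.induction_on' with
  | add p q hp hq => rw [mul_add, lin_add, lin_add, hp, hq]
  | monomial n a => rw [X_pow_mul_monomial, lin_monomial, lin_monomial]

theorem lin_X_mul (F : ℕ → MA G) (e : ℝ[X]) : lin F (X * e) = lin (fun s => F (s + 1)) e := by
  have := lin_X_pow_mul F 1 e; rwa [pow_one] at this

theorem lin_congr {F F' : ℕ → MA G} {e : ℝ[X]} (h : ∀ s, e.coeff s ≠ 0 → F s = F' s) :
    lin F e = lin F' e := by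
  unfold lin Polynomial.sum
  exact Finset.sum_congr rfl fun s hs => by simp only [h s (mem_support_iff.1 hs)]

theorem lin_fun_add (F F' : ℕ → MA G) (e : ℝ[X]) :
    lin (fun s => F s + F' s) e = lin F e + lin F' e := by
  simp only [lin, Polynomial.sum, smul_add, Finset.sum_add_distrib]

theorem lin_fun_sub (F F' : ℕ → MA G) (e : ℝ[X]) :
    lin (fun s => F s - F' s) e = lin F e - lin F' e := by
  simp only [lin, Polynomial.sum, smul_sub, Finset.sum_sub_distrib]

theorem lin_fun_smul (c : ℝ) (F : ℕ → MA G) (e : ℝ[X]) :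
    lin (fun s => c • F s) e = c • lin F e := by
  simp only [lin, Polynomial.sum, Finset.smul_sum]
  exact Finset.sum_congr rfl fun _ _ => smul_comm _ _ _

theorem lin_fun_sum {ι : Type*} (T : Finset ι) (F : ι → ℕ → MA G) (e : ℝ[X]) :
    lin (fun s => ∑ i ∈ T, F i s) e = ∑ i ∈ T, lin (F i) e := by
  simp only [lin, Polynomial.sum, Finset.smul_sum]
  exact Finset.sum_comm

theorem lin_mul_left (a : MA G) (F : ℕ → MA G) (e : ℝ[X]) :
    lin (fun s => a * F s) e = a * lin F e := by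
  simp only [lin, Polynomial.sum, Finset.mul_sum, mul_smul_comm]

theorem lin_mul_right (a : MA G) (F : ℕ → MA G) (e : ℝ[X]) :
    lin (fun s => F s * a) e = lin F e * a := by
  simp only [lin, Polynomial.sum, Finset.sum_mul, smul_mul_assoc]

theorem lin_const (a : MA G) (e : ℝ[X]) : lin (fun _ => a) e = e.eval 1 • a := by
  simp only [lin, Polynomial.sum, ← Finset.sum_smul, eval_eq_sum, one_pow, mul_one]

/-- convolution: `lin F (e * g) = ∑_s e_s • lin (F (· + s)) g` -/
theorem lin_mul (F : ℕ → MA G) (e g : ℝ[X]) :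
    lin F (e * g) = lin (fun s => lin (fun i => F (i + s)) g) e := by
  induction e using Polynomial.induction_on' with
  | add p q hp hq => rw [add_mul, lin_add, lin_add, hp, hq]
  | monomial n a =>
    rw [lin_monomial, ← C_mul_X_pow_eq_monomial, mul_assoc, lin_C_mul, lin_X_pow_mul]

theorem nsq_eq_sum (e : ℝ[X]) (s : Finset ℕ) (hs : e.support ⊆ s) :
    nsq e = ∑ i ∈ s, e.coeff i ^ 2 := by
  unfold nsq
  exact Polynomial.sum_eq_of_subset _ (by simp) hs

theorem n1_eq_sum (e : ℝ[X]) (s : Finset ℕ) (hs : e.support ⊆ s) :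
    n1 e = ∑ i ∈ s, |e.coeff i| := by
  unfold n1
  exact Polynomial.sum_eq_of_subset _ (by simp) hs

theorem nsq_nonneg (e : ℝ[X]) : 0 ≤ nsq e := Finset.sum_nonneg fun _ _ => sq_nonneg _

theorem n1_nonneg (e : ℝ[X]) : 0 ≤ n1 e := Finset.sum_nonneg fun _ _ => abs_nonneg _

theorem nsq_X_pow (s : ℕ) : nsq (X ^ s) = 1 := by
  unfold nsq
  rw [X_pow_eq_monomial, Polynomial.sum_monomial_index] <;> simp

theorem mass_lin (F : ℕ → MA G) (e : ℝ[X]) :
    mass (lin F e) = ∑ s ∈ e.support, e.coeff s * mass (F s) := by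
  rw [lin_eq_sum F e _ subset_rfl, mass_sum]
  exact Finset.sum_congr rfl fun _ _ => mass_smul _ _

end Crest.Agent.R300
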