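import Crest.Agent.R300.Dom
import Crest.Agent.R300.Poly

/-! Task SMOOTH: hidden fair coins. -/

set_option autoImplicit false
set_option linter.unusedSectionVars false

namespace Crest.Agent.R300

open Polynomial

variable {G : Type} [Monoid G]

/-- One pair of windows. Write `P^J = S + R₀`, `P^(J+1) = S + R₁` (`mass S = mass R₀ = mass R₁ = 1/2`),
`ν₀ = lin F e`, `ν₁ = lin F (X*e)`; `lin (sm P J F) e = ½ P^(J+1) ν₀ P^J + ½ P^J ν₁ P^(J+1)
 = S ((ν₀+ν₁)/2) S + ½ R₁ ν₀ P^J + ½ S ν₀ R₀ + ½ R₀ ν₁ P^(J+1) + ½ S ν₁ R₁`, the same splitting for the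
reference `P^(n+2J+1)` with `P^n` in the middle; `(ν₀+ν₁)/2 = lin F (bin 1 * e)`; use `sand`
(absorb the `½` in the left factor) and `split`: masses `¼`, `¼ + ⅛`, `¼ + ⅛`. -/
theorem smooth_step {Φ : MA G → MA G → ℝ → Prop} (hΦ : Persp Φ) {P : MA G} (hP : Prob P) {J : ℕ}
    (hC : Coin P J (1 / 2)) (F : ℕ → MA G) (n : ℕ) (e : ℝ[X]) {b₀ b₁ bm : ℝ}
    (h0 : Φ (lin F e) (P ^ n) b₀) (h1 : Φ (lin F (X * e)) (P ^ n) b₁)
    (hm : Φ (lin F (bin 1 * e)) (P ^ n) bm) :
    Φ (lin (sm P J F) e) (P ^ (n + (2 * J + 1))) (bm / 4 + 3 / 8 * (b₀ + b₁)) := by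
  obtain ⟨S, hS, h₀, h₁, hm'⟩ := hC
  have m₀ : mass (P ^ J - S) = 1 / 2 := by rw [mass_sub, (hP.pow J).2, hm']; norm_num
  have m₁ : mass (P ^ (J + 1) - S) = 1 / 2 := by rw [mass_sub, (hP.pow (J + 1)).2, hm']; norm_num
  have key : ∀ μ₀ μ₁ : MA G, (1 / 2 : ℝ) • (P ^ (J + 1) * μ₀ * P ^ J) +
      (1 / 2 : ℝ) • (P ^ J * μ₁ * P ^ (J + 1)) =
      S * ((1 / 2 : ℝ) • (μ₀ + μ₁)) * S + ((1 / 2 : ℝ) • S) * μ₀ * (P ^ J - S) +
        ((1 / 2 : ℝ) • (P ^ (J + 1) - S)) * μ₀ * P ^ J +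
        ((1 / 2 : ℝ) • S) * μ₁ * (P ^ (J + 1) - S) +
        ((1 / 2 : ℝ) • (P ^ J - S)) * μ₁ * P ^ (J + 1) := fun μ₀ μ₁ => by
    simp only [mul_add, add_mul, mul_sub, sub_mul, smul_add, smul_sub, smul_mul_assoc,
      mul_smul_comm]
    module
  have e1 : lin (sm P J F) e = (1 / 2 : ℝ) • (P ^ (J + 1) * lin F e * P ^ J) +
      (1 / 2 : ℝ) • (P ^ J * lin F (X * e) * P ^ (J + 1)) := by
    unfold sm
    rw [lin_fun_add, lin_fun_smul, lin_fun_smul, lin_mul_right, lin_mul_right, lin_mul_left,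
      lin_mul_left, lin_X_mul]
  have e2 : P ^ (n + (2 * J + 1)) = (1 / 2 : ℝ) • (P ^ (J + 1) * P ^ n * P ^ J) +
      (1 / 2 : ℝ) • (P ^ J * P ^ n * P ^ (J + 1)) := by
    rw [← pow_add, ← pow_add, ← pow_add, ← pow_add, show J + 1 + n + J = n + (2 * J + 1) by ring,
      show J + n + (J + 1) = n + (2 * J + 1) by ring, ← add_smul]
    norm_num
  have e3 : (1 / 2 : ℝ) • (lin F e + lin F (X * e)) = lin F (bin 1 * e) := by
    rw [bin_one, mul_assoc, lin_C_mul, add_mul, one_mul, lin_add]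
  have e4 : (1 / 2 : ℝ) • (P ^ n + P ^ n) = P ^ n := by module
  have hn := hP.1.pow n
  have hS' : NN ((1 / 2 : ℝ) • S) := hS.smul (by norm_num)
  have h₀' : NN ((1 / 2 : ℝ) • (P ^ J - S)) := NN.smul h₀ (by norm_num)
  have h₁' : NN ((1 / 2 : ℝ) • (P ^ (J + 1) - S)) := NN.smul h₁ (by norm_num)
  have t1 := hΦ.sand S S _ _ _ hS hS hn hm
  have t2 := hΦ.sand _ _ _ _ _ hS' h₀ hn h0
  have t3 := hΦ.sand _ _ _ _ _ h₁' (hP.1.pow J) hn h0
  have t4 := hΦ.sand _ _ _ _ _ hS' h₁ hn h1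
  have t5 := hΦ.sand _ _ _ _ _ h₀' (hP.1.pow (J + 1)) hn h1
  have n1' := (hS.mul hn).mul hS
  have n2 := (hS'.mul hn).mul h₀
  have n3 := (h₁'.mul hn).mul (hP.1.pow J)
  have n4 := (hS'.mul hn).mul h₁
  have n5 := (h₀'.mul hn).mul (hP.1.pow (J + 1))
  have t := hΦ.split _ _ _ _ _ _ (((n1'.add n2).add n3).add n4) n5
    (hΦ.split _ _ _ _ _ _ ((n1'.add n2).add n3) n4
      (hΦ.split _ _ _ _ _ _ (n1'.add n2) n3 (hΦ.split _ _ _ _ _ _ n1' n2 t1 t2) t3) t4) t5
  rw [e1, e2, key, key, e3, e4]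
  convert t using 1
  simp only [mass_smul, m₀, m₁, hm', (hP.pow J).2, (hP.pow (J + 1)).2]
  ring

/-- `r` pairs of windows, bounded by any supersolution `ψ`. Induction on `r`
(`Function.iterate_succ_apply'`). -/
theorem smooth {Φ : MA G → MA G → ℝ → Prop} (hΦ : Persp Φ) {P : MA G} (hP : Prob P) {J : ℕ}
    (hC : Coin P J (1 / 2)) (F : ℕ → MA G) (n : ℕ) (e : ℝ[X]) (R : ℕ) (ψ : ℕ → ℕ → ℕ → ℝ)
    (hψ : ∀ r u h, ψ r u (h + 1) / 4 + 3 / 8 * (ψ r u h + ψ r (u + 1) h) ≤ ψ (r + 1) u h)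
    (h0 : ∀ u h, u + h ≤ R → Φ (lin F (X ^ u * bin h * e)) (P ^ n) (ψ 0 u h)) :
    ∀ r u h, r + u + h ≤ R →
      Φ (lin ((sm P J)^[r] F) (X ^ u * bin h * e)) (P ^ (n + r * (2 * J + 1))) (ψ r u h) := by
  intro r
  induction r with
  | zero => intro u h hr; simpa using h0 u h (by omega)
  | succ r ih =>
    intro u h hr
    rw [Function.iterate_succ_apply', show n + (r + 1) * (2 * J + 1) =
      n + r * (2 * J + 1) + (2 * J + 1) by ring]
    have a1 := ih (u + 1) h (by omega)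
    have a2 := ih u (h + 1) (by omega)
    rw [show (X : ℝ[X]) ^ (u + 1) * bin h * e = X * (X ^ u * bin h * e) by ring] at a1
    rw [show (X : ℝ[X]) ^ u * bin (h + 1) * e = bin 1 * (X ^ u * bin h * e) by
      rw [bin_add]; ring] at a2
    exact hΦ.mono _ _ _ _ (hP.1.pow _) (smooth_step hΦ hP hC _ _ _ (ih u h (by omega)) a1 a2)
      (hψ r u h)

/-- windows around a rigidly shifted core -/
theorem sm_iter_place (P Z : MA G) (J a b lo hi : ℕ) (hb : hi ≤ b) (F : ℕ → MA G)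
    (hF : ∀ s, lo ≤ s → s ≤ hi → F s = P ^ (a + s) * Z * P ^ (b - s)) (j s : ℕ) (hs : lo ≤ s)
    (hsj : s + j ≤ hi) :
    ((sm P J)^[j] F) s = P ^ (a + j * (J + 1) + s) * Z * P ^ (b + j * J - s) := by
  induction j generalizing s with
  | zero => simpa using hF s hs (by omega)
  | succ j ih =>
    rw [Function.iterate_succ_apply', sm, ih s hs (by omega), ih (s + 1) (by omega) (by omega)]
    have e : ∀ x y z w : ℕ, P ^ x * (P ^ y * Z * P ^ z) * P ^ w = P ^ (x + y) * Z * P ^ (z + w) :=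
      fun x y z w => by simp only [pow_add, mul_assoc]
    have h1 : b + j * J - s + J = b + (j + 1) * J - s := by rw [add_mul, one_mul]; omega
    have h2 : b + j * J - (s + 1) + (J + 1) = b + (j + 1) * J - s := by
      rw [add_mul, one_mul]; omega
    rw [e, e, h1, h2, show J + 1 + (a + j * (J + 1) + s) = a + (j + 1) * (J + 1) + s by ring,
      show J + (a + j * (J + 1) + (s + 1)) = a + (j + 1) * (J + 1) + s by ring, ← add_smul]
    norm_num

theorem l1_lin {F : ℕ → MA G} (hF : ∀ s, L1 (F s) 1) (e : ℝ[X]) : L1 (lin F e) (n1 e) := by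
  rw [lin_eq_sum F e _ subset_rfl, n1_eq_sum e _ subset_rfl]
  exact L1.sum _ fun i _ => by simpa using (hF i).smul (e.coeff i)

/-- one-sided windows, ℓ¹ version. With `F_m s = P^(m+s)`:
`lin F_(m+J+1) e = ½ P^(J+1) lin F_m e + ½ P^J lin F_m (X e)
  = S lin F_m (bin 1 * e) + ½ R₁ lin F_m e + ½ R₀ lin F_m (X e)` (`mass S = c`, `mass Rᵢ = 1 - c`).
Induction on `r`: `L1 (lin F_(m + r(J+1)) (X^v * bin h * (1 - X^u))) (2u/√(h + c r/2 + 1))` for all
`v h` (`super_inv_sqrt`; base: `L1 (lin F_m e) (n1 e)` and `n1_bin_mul`). -/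
theorem l1_shift {P : MA G} (hP : Prob P) {J : ℕ} {c : ℝ} (hc0 : 0 ≤ c) (hC : Coin P J c)
    (r n u : ℕ) (hn : r * (J + 1) ≤ n) :
    L1 (P ^ n - P ^ (n + u)) (2 * u / √(c * r / 2 + 1)) := by
  obtain ⟨S, hS, h₀, h₁, hm⟩ := hC
  have hc1 : c ≤ 1 := by have := h₀.mass; rwa [hm, (hP.pow J).2] at this
  have m₀ : mass (P ^ J - S) = 1 - c := by rw [mass_sub, (hP.pow J).2, hm]
  have m₁ : mass (P ^ (J + 1) - S) = 1 - c := by rw [mass_sub, (hP.pow (J + 1)).2, hm]
  have key : ∀ r m h : ℕ, L1 (lin (fun s => P ^ (m + r * (J + 1) + s)) (bin h * (1 - X ^ u)))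
      (2 * u / √(h + c * r / 2 + 1)) := by
    intro r
    induction r with
    | zero =>
      intro m h
      refine (l1_lin (fun s => (hP.pow _).l1) _).mono ?_
      simpa using n1_bin_mul h u
    | succ r ih =>
      intro m h
      set e : ℝ[X] := bin h * (1 - X ^ u) with he
      set F : ℕ → MA G := fun s => P ^ (m + r * (J + 1) + s) with hF
      have a0 : L1 (lin F e) _ := ih m h
      have a1 : L1 (lin F (X * e)) (2 * u / √(h + c * r / 2 + 1)) := by
        have := ih (m + 1) h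
        rw [lin_X_mul]
        have e : (fun s => F (s + 1)) = fun s => P ^ (m + 1 + r * (J + 1) + s) := by
          funext s; simp only [hF]; congr 1; ring
        rw [e]; exact this
      have a2 : L1 (lin F (bin 1 * e)) (2 * u / √(h + c * r / 2 + 1 + 1)) := by
        have := ih m (1 + h)
        rw [bin_add, mul_assoc] at this
        convert this using 3
        push_cast; ring
      have e1 : lin (fun s => P ^ (m + (r + 1) * (J + 1) + s)) e =
          (1 / 2 : ℝ) • (P ^ (J + 1) * lin F e) + (1 / 2 : ℝ) • (P ^ J * lin F (X * e)) := by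
        rw [lin_X_mul, ← lin_mul_left, ← lin_mul_left, ← lin_fun_smul, ← lin_fun_smul,
          ← lin_fun_add]
        refine lin_congr fun s _ => ?_
        simp only [hF]
        rw [← pow_add, ← pow_add, show J + 1 + (m + r * (J + 1) + s) =
          m + (r + 1) * (J + 1) + s by ring, show J + (m + r * (J + 1) + (s + 1)) =
          m + (r + 1) * (J + 1) + s by ring, ← add_smul]
        norm_num
      have e3 : lin F (bin 1 * e) = (1 / 2 : ℝ) • (lin F e + lin F (X * e)) := by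
        rw [bin_one, mul_assoc, lin_C_mul, add_mul, one_mul, lin_add]
      have e2 : lin (fun s => P ^ (m + (r + 1) * (J + 1) + s)) e =
          S * lin F (bin 1 * e) + (1 / 2 : ℝ) • ((P ^ (J + 1) - S) * lin F e) +
            (1 / 2 : ℝ) • ((P ^ J - S) * lin F (X * e)) := by
        rw [e1, e3]
        simp only [mul_add, sub_mul, smul_add, smul_sub, mul_smul_comm]
        module
      rw [e2]
      refine (((hS.l1.mul a2).add (((NN.l1 h₁).mul a0).smul _)).add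
        (((NN.l1 h₀).mul a1).smul _)).mono ?_
      rw [hm, m₀, m₁, abs_of_pos (by norm_num : (0 : ℝ) < 1 / 2)]
      have hx : (1 : ℝ) ≤ h + c * r / 2 + 1 := by
        have : (0 : ℝ) ≤ h + c * r / 2 := by positivity
        linarith
      have := mul_le_mul_of_nonneg_left (super_inv_sqrt hc0 hc1 hx)
        (by positivity : (0 : ℝ) ≤ 2 * u)
      rw [show (h : ℝ) + c * ((r + 1 : ℕ) : ℝ) / 2 + 1 = h + c * r / 2 + 1 + c / 2 by
        push_cast; ring]
      calc _ = 2 * u * (c * (1 / √(h + c * r / 2 + 1 + 1)) +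
            (1 - c) * (1 / √(h + c * r / 2 + 1))) := by ring
        _ ≤ _ := this
        _ = _ := by ring
  obtain ⟨m, rfl⟩ := Nat.exists_eq_add_of_le' hn
  have := key r m 0
  rw [bin_zero, one_mul, lin_sub, lin_one, lin_X_pow] at this
  simpa using this

/-- amplification of a coin (`l1_shift` with `u = 1`, `coin_of_l1`) -/
theorem Coin.amp {P : MA G} (hP : Prob P) {J : ℕ} {c : ℝ} (hc0 : 0 ≤ c) (hC : Coin P J c)
    (r J' : ℕ) (hr : 6 ≤ c * r) (hJ : r * (J + 1) ≤ J') : Coin P J' (1 / 2) := by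
  refine coin_of_l1 hP ((l1_shift hP hc0 hC r J' 1 hJ).mono ?_)
  have h2 : (2 : ℝ) ≤ √(c * r / 2 + 1) := Real.le_sqrt_of_sq_le (by linarith)
  rw [div_le_one (by linarith)]
  simpa using h2

end Crest.Agent.R300
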