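import Crest.Agent.R300.TL
import Crest.Agent.R300.Smooth

/-! Task CLOSE: a sparse lattice of weak clusters is close to the pure medium (nested windows). -/

set_option autoImplicit false
set_option linter.unusedSectionVars false

namespace Crest.Agent.R300

open Polynomial

variable {G : Type} [Monoid G]

/-- `k + 1` clusters `Cl` (each `K` letters) at spacing `M`, with margins `a`, `b` -/
noncomputable def lat (P Cl : MA G) (M K k a b : ℕ) : MA G :=
  P ^ a * (Cl * P ^ (M - K)) ^ k * Cl * P ^ b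

/-- averaged collision probability after `r` pairs of windows -/
noncomputable def Th : ℕ → ℝ[X] → ℝ
  | 0, e => nsq e
  | r + 1, e => Th r (bin 1 * e) / 4 + 3 / 4 * Th r e

namespace CloseAux

open Finset

theorem Th_X_mul (r : ℕ) : ∀ e : ℝ[X], Th r (X * e) = Th r e := by
  induction r with
  | zero => exact fun e => by simpa [Th] using nsq_X_pow_mul 1 e
  | succ r ih => exact fun e => by rw [Th, Th, mul_left_comm, ih, ih]

theorem Th_X_pow (r s : ℕ) : Th r (X ^ s) = Th r 1 := by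
  induction s with
  | zero => rw [pow_zero]
  | succ s ih => rw [pow_succ', Th_X_mul, ih]

theorem Th_bin (r : ℕ) : ∀ h : ℕ, Th r (bin h) ≤ 1 / √(h + r / 8 + 1) := by
  induction r with
  | zero => exact fun h => by simpa [Th] using nsq_bin h
  | succ r ih =>
    intro h
    have h1 := ih (1 + h)
    have h2 := ih h
    have h3 := super_inv_sqrt (c := 1 / 4) (x := h + r / 8 + 1) (by norm_num) (by norm_num)
      (le_add_of_nonneg_left (by positivity))
    rw [Th, ← bin_add]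
    rw [show ((1 + h : ℕ) : ℝ) + r / 8 + 1 = h + r / 8 + 1 + 1 by push_cast; ring] at h1
    rw [show (h : ℝ) + ((r + 1 : ℕ) : ℝ) / 8 + 1 = h + r / 8 + 1 + 1 / 4 / 2 by push_cast; ring]
    linarith

/-- the chi-square potential -/
noncomputable def Psi (γ : ℝ) (t j i : ℕ) (e : ℝ[X]) : ℝ :=
  e.eval 1 ^ 2 + 2 * γ * ∑ a ∈ range j, Th (a * t + i) e

theorem sum_inv_sqrt (j : ℕ) : ∑ a ∈ range j, 1 / √((a : ℝ) + 1) ≤ 2 * √j := by
  induction j with
  | zero => simp
  | succ j ih =>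
    rw [sum_range_succ]
    push_cast
    have h0 : 0 < √((j : ℝ) + 1) := Real.sqrt_pos.2 (by positivity)
    have h1 : √((j : ℝ) + 1) ^ 2 = j + 1 := Real.sq_sqrt (by positivity)
    have h2 : √(j : ℝ) ^ 2 = j := Real.sq_sqrt (by positivity)
    have : 1 / √((j : ℝ) + 1) ≤ 2 * √((j : ℝ) + 1) - 2 * √j := by
      rw [div_le_iff₀ h0]
      nlinarith [sq_nonneg (√((j : ℝ) + 1) - √j)]
    linarith

theorem Psi_one {γ : ℝ} (hγ : 0 ≤ γ) {t₂ j : ℕ} (ht : 1 ≤ t₂) (h : 640000 * γ ^ 2 * j ≤ t₂) :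
    Psi γ (2 * t₂) j (2 * t₂) 1 ≤ 1 + 1 / 100 := by
  have t0 : (0 : ℝ) < t₂ := by exact_mod_cast ht
  have s0 : 0 < √(t₂ : ℝ) := Real.sqrt_pos.2 t0
  have h1 : ∑ a ∈ range j, Th (a * (2 * t₂) + 2 * t₂) 1 ≤ 2 / √t₂ * (2 * √j) := by
    refine le_trans ?_ (mul_le_mul_of_nonneg_left (sum_inv_sqrt j) (by positivity))
    rw [mul_sum]
    refine sum_le_sum fun a _ => ?_
    have h2 := Th_bin (a * (2 * t₂) + 2 * t₂) 0
    rw [bin_zero] at h2
    refine h2.trans ?_
    have a0 : 0 < √((a : ℝ) + 1) := Real.sqrt_pos.2 (by positivity)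
    rw [div_mul_div_comm, div_le_div_iff₀ (by positivity) (by positivity), one_mul, mul_one,
      ← Real.sqrt_mul t0.le]
    refine Real.sqrt_le_iff.2 ⟨by positivity, ?_⟩
    rw [mul_pow, Real.sq_sqrt (by positivity)]
    push_cast
    nlinarith
  have h3 : 800 * γ * √j ≤ √t₂ := by
    refine Real.le_sqrt_of_sq_le ?_
    rw [mul_pow, mul_pow, Real.sq_sqrt (by positivity)]
    linarith
  have h4 : 2 * γ * (2 / √t₂ * (2 * √j)) ≤ 1 / 100 := by
    rw [show 2 * γ * (2 / √t₂ * (2 * √j)) = 8 * γ * √j / √t₂ by ring, div_le_iff₀ s0]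
    linarith
  have h5 := mul_le_mul_of_nonneg_left h1 (show 0 ≤ 2 * γ by positivity)
  simp only [Psi, eval_one, one_pow]
  linarith

/-- the family `I` is approximated by a family with small chi-square potential -/
def Good (P : MA G) (R n z T : ℕ) (Ψ : ℝ[X] → ℝ) (I : ℕ → MA G) : Prop :=
  ∃ A : ℕ → MA G, (∀ s, Prob (A s)) ∧
    (∀ s : ℕ, L1 (I s - A s) (2 * (((s : ℝ) - z / 2) ^ 2 + T / 4) / R ^ 2)) ∧
    ∀ e, Dom (lin A e) (P ^ n) (Ψ e)

theorem far {R z T s : ℕ} (hR : 0 < R) (h : ¬ (2 * s < z + 2 * R ∧ z < 2 * s + 2 * R)) :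
    (2 : ℝ) ≤ 2 * (((s : ℝ) - z / 2) ^ 2 + T / 4) / R ^ 2 := by
  have r0 : (0 : ℝ) < R := by exact_mod_cast hR
  rw [le_div_iff₀ (by positivity)]
  have t0 : (0 : ℝ) ≤ T := Nat.cast_nonneg T
  rcases not_and_or.1 h with h | h
  · have : (z : ℝ) + 2 * R ≤ 2 * s := by exact_mod_cast not_lt.1 h
    nlinarith
  · have : 2 * (s : ℝ) + 2 * R ≤ z := by exact_mod_cast not_lt.1 h
    nlinarith

theorem l1_sand {a c ν : MA G} {δ : ℝ} (ha : Prob a) (hc : Prob c) (h : L1 ν δ) :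
    L1 (a * ν * c) δ := by
  simpa using (ha.l1.mul h).mul hc.l1

theorem window {P : MA G} {J R n z T t j i : ℕ} {γ : ℝ} {I I' : ℕ → MA G} (hP : Prob P)
    (hC : Coin P J (1 / 2)) (hR : 0 < R) (h : Good P R n (z + 1) T (Psi γ t j i) I)
    (hI : ∀ s, Prob (I' s)) (he : ∀ s, 2 * s < z + 2 * R ∧ z < 2 * s + 2 * R → I' s = sm P J I s) :
    Good P R (n + (2 * J + 1)) z (T + 1) (Psi γ t j (i + 1)) I' := by
  obtain ⟨A, hA, h1, h2⟩ := h
  have pA : ∀ s, Prob (sm P J A s) := fun s => by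
    have a1 := ((hP.pow (J + 1)).mul (hA s)).mul (hP.pow J)
    have a2 := ((hP.pow J).mul (hA (s + 1))).mul (hP.pow (J + 1))
    refine ⟨(a1.1.smul (by norm_num)).add (a2.1.smul (by norm_num)), ?_⟩
    rw [sm, mass_add, mass_smul, mass_smul, a1.2, a2.2]
    norm_num
  refine ⟨sm P J A, pA, fun s => ?_, fun e => ?_⟩
  · by_cases hs : 2 * s < z + 2 * R ∧ z < 2 * s + 2 * R
    · have a1 := (l1_sand (hP.pow (J + 1)) (hP.pow J) (h1 s)).smul (1 / 2)
      have a2 := (l1_sand (hP.pow J) (hP.pow (J + 1)) (h1 (s + 1))).smul (1 / 2)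
      have e1 : I' s - sm P J A s = (1 / 2 : ℝ) • (P ^ (J + 1) * (I s - A s) * P ^ J) +
          (1 / 2 : ℝ) • (P ^ J * (I (s + 1) - A (s + 1)) * P ^ (J + 1)) := by
        rw [he s hs]
        simp only [sm, mul_sub, sub_mul, smul_sub]
        abel
      rw [e1]
      refine (a1.add a2).mono (le_of_eq ?_)
      rw [abs_of_pos (by norm_num : (0 : ℝ) < 1 / 2)]
      push_cast
      ring
    · exact ((hI s).l1_sub (pA s)).mono (far hR hs)
  · refine (smooth_step persp_dom hP hC A n e (h2 e) (h2 _) (h2 _)).mono (hP.1.pow _) (le_of_eq ?_)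
    have hT : ∀ r (f : ℝ[X]), Th (r + 1) f = Th r (bin 1 * f) / 4 + 3 / 4 * Th r f := fun _ _ => rfl
    simp only [Psi, ← add_assoc, hT, Th_X_mul, eval_mul, eval_X, bin_eval_one, one_mul,
      sum_add_distrib, ← sum_div, ← mul_sum]
    ring

/-- a rigid core with margins, shifted by `s - z` -/
noncomputable def fam (P Z : MA G) (a b z s : ℕ) : MA G := P ^ (a + s - z) * Z * P ^ (b + z - s)

theorem prob_fam {P Z : MA G} (hP : Prob P) (hZ : Prob Z) (a b z s : ℕ) : Prob (fam P Z a b z s) :=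
  ((hP.pow _).mul hZ).mul (hP.pow _)

theorem stage {P Z : MA G} {J R n z T j a b t₂ : ℕ} {γ : ℝ} (hP : Prob P) (hZ : Prob Z)
    (hC : Coin P J (1 / 2)) (hR : 0 < R) (ha : 2 * R ≤ a) (hb : 2 * R ≤ b)
    (h : Good P R n (2 * (z + t₂)) T (Psi γ (2 * t₂) j 0) (fam P Z a b (z + t₂))) :
    Good P R (n + 2 * (t₂ * (2 * J + 1))) (2 * z) (T + 2 * t₂) (Psi γ (2 * t₂) j (2 * t₂))
      (fam P Z (a + t₂ * (2 * J + 1)) (b + t₂ * (2 * J + 1)) z) := by
  have key : ∀ i ≤ 2 * t₂, Good P R (n + i * (2 * J + 1)) (2 * (z + t₂) - i) (T + i)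
      (Psi γ (2 * t₂) j i) (fam P Z (a + i * (J + 1)) (b + i * J) (z + t₂)) := by
    intro i
    induction i with
    | zero => exact fun _ => by simpa using h
    | succ i ih =>
      intro hi
      have h1 := ih (by omega)
      rw [show 2 * (z + t₂) - i = 2 * (z + t₂) - (i + 1) + 1 by omega] at h1
      rw [add_mul i 1, one_mul, ← add_assoc, ← add_assoc T]
      refine window hP hC hR h1 (prob_fam hP hZ _ _ _) fun s hs => ?_
      have h2 : i ≤ i * (J + 1) := Nat.le_mul_of_pos_right _ (by omega)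
      have e : ∀ x y u v : ℕ, P ^ x * (P ^ y * Z * P ^ u) * P ^ v = P ^ (x + y) * Z * P ^ (u + v) :=
        fun x y u v => by simp only [pow_add, mul_assoc]
      simp only [sm, fam, e, add_mul i 1, one_mul]
      generalize i * (J + 1) = c at *
      generalize i * J = d at *
      rw [show J + 1 + (a + c + s - (z + t₂)) = a + (c + (J + 1)) + s - (z + t₂) by omega,
        show J + (a + c + (s + 1) - (z + t₂)) = a + (c + (J + 1)) + s - (z + t₂) by omega,
        show b + d + (z + t₂) - s + J = b + (d + J) + (z + t₂) - s by omega,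
        show b + d + (z + t₂) - (s + 1) + (J + 1) = b + (d + J) + (z + t₂) - s by omega, ← add_smul]
      norm_num
  have h1 := key _ le_rfl
  have e : fam P Z (a + 2 * t₂ * (J + 1)) (b + 2 * t₂ * J) (z + t₂) =
      fam P Z (a + t₂ * (2 * J + 1)) (b + t₂ * (2 * J + 1)) z := by
    funext s
    have e1 : 2 * t₂ * (J + 1) = t₂ * (2 * J + 1) + t₂ := by ring
    have e2 : t₂ * (2 * J + 1) = 2 * t₂ * J + t₂ := by ring
    rw [fam, fam, show a + 2 * t₂ * (J + 1) + s - (z + t₂) = a + t₂ * (2 * J + 1) + s - z by omega,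
      show b + 2 * t₂ * J + (z + t₂) = b + t₂ * (2 * J + 1) + z by omega]
  rwa [e, show 2 * (z + t₂) - 2 * t₂ = 2 * z by omega, mul_assoc] at h1

/-- the visible perturbation -/
noncomputable def vis (P Cl : MA G) (K R l β z s : ℕ) : MA G :=
  if 2 * s < 2 * z + 2 * R ∧ 2 * z < 2 * s + 2 * R then place P (Cl - P ^ K) l K 0 (l - K) (β + s - z)
  else 0

theorem vis_in {P Cl : MA G} {K R l β z s : ℕ} (h2 : β + R + K ≤ l)
    (hs : 2 * s < 2 * z + 2 * R ∧ 2 * z < 2 * s + 2 * R) :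
    P ^ l + vis P Cl K R l β z s = P ^ (β + s - z) * Cl * P ^ (l - K - (β + s - z)) := by
  rw [vis, if_pos hs, place, if_pos ⟨Nat.zero_le _, by omega⟩, mul_sub, sub_mul, ← pow_add, ← pow_add,
    show β + s - z + K + (l - K - (β + s - z)) = l by omega]
  abel

theorem vis_prob {P Cl : MA G} {K R l β z : ℕ} (hP : Prob P) (hCl : Prob Cl) (h2 : β + R + K ≤ l)
    (s : ℕ) : Prob (P ^ l + vis P Cl K R l β z s) := by
  by_cases hs : 2 * s < 2 * z + 2 * R ∧ 2 * z < 2 * s + 2 * R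
  · rw [vis_in h2 hs]
    exact ((hP.pow _).mul hCl).mul (hP.pow _)
  · rw [vis, if_neg hs, add_zero]
    exact hP.pow _

theorem vis_bes {P Cl : MA G} {K R l β z : ℕ} {e : ℝ} (hP : Prob P) (hCl : Prob Cl) (hK : 1 ≤ K)
    (he : Dom (Cl - P ^ K) (P ^ K) e) (h1 : R ≤ β) (h2 : β + R + K ≤ l) (T : Finset ℕ) (c : ℕ → ℝ) :
    Dom (∑ v ∈ T, c v • vis P Cl K R l β z v) (P ^ l) (K * e * ∑ v ∈ T, c v ^ 2) := by
  have hB := bes_place hP l K 0 (l - K) hK (by omega)
    (by rw [mass_sub, hCl.2, (hP.pow K).2, sub_self]) he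
  set T' := T.filter fun s => 2 * s < 2 * z + 2 * R ∧ 2 * z < 2 * s + 2 * R with hT
  have h3 := hB.finset (T'.image fun s => β + s - z) fun u => c (u + z - β)
  have inj : Set.InjOn (fun s => β + s - z) T' := fun x hx y hy hxy => by
    have := (mem_filter.1 hx).2
    have := (mem_filter.1 hy).2
    simp only at hxy
    omega
  have back : ∀ s ∈ T', β + s - z + z - β = s := fun s hs => by
    have := (mem_filter.1 hs).2
    omega
  rw [sum_image inj, sum_image inj, sum_congr rfl fun s hs => by rw [back s hs],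
    sum_congr rfl fun s hs => show c (β + s - z + z - β) ^ 2 = c s ^ 2 by rw [back s hs]] at h3
  have e1 : ∑ v ∈ T, c v • vis P Cl K R l β z v =
      ∑ s ∈ T', c s • place P (Cl - P ^ K) l K 0 (l - K) (β + s - z) := by
    rw [hT, sum_filter]
    refine sum_congr rfl fun s _ => ?_
    unfold vis
    split_ifs
    exacts [rfl, smul_zero _]
  rw [e1]
  exact h3.mono (hP.1.pow _) (mul_le_mul_of_nonneg_left
    (sum_le_sum_of_subset_of_nonneg (filter_subset _ _) fun _ _ _ => sq_nonneg _) hB.1)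

theorem vis_mass {P Cl : MA G} {K R l β z : ℕ} (hP : Prob P) (hCl : Prob Cl) (s : ℕ) :
    mass (vis P Cl K R l β z s) = 0 := by
  unfold vis
  split_ifs
  exacts [mass_place (by rw [mass_sub, hCl.2, (hP.pow K).2, sub_self]) _ _ _ _ _, mass_zero]

theorem single_dom {P : MA G} {A : ℕ → MA G} {n t j : ℕ} {γ : ℝ} (hP : Prob P)
    (h2 : ∀ e, Dom (lin A e) (P ^ n) (Psi γ t j t e)) (hΨ : Psi γ t j t 1 ≤ 2) (c : ℝ) (v : ℕ) :
    Dom (c • A v) (P ^ n) (c ^ 2 * 2) := by
  have := h2 (X ^ v)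
  rw [lin_X_pow] at this
  refine (this.mono (hP.1.pow _) ?_).smul c
  simpa [Psi, Th_X_pow] using hΨ

theorem Psi_step (γ : ℝ) (t j : ℕ) (e : ℝ[X]) :
    Psi γ t j t e + γ * ∑ v ∈ e.support, e.coeff v ^ 2 * 2 = Psi γ t (j + 1) 0 e := by
  simp only [Psi, sum_range_succ', add_mul, one_mul, add_zero, zero_mul, Th, ← sum_mul,
    nsq_eq_sum e _ subset_rfl]
  ring

theorem visL {P Cl : MA G} {K R l β z n T t j : ℕ} {e : ℝ} {I I' : ℕ → MA G} (hP : Prob P)
    (hCl : Prob Cl) (hK : 1 ≤ K) (he : Dom (Cl - P ^ K) (P ^ K) e) (hR : 0 < R) (h1 : R ≤ β)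
    (h2 : β + R + K ≤ l) (h : Good P R n (2 * z) T (Psi (K * e) t j t) I)
    (hΨ : Psi (K * e) t j t 1 ≤ 2) (hI : ∀ s, Prob (I' s))
    (hs : ∀ s, 2 * s < 2 * z + 2 * R ∧ 2 * z < 2 * s + 2 * R →
      I' s = P ^ (β + s - z) * Cl * P ^ (l - K - (β + s - z)) * I s) :
    Good P R (l + n) (2 * z) T (Psi (K * e) t (j + 1) 0) I' := by
  obtain ⟨A, hA, a1, a2⟩ := h
  have pA := fun s => (vis_prob (z := z) hP hCl h2 s).mul (hA s)
  refine ⟨_, pA, fun s => ?_, fun f => ?_⟩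
  · by_cases h3 : 2 * s < 2 * z + 2 * R ∧ 2 * z < 2 * s + 2 * R
    · rw [hs s h3, ← vis_in h2 h3, ← mul_sub]
      simpa using (vis_prob hP hCl h2 s).l1.mul (a1 s)
    · exact ((hI s).l1_sub (pA s)).mono (far hR h3)
  · have := Dom.orthL f.support (hP.pow l) (hP.1.pow n) (a2 f) (fun v _ => vis_mass hP hCl v)
      (mul_nonneg (Nat.cast_nonneg K) he.1) (vis_bes (z := z) hP hCl hK he h1 h2 _)
      fun v _ => single_dom hP a2 hΨ (f.coeff v) v
    rw [Psi_step, ← pow_add] at this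
    simp only [add_mul, lin_fun_add, lin_mul_left]
    rw [lin_eq_sum (fun s => vis P Cl K R l β z s * A s) f _ subset_rfl]
    simpa only [mul_smul_comm] using this

theorem visR {P Cl : MA G} {K R l β z n T t j : ℕ} {e : ℝ} {I I' : ℕ → MA G} (hP : Prob P)
    (hCl : Prob Cl) (hK : 1 ≤ K) (he : Dom (Cl - P ^ K) (P ^ K) e) (hR : 0 < R) (h1 : R ≤ β)
    (h2 : β + R + K ≤ l) (h : Good P R n (2 * z) T (Psi (K * e) t j t) I)
    (hΨ : Psi (K * e) t j t 1 ≤ 2) (hI : ∀ s, Prob (I' s))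
    (hs : ∀ s, 2 * s < 2 * z + 2 * R ∧ 2 * z < 2 * s + 2 * R →
      I' s = I s * (P ^ (β + s - z) * Cl * P ^ (l - K - (β + s - z)))) :
    Good P R (n + l) (2 * z) T (Psi (K * e) t (j + 1) 0) I' := by
  obtain ⟨A, hA, a1, a2⟩ := h
  have pA := fun s => (hA s).mul (vis_prob (z := z) hP hCl h2 s)
  refine ⟨_, pA, fun s => ?_, fun f => ?_⟩
  · by_cases h3 : 2 * s < 2 * z + 2 * R ∧ 2 * z < 2 * s + 2 * R
    · rw [hs s h3, ← vis_in h2 h3, ← sub_mul]
      simpa using (a1 s).mul (vis_prob hP hCl h2 s).l1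
    · exact ((hI s).l1_sub (pA s)).mono (far hR h3)
  · have := Dom.orthR f.support (hP.pow l) (hP.1.pow n) (a2 f) (fun v _ => vis_mass hP hCl v)
      (mul_nonneg (Nat.cast_nonneg K) he.1) (vis_bes (z := z) hP hCl hK he h1 h2 _)
      fun v _ => single_dom hP a2 hΨ (f.coeff v) v
    rw [Psi_step, ← pow_add] at this
    simp only [mul_add, lin_fun_add, lin_mul_right]
    rw [lin_eq_sum (fun s => A s * vis P Cl K R l β z s) f _ subset_rfl]
    simpa only [smul_mul_assoc] using this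

theorem good_one (P : MA G) (R z t : ℕ) (γ : ℝ) : Good P R 0 z 0 (Psi γ t 0 t) fun _ => 1 := by
  refine ⟨fun _ => 1, fun _ => Prob.one, fun s => ?_, fun e => ?_⟩
  · rw [sub_self]
    exact L1.zero.mono (by positivity)
  · simpa [lin_const, Psi] using (Prob.one (G := G)).dom.smul (e.eval 1)

theorem Good.cast {P : MA G} {R n n' z T T' : ℕ} {Ψ : ℝ[X] → ℝ} {I : ℕ → MA G}
    (h : Good P R n z T Ψ I) (hn : n = n') (hT : T = T') : Good P R n' z T' Ψ I := hn ▸ hT ▸ h

theorem main {P Cl : MA G} {e : ℝ} {J K R t₂ : ℕ} (hP : Prob P) (hC : Coin P J (1 / 2))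
    (hCl : Prob Cl) (he : Dom (Cl - P ^ K) (P ^ K) e) (hK1 : 1 ≤ K) (hK : K ≤ R)
    (ht1 : 1 ≤ t₂) {w : ℕ} (hw : t₂ * (2 * J + 1) = w) (ht : w ≤ R) (k : ℕ)
    (hk2 : 640000 * (K * e) ^ 2 * k ≤ t₂) : ∀ z,
    Good P R (2 * R + w + (2 * R + w + w) + k * (32 * R) + K) (2 * z) ((k + 1) * (2 * t₂))
      (Psi (K * e) (2 * t₂) (k + 1) (2 * t₂))
      (fam P ((Cl * P ^ (32 * R - K)) ^ k * Cl) (2 * R + w) (2 * R + w + w) z) ∧
    Good P R (2 * R + w + (2 * R + w + w) + k * (32 * R) + K) (2 * z) ((k + 1) * (2 * t₂))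
      (Psi (K * e) (2 * t₂) (k + 1) (2 * t₂))
      (fam P ((Cl * P ^ (32 * R - K)) ^ k * Cl) (2 * R + w + w) (2 * R + w) z) := by
  have hR : 0 < R := by omega
  have hγ : 0 ≤ K * e := mul_nonneg (Nat.cast_nonneg K) he.1
  have hZ : ∀ k, Prob ((Cl * P ^ (32 * R - K)) ^ k * Cl) := fun k =>
    ((hCl.mul (hP.pow _)).pow k).mul hCl
  induction k with
  | zero =>
    intro z
    have key : ∀ a b, 2 * R ≤ a → 2 * R ≤ b → Good P R (a + b + K + 2 * w) (2 * z) (2 * t₂)
        (Psi (K * e) (2 * t₂) 1 (2 * t₂)) (fam P Cl (a + w) (b + w) z) := fun a b ha hb => by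
      have := stage hP hCl hC hR ha hb (visL (l := a + b + K) (β := a) (z := z + t₂) hP hCl hK1 he hR
        (by omega) (by omega) (good_one P R _ (2 * t₂) _) (by simp [Psi])
        (prob_fam hP hCl a b _) fun s hs => by
          rw [fam, mul_one, show a + b + K - K - (a + s - (z + t₂)) = b + (z + t₂) - s by omega])
      rw [hw] at this
      exact this.cast (by omega) (by omega)
    simp only [pow_zero, one_mul]
    exact ⟨(key _ _ le_rfl (by omega)).cast (by omega) (by omega),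
      (key _ _ (by omega) le_rfl).cast (by omega) (by omega)⟩
  | succ k ih =>
    intro z
    have h1 : 640000 * (K * e) ^ 2 * k ≤ t₂ := by
      refine le_trans ?_ hk2
      push_cast
      nlinarith [sq_nonneg (K * e)]
    obtain ⟨hL, hR'⟩ := ih h1 (z + t₂)
    have hΨ := (Psi_one hγ ht1 hk2).trans (show (1 : ℝ) + 1 / 100 ≤ 2 by norm_num)
    constructor
    · have := stage hP (hZ (k + 1)) hC hR le_rfl (show 2 * R ≤ 2 * R + w by omega)
        (visL (l := 32 * R - 2 * w) (β := 2 * R) hP hCl hK1 he hR (by omega) (by omega) hR' hΨ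
          (prob_fam hP (hZ _) _ _ _) fun s hs => by
            simp only [fam, pow_succ', mul_assoc]
            rw [← mul_assoc (P ^ (32 * R - 2 * w - K - _)), ← pow_add]
            congr 4
            omega)
      rw [hw] at this
      exact this.cast (by rw [add_mul k 1]; omega) (by ring)
    · have := stage hP (hZ (k + 1)) hC hR (show 2 * R ≤ 2 * R + w by omega) le_rfl
        (visR (l := 32 * R - 2 * w) (β := 30 * R - 2 * w - K) hP hCl hK1 he hR (by omega) (by omega) hL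
          hΨ (prob_fam hP (hZ _) _ _ _) fun s hs => by
            simp only [fam, pow_succ, mul_assoc]
            rw [← mul_assoc (P ^ (2 * R + w + w + _ - s)), ← pow_add]
            congr 5
            · omega
            · congr 1
              omega)
      rw [hw] at this
      exact this.cast (by rw [add_mul k 1]; omega) (by ring)

end CloseAux

open CloseAux in
/-- Notation: `M = 32 M'`, `R = M'`, `t = 2 t₂` window pairs per stage, `w = t₂ (2J+1) ≤ M'`,
`d₁ = w + 2M'` (near), `d₂ = 2w + 2M'` (far), `γ = K e`.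
Facts on `Th`: `Th r (X*e) = Th r e`, `0 ≤ Th`, `Th r (bin h) ≤ 1/√(h + r/8 + 1)` (`super_inv_sqrt`,
`nsq_bin`). Put `Ψ j i e = (e.eval 1)² + 2γ ∑_{a < j} Th (a t + i) e`.
Call a family `I : ℕ → MA G` (the true laws, all `Prob`) *good* for `(n, z2, T, Ψ)` if there is a family
`A : ℕ → MA G` of probability vectors with
(1) `L1 (I s - A s) (2 ((s - z2/2)² + T/4) / R²)` for all `s` (real numbers; `z2/2` is the centre),
(2) `Dom (lin A e) (P^n) (Ψ e)` for all `e`.
* window step: if `I` is good for `(n, z2+1, T, Ψ j i)` and `I' s = sm P J I s` whenever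
  `|s - z2/2| < R`, `I'` Prob, then `I'` is good for `(n+2J+1, z2, T+1, Ψ j (i+1))` with
  `A' = sm P J A` (`smooth_step`; Kolmogorov potential: the average of the bound (1) at `s` and `s+1`
  is exactly the new bound; if `|s - z2/2| ≥ R` the bound is `≥ 2`, `Prob.l1_sub`).
* visible step (left): if `I` is good for `(n, z2, T, Ψ j t)`, `Ψ j t 1 ≤ 2`, and
  `I' s = V s * I s` whenever `|s - z2/2| < R`, where `V s = P^λ + place P (Cl - P^K) λ K lo hi (s + α)`-like
  family (`= P^λ` outside the legal range), then `I'` is good for `(λ + n, z2, T, Ψ (j+1) 0)` with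
  `A' s = V s * A s` (`Dom.orthL`, `bes_place` gives the Bessel constant `γ`, `Ψ j t (X^s) = Ψ j t 1`).
  Mirror image with `Dom.orthR`.
Statements proved together by induction on `k`, for all centres `z` (natural):
`L k`: `s ↦ lat P Cl M K k (d₁ + s - z) (d₂ + z - s)`, `R k`: `s ↦ lat P Cl M K k (d₂ + s - z) (d₁ + z - s)`
are good for `(d₁ + d₂ + kM + K, 2z, (k+1) t, Ψ (k+1) t)`. `L (k+1)`: `t` window steps (margins
`d₁ - i(J+1) + s - z …`, after `t` steps the centre is `z + t₂` and the margins are `2M'`, `d₁`), then the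
left cluster is made visible with `λ = 2M' + M - d₂` letters, leaving `R k` at centre `z + t₂`;
`L 0`, `R 0`: the visible factor is the whole word, inner family `fun _ => 1`, `n = 0`.
`Ψ j t 1 ≤ 1 + 2γ ∑_{a=1}^{j} √(8/(a t)) ≤ 1 + 4γ √(8j/t) ≤ 1 + 1/100`.
End: `z = 0`, `s = 0`: `L1 (I 0 - A 0) ((k+1) t₂/M'²) ≤ 1/10`, `Dom.sub_ref`, `Dom.l1` give `1/10`;
multiply by `P^(g₀-d₁)` and `P^(g₁-d₂)`. -/
theorem close {P Cl : MA G} {e : ℝ} {J K M' t₂ k g₀ g₁ : ℕ} (hP : Prob P) (hC : Coin P J (1 / 2))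
    (hCl : Prob Cl) (he : Dom (Cl - P ^ K) (P ^ K) e) (hK1 : 1 ≤ K) (hK : K ≤ M')
    (hJ : J + 1 ≤ M') (ht1 : 1 ≤ t₂) (ht : t₂ * (2 * J + 1) ≤ M')
    (hk1 : 10 * (k + 1) * t₂ ≤ M' ^ 2) (hk2 : 640000 * (K * e) ^ 2 * (k + 1) ≤ t₂)
    (hg₀ : 4 * M' ≤ g₀) (hg₁ : 4 * M' ≤ g₁) :
    L1 (lat P Cl (32 * M') K k g₀ g₁ - P ^ (g₀ + k * (32 * M') + K + g₁)) (1 / 5) := by
  have hk : 640000 * (K * e) ^ 2 * k ≤ t₂ := by nlinarith [sq_nonneg (K * e)]
  obtain ⟨A, hA, a1, a2⟩ := (main hP hC hCl he hK1 hK ht1 rfl ht k hk 0).1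
  generalize t₂ * (2 * J + 1) = w at *
  have b1 := a1 0
  have b2 := a2 1
  rw [lin_one] at b2
  have b3 := ((b2.mono (hP.1.pow _) (Psi_one (mul_nonneg (Nat.cast_nonneg K) he.1) ht1
    (by exact_mod_cast hk2))).sub_ref (hP.pow _) (hA 0).2 (by norm_num)).l1 (hP.pow _)
  have b4 := l1_sand (hP.pow (g₀ - (2 * M' + w))) (hP.pow (g₁ - (2 * M' + w + w))) (b1.trans b3)
  have e : ∀ (Z : MA G) (x y u v : ℕ),
      P ^ x * (P ^ y * Z * P ^ u) * P ^ v = P ^ (x + y) * Z * P ^ (u + v) :=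
    fun Z x y u v => by simp only [pow_add, mul_assoc]
  rw [mul_sub, sub_mul, fam, e, ← pow_add, ← pow_add,
    show g₀ - (2 * M' + w) + (2 * M' + w + 0 - 0) = g₀ by omega,
    show 2 * M' + w + w + 0 - 0 + (g₁ - (2 * M' + w + w)) = g₁ by omega,
    show g₀ - (2 * M' + w) + (2 * M' + w + (2 * M' + w + w) + k * (32 * M') + K) +
      (g₁ - (2 * M' + w + w)) = g₀ + k * (32 * M') + K + g₁ by omega, ← mul_assoc] at b4
  refine b4.mono ?_
  have m0 : (0 : ℝ) < M' := by exact_mod_cast (show 0 < M' by omega)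
  have h1 : (10 * (k + 1) * t₂ : ℝ) ≤ M' ^ 2 := by exact_mod_cast hk1
  rw [show (1 / 100 : ℝ) = (1 / 10) ^ 2 by norm_num, Real.sqrt_sq (by norm_num), ← le_sub_iff_add_le,
    div_le_iff₀ (by positivity)]
  push_cast
  linarith

end Crest.Agent.R300
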