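import Crest.Agent.R300.Close

/-! Task COINSTEP: the coin property passes to the next level. -/

set_option autoImplicit false
set_option linter.unusedSectionVars false

namespace Crest.Agent.R300

open Polynomial

variable {G : Type} [Monoid G]

namespace CoinAux

/-- common part of mass `≥ c` -/
def Ov (U V : MA G) (c : ℝ) : Prop := ∃ S : MA G, NN S ∧ Le S U ∧ Le S V ∧ c ≤ mass S

theorem Ov.mul {U V U' V' : MA G} {c c' : ℝ} (h : Ov U V c) (h' : Ov U' V' c') (hc' : 0 ≤ c') :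
    Ov (U * U') (V * V') (c * c') := by
  obtain ⟨S, h0, h1, h2, h3⟩ := h
  obtain ⟨S', h0', h1', h2', h3'⟩ := h'
  refine ⟨S * S', h0.mul h0', h1.mul h1' h0 h0', h2.mul h2' h0 h0', ?_⟩
  rw [mass_mul]
  exact mul_le_mul h3 h3' hc' h0.mass_nonneg

theorem prob_lat {P Cl : MA G} (hP : Prob P) (hCl : Prob Cl) (M K k a b : ℕ) :
    Prob (lat P Cl M K k a b) :=
  (((hP.pow a).mul ((hCl.mul (hP.pow _)).pow k)).mul hCl).mul (hP.pow b)

theorem lat_mul (P Cl : MA G) {M K : ℕ} (c k a : ℕ) {g a' : ℕ} (b : ℕ) (h : g + a' = M - K) :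
    lat P Cl M K c a g * lat P Cl M K k a' b = lat P Cl M K (c + k + 1) a b := by
  unfold lat
  rw [show c + k + 1 = c + (1 + k) by ring, pow_add, pow_add (Cl * P ^ (M - K)) 1 k, pow_one, ← h,
    pow_add]
  simp only [mul_assoc]

theorem lat_pow (P Cl : MA G) {M' K : ℕ} (hK : K ≤ M') (c : ℕ) :
    (P ^ (16 * M') * Cl * P ^ (16 * M' - K)) ^ (c + 1) =
      lat P Cl (32 * M') K c (16 * M') (16 * M' - K) := by
  have h0 : P ^ (16 * M') * Cl * P ^ (16 * M' - K) =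
      lat P Cl (32 * M') K 0 (16 * M') (16 * M' - K) := by simp [lat]
  induction c with
  | zero => rw [zero_add, pow_one, h0]
  | succ c ih => rw [pow_succ, ih, h0, lat_mul P Cl c 0 _ _ (by omega)]

theorem piece {P Cl : MA G} {e : ℝ} {J K M' t₂ k x : ℕ} (hP : Prob P)
    (hC : Coin P J (1 / 2)) (hCl : Prob Cl) (he : Dom (Cl - P ^ K) (P ^ K) e) (hK1 : 1 ≤ K)
    (hK : K ≤ M') (hJ : J + 1 ≤ M') (ht1 : 1 ≤ t₂) (ht : t₂ * (2 * J + 1) ≤ M')
    (hk1 : 10 * (k + 1) * t₂ ≤ M' ^ 2) (hk2 : 640000 * (K * e) ^ 2 * (k + 1) ≤ t₂)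
    {k₁ k₂ a b a' b' : ℕ} (h1 : k₁ ≤ k) (h2 : k₂ ≤ k) (ha : 4 * M' ≤ a) (hb : 4 * M' ≤ b)
    (ha' : 4 * M' ≤ a') (hb' : 4 * M' ≤ b') (hn : 180 * x ^ 2 * (J + 1) ≤ k₁ * (32 * M'))
    (hl : a' + k₂ * (32 * M') + K + b' = a + k₁ * (32 * M') + K + b + 2 * x) :
    Ov (lat P Cl (32 * M') K k₁ a b) (lat P Cl (32 * M') K k₂ a' b') (1 / 2) := by
  have cl : ∀ {k' g₀ g₁ : ℕ}, k' ≤ k → 4 * M' ≤ g₀ → 4 * M' ≤ g₁ →
      L1 (lat P Cl (32 * M') K k' g₀ g₁ - P ^ (g₀ + k' * (32 * M') + K + g₁)) (1 / 5) := by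
    intro k' g₀ g₁ hk hg₀ hg₁
    refine close hP hC hCl he hK1 hK hJ ht1 ht (le_trans ?_ hk1) (le_trans ?_ hk2) hg₀ hg₁
    · gcongr
    · have : (k' : ℝ) ≤ k := by exact_mod_cast hk
      gcongr
  have s1 := l1_shift hP (by norm_num) hC (180 * x ^ 2) (a + k₁ * (32 * M') + K + b) (2 * x)
    (by omega)
  have s2 : L1 (P ^ (a + k₁ * (32 * M') + K + b) - P ^ (a + k₁ * (32 * M') + K + b + 2 * x))
      (3 / 5) := by
    refine s1.mono ?_
    have hx : (0 : ℝ) ≤ x := Nat.cast_nonneg x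
    rw [div_le_iff₀ (Real.sqrt_pos.2 (by positivity))]
    have : (20 / 3 * x : ℝ) ≤ √(1 / 2 * ((180 * x ^ 2 : ℕ) : ℝ) / 2 + 1) := by
      refine Real.le_sqrt_of_sq_le ?_
      push_cast; nlinarith [sq_nonneg (x : ℝ)]
    push_cast at this ⊢
    linarith
  have s3 := (cl h2 ha' hb').symm
  rw [hl] at s3
  have s4 := ((cl h1 ha hb).trans s2).trans s3
  obtain ⟨S, p0, p1, p2, p3⟩ := exists_overlap (prob_lat hP hCl _ _ _ _ _)
    (prob_lat hP hCl _ _ _ _ _) s4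
  exact ⟨S, p0, p1, p2, by linarith⟩

end CoinAux

open CoinAux in
/-- `X = P^(16M') Cl P^(16M'-K)`, `M = 32M' = 2Nx`. `X^(c+1) = lat c (16M') (16M'-K)` and
`lat (c+k'+1) a g₁ = lat c a g * lat k' (M-K-g) g₁` for `g ≤ M - K`.
For `j ≤ N` put `U_j = lat (jk) (16M') g_j`, `U'_j = lat c'_j (16M') g'_j` with
if `j x ≤ 8M'`: `g_j = 16M' - K - jx`, `c'_j = jk`, `g'_j = 16M' - K + jx`;
else `g_j = 32M' - K - jx`, `c'_j = jk + 1`, `g'_j = jx - K`.
(`U_0 = U'_0 = X`, `U_N = X^(Nk+1)`, `U'_N = X^(Nk+2)`.) The new pieces have `k` resp. `k` or `k+1`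
clusters, margins `≥ 4M'`, and letter counts `n` and `n + 2x` with `n ≥ (k-1) M ≥ 180x²(J+1)`:
`close` twice (`1/5` each) and `l1_shift` (`r = 180x²`, `c = 1/2`, bound `4x/√(45x²+1) ≤ 3/5`), so
`exists_overlap` gives a common part of mass `≥ 1/2`; multiply the common parts (`Le.mul`). -/
theorem coin_pieces {P Cl : MA G} {e : ℝ} {J K M' t₂ k N x : ℕ} (hP : Prob P)
    (hC : Coin P J (1 / 2)) (hCl : Prob Cl) (he : Dom (Cl - P ^ K) (P ^ K) e) (hK1 : 1 ≤ K)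
    (hK : K ≤ M') (hJ : J + 1 ≤ M') (ht1 : 1 ≤ t₂) (ht : t₂ * (2 * J + 1) ≤ M')
    (hk1 : 10 * (k + 1) * t₂ ≤ M' ^ 2) (hk2 : 640000 * (K * e) ^ 2 * (k + 1) ≤ t₂)
    (hx : 32 * M' = 2 * N * x) (hk3 : 180 * x ^ 2 * (J + 1) + 32 * M' ≤ k * (32 * M')) :
    Coin (P ^ (16 * M') * Cl * P ^ (16 * M' - K)) (N * k + 1) ((1 / 2) ^ N) := by
  obtain ⟨k, rfl⟩ : ∃ k₀, k = k₀ + 1 := by
    cases k with
    | zero => omega
    | succ k₀ => exact ⟨k₀, rfl⟩
  have hn : 180 * x ^ 2 * (J + 1) ≤ k * (32 * M') := by rw [add_mul k 1] at hk3; omega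
  have pc := fun {k₂ a b a' b' : ℕ} => @piece G _ P Cl e J K M' t₂ (k + 1) x hP hC hCl he hK1 hK hJ
    ht1 ht hk1 hk2 k k₂ a b a' b' (Nat.le_succ k)
  have hA : ∀ j : ℕ, j * x ≤ 8 * M' →
      Ov (lat P Cl (32 * M') K (j * (k + 1)) (16 * M') (16 * M' - K - j * x))
        (lat P Cl (32 * M') K (j * (k + 1)) (16 * M') (16 * M' - K + j * x)) ((1 / 2) ^ j) := by
    intro j
    induction j with
    | zero =>
      intro _
      have := prob_lat hP hCl (32 * M') K 0 (16 * M') (16 * M' - K)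
      simp only [zero_mul, Nat.sub_zero, add_zero, pow_zero]
      exact ⟨_, this.1, Le.refl _, Le.refl _, this.2.ge⟩
    | succ j ih =>
      intro hj
      rw [add_mul j 1 x, one_mul] at hj ⊢
      have := (ih (by omega)).mul (pc (k₂ := k) (a := 16 * M' + j * x)
        (b := 16 * M' - K - (j * x + x)) (a' := 16 * M' - j * x) (b' := 16 * M' - K + (j * x + x))
        (Nat.le_succ k) (by omega) (by omega) (by omega) (by omega) hn (by omega)) (by norm_num)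
      rw [lat_mul P Cl _ _ _ _ (by omega), lat_mul P Cl _ _ _ _ (by omega), ← pow_succ] at this
      rwa [add_mul j 1, one_mul, ← add_assoc]
  have hB : ∀ j : ℕ, 8 * M' < j * x → j * x ≤ 16 * M' →
      Ov (lat P Cl (32 * M') K (j * (k + 1)) (16 * M') (32 * M' - K - j * x))
        (lat P Cl (32 * M') K (j * (k + 1) + 1) (16 * M') (j * x - K)) ((1 / 2) ^ j) := by
    intro j
    induction j with
    | zero => intro h; omega
    | succ j ih =>
      intro hj hj'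
      rw [add_mul j 1 x, one_mul] at hj hj' ⊢
      by_cases h : j * x ≤ 8 * M'
      · have := (hA j h).mul (pc (k₂ := k + 1) (a := 16 * M' + j * x)
          (b := 32 * M' - K - (j * x + x)) (a' := 16 * M' - j * x) (b' := j * x + x - K)
          le_rfl (by omega) (by omega) (by omega) (by omega) hn
          (by rw [add_mul k 1]; omega)) (by norm_num)
        rw [lat_mul P Cl _ _ _ _ (by omega), lat_mul P Cl _ _ _ _ (by omega), ← pow_succ] at this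
        rwa [add_mul j 1, one_mul, ← add_assoc]
      · have := (ih (by omega) (by omega)).mul (pc (k₂ := k) (a := j * x)
          (b := 32 * M' - K - (j * x + x)) (a' := 32 * M' - j * x) (b' := j * x + x - K)
          (Nat.le_succ k) (by omega) (by omega) (by omega) (by omega) hn (by omega)) (by norm_num)
        rw [lat_mul P Cl _ _ _ _ (by omega), lat_mul P Cl _ _ _ _ (by omega), ← pow_succ] at this
        rw [add_mul j 1, one_mul, ← add_assoc]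
        rwa [show j * (k + 1) + 1 + k + 1 = j * (k + 1) + k + 1 + 1 by ring] at this
  have hNx : N * x = 16 * M' := by rw [mul_assoc] at hx; omega
  obtain ⟨S, p0, p1, p2, p3⟩ := hB N (by omega) (by omega)
  rw [hNx, show 32 * M' - K - 16 * M' = 16 * M' - K by omega, ← lat_pow P Cl hK] at p1
  rw [hNx, ← lat_pow P Cl hK] at p2
  exact Coin.of_le p0 p1 p2 (by positivity) p3

/-- choose `t₂ = M'/(2J+1)`, `k = 180x²(J+1)/M + 2` (so `(k+1) N² ≤ 46 M (J+1)`), then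
`coin_pieces` and `Coin.amp` with `r = 6·2^N`. -/
theorem coin_step {P Cl : MA G} {e : ℝ} {J K M' N x J' : ℕ} (hP : Prob P)
    (hC : Coin P J (1 / 2)) (hCl : Prob Cl) (he : Dom (Cl - P ^ K) (P ^ K) e) (hK1 : 1 ≤ K)
    (hK : K ≤ M') (hJ : 2 * (2 * J + 1) ≤ M') (hx : 32 * M' = 2 * N * x) (hN1 : 128 ≤ N)
    (hN2 : 65536 * (K * e) * (J + 1) ≤ N) (hN3 : 4 * N ^ 2 ≤ 32 * M')
    (hJ' : 3 * 2 ^ N * (32 * M') * (J + 1) ≤ J') :
    Coin (P ^ (16 * M') * Cl * P ^ (16 * M' - K)) J' (1 / 2) := by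
  have hM : 0 < 32 * M' := by omega
  set d := 180 * x ^ 2 * (J + 1) / (32 * M') with hd
  set t₂ := M' / (2 * J + 1) with ht₂
  have hd1 : d * (32 * M') ≤ 180 * x ^ 2 * (J + 1) := Nat.div_mul_le_self _ _
  have hd2 : 180 * x ^ 2 * (J + 1) < d * (32 * M') + 32 * M' := Nat.lt_div_mul_add hM
  have ht : t₂ * (2 * J + 1) ≤ M' := Nat.div_mul_le_self _ _
  have ht' : M' < t₂ * (2 * J + 1) + (2 * J + 1) := Nat.lt_div_mul_add (by omega)
  have ht1 : 1 ≤ t₂ := (Nat.le_div_iff_mul_le (by omega)).2 (by omega)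
  have h1 : d * N ^ 2 ≤ 45 * (32 * M') * (J + 1) := by
    refine Nat.le_of_mul_le_mul_right ?_ hM
    calc d * N ^ 2 * (32 * M') = d * (32 * M') * N ^ 2 := by ring
      _ ≤ 180 * x ^ 2 * (J + 1) * N ^ 2 := Nat.mul_le_mul_right _ hd1
      _ = 45 * (2 * N * x) * (J + 1) * (2 * N * x) := by ring
      _ = _ := by rw [← hx]
  have h2 : (d + 2 + 1) * N ^ 2 ≤ 46 * (32 * M') * (J + 1) := by nlinarith
  have hN : 128 * 128 ≤ N ^ 2 := by nlinarith
  have h3 : t₂ * (J + 1) ≤ M' := le_trans (Nat.mul_le_mul_left _ (by omega)) ht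
  have h4 : M' ≤ 4 * t₂ * (J + 1) := by nlinarith
  have hk1 : 10 * (d + 2 + 1) * t₂ ≤ M' ^ 2 := by
    refine Nat.le_of_mul_le_mul_right (c := N ^ 2) ?_ (by omega)
    calc 10 * (d + 2 + 1) * t₂ * N ^ 2 = 10 * t₂ * ((d + 2 + 1) * N ^ 2) := by ring
      _ ≤ 10 * t₂ * (46 * (32 * M') * (J + 1)) := Nat.mul_le_mul_left _ h2
      _ = 14720 * M' * (t₂ * (J + 1)) := by ring
      _ ≤ 14720 * M' * M' := Nat.mul_le_mul_left _ h3
      _ = M' ^ 2 * 14720 := by ring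
      _ ≤ M' ^ 2 * N ^ 2 := Nat.mul_le_mul_left _ (by omega)
  have hk2 : 640000 * (K * e) ^ 2 * (((d + 2 : ℕ) : ℝ) + 1) ≤ t₂ := by
    have hγ : 0 ≤ K * e := mul_nonneg (Nat.cast_nonneg K) he.1
    have a1 : (65536 * (K * e) * (J + 1)) ^ 2 ≤ (N : ℝ) ^ 2 :=
      pow_le_pow_left₀ (by positivity) hN2 2
    have a2 : (((d + 2 : ℕ) : ℝ) + 1) * N ^ 2 ≤ 46 * (32 * M') * (J + 1) := by exact_mod_cast h2
    have a3 : (M' : ℝ) ≤ 4 * t₂ * (J + 1) := by exact_mod_cast h4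
    have a4 : (0 : ℝ) < ((J : ℝ) + 1) ^ 2 := by positivity
    have a5 : (0 : ℝ) ≤ ((d + 2 : ℕ) : ℝ) + 1 := by positivity
    have a6 := mul_le_mul_of_nonneg_left a1 a5
    have a7 := mul_le_mul_of_nonneg_right a3 (by positivity : (0 : ℝ) ≤ (J : ℝ) + 1)
    have a8 : (0 : ℝ) ≤ t₂ * ((J : ℝ) + 1) ^ 2 := by positivity
    refine le_of_mul_le_mul_right ?_ a4
    nlinarith
  have hc := coin_pieces (k := d + 2) hP hC hCl he hK1 hK (by omega) ht1 ht hk1 hk2 hx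
    (by rw [add_mul d 2]; omega)
  refine Coin.amp (((hP.pow _).mul hCl).mul (hP.pow _)) (by positivity) hc (6 * 2 ^ N) J'
    (le_of_eq ?_) (le_trans ?_ hJ')
  · push_cast
    rw [one_div, inv_pow]
    field_simp
  · have h5 : 128 * (N * (d + 2 + 1)) ≤ 46 * (32 * M' * (J + 1)) := by
      calc 128 * (N * (d + 2 + 1)) ≤ N * (N * (d + 2 + 1)) := Nat.mul_le_mul_right _ hN1
        _ = (d + 2 + 1) * N ^ 2 := by ring
        _ ≤ 46 * (32 * M') * (J + 1) := h2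
        _ = _ := by ring
    have h6 : 2 * (N * (d + 2) + 1 + 1) ≤ 32 * M' * (J + 1) := by
      rw [mul_add N (d + 2) 1] at h5; omega
    calc 6 * 2 ^ N * (N * (d + 2) + 1 + 1) = 3 * 2 ^ N * (2 * (N * (d + 2) + 1 + 1)) := by ring
      _ ≤ 3 * 2 ^ N * (32 * M' * (J + 1)) := Nat.mul_le_mul_left _ h6
      _ = _ := by ring

end Crest.Agent.R300
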