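import Crest.Agent.R300.PairA
import Crest.Agent.R300.Conv

/-! Task PAIRB: pair Bessel bounds in the upper medium (anchors, conversion, super-cells). -/

set_option autoImplicit false
set_option linter.unusedSectionVars false

namespace Crest.Agent.R300

open Polynomial

variable {G : Type} [Monoid G]

/-- replacing the medium `ρ` by `U` costs little: telescope over the three powers,
`Dom.pow_sub_pow`, `(1+e)^N - 1 ≤ 2Ne ≤ 1` (`one_add_pow_le`), `Dom (U^a) (ρ^a) 2` (`Dom.add_ref`),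
`Dom.mul`, `Dom.add₃`. -/
theorem anchor {ρ U Δ' : MA G} {e β : ℝ} (hρ : Prob ρ) (hU : Prob U) (he : Dom (U - ρ) ρ e)
    (hΔ : Dom Δ' ρ β) (N a d b : ℕ) (hN : a + (d + 2) + b = N) (hNe : 2 * N * e ≤ 1) :
    Dom (U ^ a * (Δ' * U ^ d * Δ') * U ^ b - ρ ^ a * (Δ' * ρ ^ d * Δ') * ρ ^ b) (ρ ^ N)
      (72 * N * e * β ^ 2) := by
    have e0 := he.1
    have h1 : ∀ n ≤ N, Dom (U ^ n - ρ ^ n) (ρ ^ n) (2 * N * e) := fun n hn => by
      have h2 : (n : ℝ) * e ≤ N * e := mul_le_mul_of_nonneg_right (by exact_mod_cast hn) e0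
      have h3 : 0 ≤ (n : ℝ) * e := by positivity
      exact (Dom.pow_sub_pow hρ hU.2 he n).mono (hρ.1.pow n)
        ((one_add_pow_le e0 n (by linarith)).trans (by linarith))
    have h2 : ∀ n ≤ N, Dom (U ^ n) (ρ ^ n) 2 := fun n hn => by
      have := ((h1 n hn).add_ref (hρ.pow n) (by rw [mass_sub, (hU.pow n).2, (hρ.pow n).2, sub_self]) 1).mono
        (hρ.1.pow n) (show _ ≤ 2 by linarith)
      rwa [one_smul, add_sub_cancel] at this
    have key : ∀ {x y z : MA G} {s t u : ℝ}, Dom x (ρ ^ a) s → Dom y (ρ ^ d) t → Dom z (ρ ^ b) u →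
        Dom (x * (Δ' * y * Δ') * z) (ρ ^ N) (s * (β * t * β) * u) := fun hx hy hz => by
      have n1 := hρ.1.mul (hρ.1.pow d)
      have := Dom.mul ((hρ.1.pow a).mul (n1.mul hρ.1)) (hρ.1.pow b) (Dom.mul (hρ.1.pow a) (n1.mul hρ.1) hx
        (Dom.mul n1 hρ.1 (Dom.mul hρ.1 (hρ.1.pow d) hΔ hy) hΔ)) hz
      rwa [← pow_succ', ← pow_succ, ← pow_add, ← pow_add, hN] at this
    have := (Dom.add₃ (hρ.1.pow N) (key (h1 a (by omega)) (h2 d (by omega)) (h2 b (by omega)))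
      (key (hρ.pow a).dom (h1 d (by omega)) (h2 b (by omega)))
      (key (hρ.pow a).dom (hρ.pow d).dom (h1 b (by omega)))).mono (hρ.1.pow N)
      (show _ ≤ 72 * N * e * β ^ 2 by nlinarith [show 0 ≤ N * e * β ^ 2 by positivity])
    convert this using 1
    noncomm_ring

/-- no gain: `bes_place` -/
theorem pair_zero {P Δ : MA G} {η : ℝ} (hP : Prob P) (h0 : mass Δ = 0) (hΔ : Dom Δ P η)
    (N d lo hi K : ℕ) (hd : d + 2 ≤ K) (hhi : hi + (d + 2) ≤ N) :
    Bes (place P (Δ * P ^ d * Δ) N (d + 2) lo hi) (P ^ N) (K * η ^ 2) := by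
    have h1 := Dom.mul (hP.1.mul (hP.1.pow d)) hP.1 (Dom.mul hP.1 (hP.1.pow d) hΔ (hP.pow d).dom) hΔ
    rw [← pow_succ', ← pow_succ] at h1
    refine (bes_place hP N (d + 2) lo hi (by omega) hhi (by rw [mass_mul, h0, mul_zero]) h1).mono
      (hP.1.pow N) ?_
    have : ((d + 2 : ℕ) : ℝ) ≤ K := by exact_mod_cast hd
    nlinarith [sq_nonneg η]

namespace PairBAux

open Finset

theorem sum_blocks {A : Type*} [AddCommMonoid A] (m n : ℕ) (f : ℕ → A) :
    ∑ s ∈ Ico m ((n + 1) * m), f s = ∑ j ∈ range n, ∑ i ∈ Ico m (2 * m), f (j * m + i) := by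
  induction n with
  | zero => simp
  | succ n ih =>
    rw [sum_range_succ, ← ih, ← sum_Ico_consecutive f (Nat.le_mul_of_pos_left m n.succ_pos)
      (Nat.mul_le_mul_right m (Nat.le_succ (n + 1))), sum_Ico_add f]
    congr 3 <;> simp only [Nat.succ_eq_add_one] <;> ring

noncomputable def poly (S : Finset ℕ) (c : ℕ → ℝ) : ℝ[X] := ∑ i ∈ S, monomial i (c i)

theorem poly_coeff (S : Finset ℕ) (c : ℕ → ℝ) (i : ℕ) :
    (poly S c).coeff i = if i ∈ S then c i else 0 := by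
  simp [poly, coeff_monomial]

theorem poly_supp (S : Finset ℕ) (c : ℕ → ℝ) : (poly S c).support ⊆ S := fun i hi => by
  by_contra h
  exact mem_support_iff.1 hi (by rw [poly_coeff, if_neg h])

theorem lin_poly (F : ℕ → MA G) (S : Finset ℕ) (c : ℕ → ℝ) : lin F (poly S c) = ∑ i ∈ S, c i • F i := by
  rw [lin_eq_sum F _ S (poly_supp S c)]
  exact sum_congr rfl fun i hi => by rw [poly_coeff, if_pos hi]

theorem nsq_poly (S : Finset ℕ) (c : ℕ → ℝ) : nsq (poly S c) = ∑ i ∈ S, c i ^ 2 := by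
  rw [nsq_eq_sum _ S (poly_supp S c)]
  exact sum_congr rfl fun i hi => by rw [poly_coeff, if_pos hi]

theorem cell {P Δ D : MA G} {η θ β τ : ℝ} {J K M₄ m d Z : ℕ} (l : List Bool)
    (hP : Prob P) (hQ : Prob (P + Δ)) (hΔ : Dom Δ P η) (hA : Abs Δ θ P) (hC : Coin P J (1 / 2))
    (hl : l.length = K) (hD0 : mass D = 0) (hD1 : Dom D (P ^ K) 1) (hK : K ≤ M₄)
    (hJ : J + 1 ≤ M₄) (hB : Bes (place P D (4 * M₄) K M₄ (3 * M₄)) (P ^ (4 * M₄)) β)
    {U Δ' : MA G} (hU : U = pat P Δ (blk (4 * M₄) l)) (hΔ' : Δ' = P ^ (2 * M₄) * D * P ^ (2 * M₄ - K))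
    (hA' : Abs Δ' 1 U)
    (hd : d + 2 ≤ K) (hKm : K ≤ m) (hZ : 1 ≤ Z) (hθ : Z * θ ≤ 1 / 4) (hZm : Z ≤ m ^ 2)
    (hη : 1000 * (m : ℝ) ^ 3 * K * η ≤ 1)
    (hτ₁ : m * Real.exp (-(2 * (M₄ : ℝ) ^ 2 / m)) ≤ τ) (hτ₂ : m * Real.exp (-(Z / 5)) ≤ τ)
    (c : ℕ → ℝ) :
    Dom (∑ i ∈ Ico m (2 * m), c i • (U ^ i * (Δ' * U ^ d * Δ') * U ^ (4 * m - (d + 2) - i))) (U ^ (4 * m))
      ((30 * K * β ^ 2 / √m + 20 * τ) * ∑ i ∈ Ico m (2 * m), c i ^ 2) := by
  have h0 := mass_eq_zero_of_prob hP hQ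
  have η0 := hΔ.1
  have pU : Prob U := hU ▸ prob_pat hP hQ _
  have pρ := hP.pow (4 * M₄)
  have hlen : (blk (4 * M₄) l).length = 4 * M₄ := blk_length _ _ (by omega)
  have hcnt : (blk (4 * M₄) l).count true ≤ K := hl ▸ blk_count _ _
  have m1 : (2 : ℝ) ≤ m := by exact_mod_cast (show 2 ≤ m by omega)
  have K1 : (2 : ℝ) ≤ K := by exact_mod_cast (show 2 ≤ K by omega)
  have Kη : 0 ≤ K * η := by positivity
  have a1 : (m : ℝ) * (K * η) ≤ m ^ 3 * (K * η) :=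
    mul_le_mul_of_nonneg_right (le_self_pow₀ (by linarith) (by norm_num)) Kη
  have a2 : K * η ≤ m * (K * η) := le_mul_of_one_le_left Kη (by linarith)
  have dU : Dom (U - P ^ (4 * M₄)) (P ^ (4 * M₄)) (2 * K * η) := by
    have := dom_pat hP h0 hΔ (blk (4 * M₄) l)
    rw [hlen, ← hU] at this
    refine this.mono pρ.1 (le_trans ?_ (one_add_pow_le η0 K (by nlinarith)))
    exact sub_le_sub_right (pow_le_pow_right₀ (by linarith) hcnt) _
  have dΔ : Dom Δ' (P ^ (4 * M₄)) β := by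
    have := hB.single (2 * M₄)
    rwa [place, if_pos ⟨by omega, by omega⟩, show 4 * M₄ - K - 2 * M₄ = 2 * M₄ - K by omega, ← hΔ'] at this
  have main := pair_main hP hC hD0 hD1 hK hJ hB (hd.trans hKm) (poly (Ico m (2 * m)) c) fun i hi => by
    have := mem_Ico.1 (poly_supp _ _ (mem_support_iff.2 hi))
    omega
  rw [lin_poly, nsq_poly, ← hΔ'] at main
  have anch := Dom.sum_smul (Ico m (2 * m)) c (pρ.pow (4 * m)).1 (by positivity) fun i hi =>
    anchor pρ pU dU dΔ (4 * m) i d (4 * m - (d + 2) - i) (by have := mem_Ico.1 hi; omega)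
      (by push_cast; nlinarith)
  have tot := main.add (pρ.pow _).1 anch
  simp only [smul_sub, sum_sub_distrib, add_sub_cancel] at tot
  have ab : Abs (∑ i ∈ Ico m (2 * m), c i • (U ^ i * (Δ' * U ^ d * Δ') * U ^ (4 * m - (d + 2) - i)))
      (∑ i ∈ Ico m (2 * m), |c i|) (U ^ (4 * m)) :=
    Abs.sum _ (pU.pow _).1 fun i hi => by
      have := (((Abs.refl (pU.1.pow i)).mul ((hA'.mul (Abs.refl (pU.1.pow d))).mul hA')).mul
        (Abs.refl (pU.1.pow (4 * m - (d + 2) - i)))).smul (c i)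
      have hi := mem_Ico.1 hi
      rw [← pow_succ', ← pow_succ, ← pow_add, ← pow_add,
        show i + (d + 1 + 1) + (4 * m - (d + 2) - i) = 4 * m by omega] at this
      simpa using this
  rw [← pow_mul, mul_comm (4 * M₄), ← hlen] at tot
  rw [hU] at ab
  have fin := convert_pow hP hQ hΔ hA (blk (4 * M₄) l) (4 * m) Z hZ hθ (by
    have b1 : (Z : ℝ) ≤ m ^ 2 := by exact_mod_cast hZm
    have b2 : (((blk (4 * M₄) l).count true : ℕ) : ℝ) ≤ K := by exact_mod_cast hcnt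
    have b3 : 25 * Z * (((4 * m : ℕ) : ℝ) * ((blk (4 * M₄) l).count true : ℕ)) * η ≤
        25 * m ^ 2 * (((4 * m : ℕ) : ℝ) * K) * η := by gcongr
    push_cast at b3 ⊢
    nlinarith) (hU ▸ tot) ab
  rw [← hU] at fin
  refine fin.mono (pU.pow _).1 ?_
  have cs : (∑ i ∈ Ico m (2 * m), |c i|) ^ 2 ≤ m * ∑ i ∈ Ico m (2 * m), c i ^ 2 := by
    have := sq_sum_le_card_mul_sum_sq (s := Ico m (2 * m)) (f := fun i => |c i|)
    simpa [Nat.card_Ico, show 2 * m - m = m by omega] using this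
  have q0 : 0 ≤ ∑ i ∈ Ico m (2 * m), c i ^ 2 := sum_nonneg fun _ _ => sq_nonneg _
  generalize ∑ i ∈ Ico m (2 * m), c i ^ 2 = q at *
  generalize (∑ i ∈ Ico m (2 * m), |c i|) ^ 2 = w at *
  have s0 : 0 < √(m : ℝ) := Real.sqrt_pos.2 (by linarith)
  have s1 : √(m : ℝ) ≤ m := Real.sqrt_le_iff.2 ⟨by linarith, by nlinarith⟩
  have c1 : w * (72 * ((4 * m : ℕ) : ℝ) * (2 * K * η) * β ^ 2) ≤ β ^ 2 / √m * q := by
    refine (mul_le_mul_of_nonneg_right cs (by positivity)).trans ?_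
    rw [div_mul_eq_mul_div, le_div_iff₀ s0]
    refine (mul_le_mul_of_nonneg_left s1 (by positivity)).trans ?_
    push_cast
    have : 0 ≤ β ^ 2 * q := by positivity
    nlinarith
  have c2 : w * Real.exp (-(Z / 5)) ≤ τ * q := by
    refine (mul_le_mul_of_nonneg_right cs (by positivity)).trans ?_
    nlinarith
  have c3 : 6 * (d + 2) * β ^ 2 / √m ≤ 6 * K * (β ^ 2 / √m) := by
    have : (d + 2 : ℝ) ≤ K := by exact_mod_cast hd
    rw [mul_div_assoc]
    gcongr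
  have c4 := mul_le_mul_of_nonneg_right (add_le_add c3 (mul_le_mul_of_nonneg_left hτ₁ (by norm_num : (0 : ℝ) ≤ 4))) q0
  have c5 : 0 ≤ β ^ 2 / √m * q := by positivity
  rw [mul_div_assoc (30 * (K : ℝ))]
  nlinarith

end PairBAux

open Finset PairBAux in
/-- Gain `m^(-1/2)`. Upper letters: `U = pat P Δ (blk M l) = P^(2M₄) * pat P Δ l * P^(2M₄-K)`,
`Δ' = P^(2M₄) D P^(2M₄-K)` (`M = 4M₄`, `K = |l|`; `Δ' = place P D M K M₄ (3M₄) (2M₄)` so
`Dom Δ' ρ β`). One super-cell (`4m` blocks, `c` supported in `[m,2m)`):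
`σ = lin (fun i => U^i (Δ' U^d Δ') U^(4m-(d+2)-i)) c = main + anchors`; `pair_main`; the anchors by
`anchor` (`e = 2Kη`, `dom_pat`) and `Dom.sum_smul`, `n1_sq_le` (factor `m`):
`≤ m · 72 · 4m · 2Kη β² nsq c ≤ β²/m nsq c`; `Abs σ (n1 c) (U^(4m))`, `(n1 c)² ≤ m nsq c`;
`convert_pow`. Total for a super-cell `≤ (4 (6Kβ²/√m + 4τ) + 4β²/√m + 4τ) nsq c`.
Then cut a general coefficient vector `e` (only `s ∈ [lo,hi]` matter) into the pieces
`s / m = j + 1`, placed at `j m` with `c_j` = the piece shifted by `-j m`, and use `tl`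
(`κ = 4m`, `w = 4`, `o = 0`). -/
theorem pair_gain {P Δ D : MA G} {η θ β τ : ℝ} {J K M₄ m d Z N lo hi : ℕ} (l : List Bool)
    (hP : Prob P) (hQ : Prob (P + Δ)) (hΔ : Dom Δ P η) (hA : Abs Δ θ P) (hC : Coin P J (1 / 2))
    (hl : l.length = K) (hD0 : mass D = 0) (hD1 : Dom D (P ^ K) 1) (hK : K ≤ M₄)
    (hJ : J + 1 ≤ M₄) (hB : Bes (place P D (4 * M₄) K M₄ (3 * M₄)) (P ^ (4 * M₄)) β)
    (hA' : Abs (P ^ (2 * M₄) * D * P ^ (2 * M₄ - K)) 1 (pat P Δ (blk (4 * M₄) l)))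
    (hd : d + 2 ≤ K) (hKm : K ≤ m) (hZ : 1 ≤ Z) (hθ : Z * θ ≤ 1 / 4) (hZm : Z ≤ m ^ 2)
    (hη : 1000 * (m : ℝ) ^ 3 * K * η ≤ 1)
    (hτ₁ : m * Real.exp (-(2 * (M₄ : ℝ) ^ 2 / m)) ≤ τ) (hτ₂ : m * Real.exp (-(Z / 5)) ≤ τ)
    (hlo : m ≤ lo) (hhi : hi + 3 * m ≤ N) :
    Bes (place (pat P Δ (blk (4 * M₄) l))
        ((P ^ (2 * M₄) * D * P ^ (2 * M₄ - K)) * pat P Δ (blk (4 * M₄) l) ^ d *
          (P ^ (2 * M₄) * D * P ^ (2 * M₄ - K))) N (d + 2) lo hi)
      (pat P Δ (blk (4 * M₄) l) ^ N) (120 * K * β ^ 2 / √m + 80 * τ) := by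
    have hc := cell l hP hQ hΔ hA hC hl hD0 hD1 hK hJ hB rfl rfl hA' hd hKm hZ hθ hZm hη hτ₁ hτ₂
    have pU : Prob (pat P Δ (blk (4 * M₄) l)) := prob_pat hP hQ _
    have m0 : mass (P ^ (2 * M₄) * D * P ^ (2 * M₄ - K)) = 0 := by
      rw [mass_mul, mass_mul, hD0, mul_zero, zero_mul]
    generalize pat P Δ (blk (4 * M₄) l) = U at *
    generalize P ^ (2 * M₄) * D * P ^ (2 * M₄ - K) = Δ' at *
    have τ0 : 0 ≤ τ := le_trans (by positivity) hτ₂
    have hm : 0 < m := by omega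
    refine ⟨by positivity, fun e => ?_⟩
    set g : ℕ → ℝ := fun s => if lo ≤ s ∧ s ≤ hi then e.coeff s else 0 with hg
    have hj : ∀ j ∈ range (hi / m), j * m + 4 * m ≤ N := fun j hj => by
      have := (Nat.le_div_iff_mul_le hm).1 (show j + 1 ≤ hi / m from mem_range.1 hj)
      rw [add_mul] at this
      omega
    have h1 := tl pU N (4 * m) m 4 0 (by norm_num) le_rfl (range (hi / m)) _ _
      (fun j h => by have := hj j h; omega)
      (fun j _ => by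
        rw [mass_sum]
        exact sum_eq_zero fun i _ => by simp only [mass_smul, mass_mul, m0, mul_zero, zero_mul])
      fun j _ => hc fun i => g (j * m + i)
    have out : ∀ s, s ∉ Ico m ((hi / m + 1) * m) → ¬ (lo ≤ s ∧ s ≤ hi) := fun s hs h => by
      refine hs (mem_Ico.2 ⟨by omega, ?_⟩)
      have := Nat.lt_div_mul_add (a := hi) hm
      rw [add_mul]
      omega
    have e1 : lin (place U (Δ' * U ^ d * Δ') N (d + 2) lo hi) e = ∑ s ∈ Ico m ((hi / m + 1) * m),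
        g s • (U ^ s * (Δ' * U ^ d * Δ') * U ^ (N - (d + 2) - s)) := by
      rw [lin_eq_sum _ _ _ subset_rfl]
      refine sum_congr_of_eq_on_inter (fun s _ hs => ?_) (fun s _ hs => ?_) fun s _ _ => ?_
      · rw [place, if_neg (out s hs), smul_zero]
      · simp [hg, notMem_support_iff.1 hs]
      · simp only [place, hg]
        split_ifs <;> simp
    have e2 : ∑ s ∈ Ico m ((hi / m + 1) * m), g s ^ 2 ≤ nsq e := by
      rw [nsq_eq_sum e _ (subset_union_left (s₂ := Ico m ((hi / m + 1) * m)))]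
      refine (sum_le_sum fun s _ => ?_).trans
        (sum_le_sum_of_subset_of_nonneg subset_union_right fun _ _ _ => sq_nonneg _)
      simp only [hg]
      split_ifs
      exacts [le_rfl, by simpa using sq_nonneg _]
    rw [e1, sum_blocks]
    rw [sum_blocks] at e2
    rw [← mul_sum, ← mul_assoc] at h1
    convert h1.mono (pU.pow N).1 (mul_le_mul_of_nonneg_left e2 (by positivity)) using 1
    · refine sum_congr rfl fun j h => ?_
      rw [mul_sum, sum_mul]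
      refine sum_congr rfl fun i hi => ?_
      have := hj j h
      have := mem_Ico.1 hi
      rw [mul_smul_comm, smul_mul_assoc, zero_add, show N - (d + 2) - (j * m + i) =
        4 * m - (d + 2) - i + (N - 4 * m - j * m) by omega, pow_add, pow_add]
      simp only [mul_assoc]
    · push_cast
      ring

end Crest.Agent.R300
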