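import Crest.Agent.R300.CoreB
import Crest.Agent.R300.PairB

/-! Task COREC: the Bessel bounds (numerics of the recursion `β' ≈ K⁵ β² m^(-1/2)`). -/

set_option autoImplicit false

namespace Crest.Agent.R300

theorem cc_tt {q : ℝ} {h E L k : ℕ} (p : Par q h E L k) (l : ℕ) :
    2 ^ 18 * (2 ^ k) ^ 6 ≤ tt h l := by
  refine le_trans ?_ (two_pow_le_tt h l)
  rw [← pow_mul, ← pow_add]
  exact Nat.pow_le_pow_right (by norm_num) (by have := p.h_ge; omega)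

theorem cc_M4 {q : ℝ} {h E L k : ℕ} (p : Par q h E L k) (l : ℕ) :
    2 ^ 16 * (2 ^ k) ^ 6 * (tt h l ^ 2 * JJ h E l) ≤ M4 h E l := by
  have h1 := four_M4 h E l (by have := p.h_ge; omega)
  have h2 := cc_tt p l
  have h3 : tt h l ^ (jj E l + 3) = tt h l * (tt h l ^ 2 * JJ h E l) := by unfold JJ; ring
  have h4 := Nat.mul_le_mul_right (tt h l ^ 2 * JJ h E l) h2
  rw [← h3, ← h1] at h4
  nlinarith

theorem cc_bb {E l : ℕ} (hE : 12 ≤ E) (hl : 1 ≤ l) : ∃ ν, 1 ≤ ν ∧ ν ≤ 40 * E ∧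
    6 * ν + 1 ≤ bb E l ∧ 4 * bb E (l + 2) + 1 ≤ 4 * bb E (l + 1) + ν ∧
    bb E (l + 2) ≤ bb E (l + 1) + 10 * E := by
  by_cases h : l + 1 ≤ 191
  · refine ⟨8 * E, by omega, by omega, ?_, ?_, ?_⟩
    · unfold bb; rw [if_pos (by omega)]; nlinarith
    · unfold bb; rw [if_pos (by omega), if_pos (by omega)]; nlinarith
    · unfold bb; rw [if_pos (by omega), if_pos (by omega)]; nlinarith
  · obtain ⟨u, hu⟩ : ∃ u, l + 1 = 192 + u := ⟨l + 1 - 192, by omega⟩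
    obtain ⟨F, hF⟩ : ∃ F, 10 * E = F + 1 := ⟨10 * E - 1, by omega⟩
    have e1 : bb E (l + 1) = 248 * E + u * F := by
      unfold bb
      split_ifs with h1
      · have : u = 0 := by omega
        subst this; rw [hu]; simp
      · rw [hu, hF]; simp
    have e2 : bb E (l + 2) = 248 * E + (u + 1) * F := by
      unfold bb
      rw [if_neg (by omega), show l + 2 - 192 = u + 1 by omega, hF]; simp
    refine ⟨40 * E, by omega, le_rfl, ?_, ?_, ?_⟩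
    · unfold bb
      split_ifs with h1
      · have : 247 * E ≤ (56 + l) * E := Nat.mul_le_mul_right _ (by omega)
        omega
      · omega
    · rw [e1, e2]; nlinarith
    · rw [e1, e2]; nlinarith

theorem cc_exp (h l n : ℕ) (h2 : h * 2 ^ l * n * 5 ≤ 2 ^ h) :
    ((tt h l : ℕ) : ℝ) ^ n ≤ Real.exp (2 ^ h / 5) := by
  have h3 : ((h * 2 ^ l * n : ℕ) : ℝ) ≤ 2 ^ h / 5 := by
    rw [le_div_iff₀ (by norm_num)]; exact_mod_cast h2
  refine le_trans ?_ (Real.exp_le_exp.2 h3)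
  have h4 : ((tt h l : ℕ) : ℝ) = 2 ^ (h * 2 ^ l) := by unfold tt; push_cast; rfl
  rw [h4, ← pow_mul, ← mul_one ((h * 2 ^ l * n : ℕ) : ℝ), Real.exp_nat_mul]
  exact pow_le_pow_left₀ (by norm_num) (by linarith [Real.add_one_le_exp 1]) _

theorem cc_fin {t K H : ℝ} {ν B1 B2 : ℕ} (hT' : 2 ^ 18 * K ^ 6 ≤ t) (hK1' : 1 ≤ K)
    (n4 : 4 * B2 + 1 ≤ 4 * B1 + ν) (h1 : t ^ (2 * ν + 4 * B2 + 1) ≤ Real.exp (H / 5)) :
    18 * K ^ 4 * (120 * K * (1 / (2 * t ^ (2 * B1))) ^ 2 / t ^ ν +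
      80 * (t ^ (2 * ν) * Real.exp (-(H / 5)))) ≤ 1 / t ^ (4 * B2) := by
  have hKK : ∀ a : ℕ, a ≤ 6 → K ^ a ≤ K ^ 6 := fun a ha => pow_le_pow_right₀ hK1' ha
  have h61 : 1 ≤ K ^ 6 := one_le_pow₀ hK1'
  have ht18 : 18 ≤ t := by linarith
  have ht0 : 0 < t := by linarith
  have hU : 0 < t ^ (4 * B2) := by positivity
  have a1 : 18 * K ^ 4 * (120 * K * (1 / (2 * t ^ (2 * B1))) ^ 2 / t ^ ν) ≤
      1 / (2 * t ^ (4 * B2)) := by
    have h1 : 18 * K ^ 4 * (120 * K * (1 / (2 * t ^ (2 * B1))) ^ 2 / t ^ ν) =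
        540 * K ^ 5 / t ^ (4 * B1 + ν) := by
      rw [pow_add, show 4 * B1 = 2 * B1 * 2 by ring, pow_mul t (2 * B1) 2]
      field_simp; norm_num
    rw [h1, div_le_div_iff₀ (by positivity) (by positivity)]
    have h2 : t ^ (4 * B2 + 1) ≤ t ^ (4 * B1 + ν) := pow_le_pow_right₀ (by linarith) n4
    have h3 := hKK 5 (by norm_num)
    have h4 : 1080 * K ^ 5 ≤ t := by linarith
    have h5 := mul_le_mul_of_nonneg_left h4 hU.le
    rw [pow_succ] at h2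
    linarith
  have a2 : 18 * K ^ 4 * (80 * (t ^ (2 * ν) * Real.exp (-(H / 5)))) ≤ 1 / (2 * t ^ (4 * B2)) := by
    rw [Real.exp_neg, le_div_iff₀ (by positivity)]
    have h5 : 0 < Real.exp (H / 5) := Real.exp_pos _
    have h6 : 18 * K ^ 4 * (80 * (t ^ (2 * ν) * (Real.exp (H / 5))⁻¹)) * (2 * t ^ (4 * B2)) =
        2880 * K ^ 4 * (t ^ (2 * ν) * t ^ (4 * B2)) / Real.exp (H / 5) := by field_simp; norm_num
    rw [h6, div_le_one h5]
    refine le_trans ?_ h1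
    rw [pow_succ t (2 * ν + 4 * B2), pow_add, mul_comm]
    have h7 := hKK 4 (by norm_num)
    exact mul_le_mul_of_nonneg_left (by linarith) (by positivity)
  have a4 : 1 / t ^ (4 * B2) = 1 / (2 * t ^ (4 * B2)) + 1 / (2 * t ^ (4 * B2)) := by
    field_simp; norm_num
  rw [a4, mul_add]
  exact add_le_add a1 a2

/-- common numerics: `step_bes` with `r = t²` (`t = tt h l`, `32·4^k ≤ t`, `k ≥ 2 bb (l+1) + 1`,
`3 b ≥ 2 bb (l+1) + 1`, `96 K⁴ ≤ t`): each of the three terms is `≤ 1/(18 t^(2 bb (l+1)))`... -/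
theorem besAt_of_pair {q : ℝ} {h E L k l b : ℕ} (p : Par q h E L k) (hl : l + 1 ≤ L)
    {x y : List Bool} {P Δ : MA (FreeMonoid Bool)} (d : Dat q h E k l b x y P Δ)
    (hb : 2 * bb E (l + 1) + 1 ≤ 3 * b) (hb1 : 1 ≤ b) {βp : ℝ} (hβ0 : 0 ≤ βp)
    (hβ : 18 * (2 ^ k) ^ 4 * βp ≤ 1 / (tt h (l + 1) : ℝ) ^ bb E (l + 1))
    (hp : ∀ d, d + 2 ≤ 2 ^ k → Bes (place P (Δ * P ^ d * Δ) (4 * M4 h E l) (d + 2) (M4 h E l)
      (3 * M4 h E l + 2 ^ k)) (P ^ (4 * M4 h E l)) βp) :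
    BesAt h E k l P Δ := by
  have hT := cc_tt p l
  have hM := cc_M4 p l
  have hK1 : 1 ≤ 2 ^ k := Nat.one_le_two_pow
  have hk : k ≤ 2 ^ k := Nat.lt_two_pow_self.le
  have ht1 : 1 ≤ tt h l := tt_pos h l
  have hJ1 : 1 ≤ JJ h E l := Nat.one_le_pow _ _ ht1
  have hK6 : 2 ^ k ≤ (2 ^ k) ^ 6 := Nat.le_self_pow (by norm_num) _
  have hM' : k * (tt h l ^ 2 * (JJ h E l + 1)) + 2 * 2 ^ k ≤ M4 h E l := by
    have h1 : 1 ≤ tt h l ^ 2 * JJ h E l := Nat.mul_pos (by positivity) hJ1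
    have h2 : tt h l ^ 2 * (JJ h E l + 1) ≤ 2 * (tt h l ^ 2 * JJ h E l) := by nlinarith
    have h3 := Nat.mul_le_mul hk h2
    have h4 := Nat.mul_le_mul_right (tt h l ^ 2 * JJ h E l) hK6
    nlinarith
  set t : ℝ := ((tt h l : ℕ) : ℝ) with ht
  set K : ℝ := 2 ^ k with hK
  have hT' : 2 ^ 18 * K ^ 6 ≤ t := by rw [ht, hK]; exact_mod_cast hT
  have hK1' : 1 ≤ K := one_le_pow₀ (by norm_num)
  have hKK : ∀ a : ℕ, a ≤ 6 → K ^ a ≤ K ^ 6 := fun a ha => pow_le_pow_right₀ hK1' ha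
  have h61 : 1 ≤ K ^ 6 := one_le_pow₀ hK1'
  have ht18 : 18 ≤ t := by linarith
  have ht0 : 0 < t := by linarith
  have htb : t ≤ t ^ b := le_self_pow₀ (by linarith) (by omega)
  have hη : K * (1 / t ^ b) ≤ 1 := by
    rw [mul_one_div, div_le_one (by positivity)]
    have := hKK 1 (by norm_num)
    nlinarith
  have h0 := step_bes (r := tt h l ^ 2) d.pP (mass_eq_zero_of_prob d.pP d.pQ) d.dom d.coin
    (by positivity) hM' hη hβ0 hp
  refine h0.mono (d.pP.pow _).1 ?_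
  have e1 : ((tt h (l + 1) : ℕ) : ℝ) ^ bb E (l + 1) = t ^ (2 * bb E (l + 1)) := by
    rw [tt_succ, pow_mul]; push_cast; rfl
  rw [e1] at hβ ⊢
  set B := 2 * bb E (l + 1) with hB
  have hU : 0 < t ^ B := by positivity
  have hk2 : B + 1 ≤ k := by have := p.bb_le hl; have := p.E_ge; omega
  have a0 : 1 / t ^ (B + 1) ≤ 1 / (18 * t ^ B) := by
    rw [pow_succ]
    exact one_div_le_one_div_of_le (by positivity) (by nlinarith)
  have a1 : 1 / t ^ b * (32 * 4 ^ k / ((tt h l ^ 2 : ℕ) : ℝ)) ^ k ≤ 1 / (18 * t ^ B) := by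
    have h1 : (32 * 4 ^ k / ((tt h l ^ 2 : ℕ) : ℝ)) ≤ 1 / t := by
      have h2 : (4 : ℝ) ^ k = K ^ 2 := by rw [hK, ← pow_mul, mul_comm, pow_mul]; norm_num
      push_cast
      rw [← ht, h2, div_le_div_iff₀ (by positivity) ht0]
      have := hKK 2 (by norm_num)
      nlinarith
    have h2 : 1 / t ^ b ≤ 1 := by rw [div_le_one (by positivity)]; linarith
    calc _ ≤ 1 * (1 / t) ^ k := by gcongr
      _ = 1 / t ^ k := by rw [one_mul, div_pow, one_pow]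
      _ ≤ 1 / t ^ (B + 1) :=
        one_div_le_one_div_of_le (by positivity) (pow_le_pow_right₀ (by linarith) hk2)
      _ ≤ _ := a0
  have a2 : K ^ 4 * βp ≤ 1 / (18 * t ^ B) := by
    rw [le_div_iff₀ (by positivity)]
    rw [le_div_iff₀ hU] at hβ
    linarith
  have a3 : 4 * K * (K * (1 / t ^ b)) ^ 3 ≤ 1 / (18 * t ^ B) := by
    have h1 : 4 * K * (K * (1 / t ^ b)) ^ 3 = 4 * K ^ 4 / t ^ (3 * b) := by
      rw [mul_comm 3 b, pow_mul]; field_simp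
    rw [h1, div_le_div_iff₀ (by positivity) (by positivity)]
    have h2 : t ^ (B + 1) ≤ t ^ (3 * b) := pow_le_pow_right₀ (by linarith) hb
    have h3 := hKK 4 (by norm_num)
    have h4 : 72 * K ^ 4 ≤ t := by nlinarith
    have h5 := mul_le_mul_of_nonneg_left h4 hU.le
    rw [pow_succ] at h2
    nlinarith
  have a4 : 1 / (2 * t ^ B) = 3 * (3 * (1 / (18 * t ^ B))) := by field_simp; norm_num
  rw [a4]
  linarith

/-- `pair_zero`: `18 K⁵ / t^(118E) ≤ 1/t^(116E)` -/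
theorem besAt_one {q : ℝ} {h E L k : ℕ} (p : Par q h E L k) {x y : List Bool}
    {P Δ : MA (FreeMonoid Bool)} (d : Dat q h E k 1 (59 * E) x y P Δ) : BesAt h E k 1 P Δ := by
  have hE := p.E_ge
  have hb2 : bb E (1 + 1) = 58 * E := by simp [bb]
  have hT := cc_tt p 1
  have hM := cc_M4 p 1
  have ht1 : 1 ≤ tt h 1 := tt_pos h 1
  have hJ1 : 1 ≤ JJ h E 1 := Nat.one_le_pow _ _ ht1
  have hK6 : 2 ^ k ≤ (2 ^ k) ^ 6 := Nat.le_self_pow (by norm_num) _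
  have hM' : 2 * 2 ^ k ≤ M4 h E 1 := by
    have h1 : 1 ≤ tt h 1 ^ 2 * JJ h E 1 := Nat.mul_pos (by positivity) hJ1
    nlinarith
  refine besAt_of_pair p (by have := p.hL; omega) d (by omega) (by omega)
    (βp := ((2 ^ k : ℕ) : ℝ) * (1 / (tt h 1 : ℝ) ^ (59 * E)) ^ 2) (by positivity) ?_
    fun e he => pair_zero d.pP (mass_eq_zero_of_prob d.pP d.pQ) d.dom _ _ _ _ _ he (by omega)
  rw [hb2, tt_succ h 1]
  push_cast
  set t : ℝ := ((tt h 1 : ℕ) : ℝ) with ht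
  set K : ℝ := 2 ^ k with hK
  have hT' : 2 ^ 18 * K ^ 6 ≤ t := by rw [ht, hK]; exact_mod_cast hT
  have hK1' : 1 ≤ K := one_le_pow₀ (by norm_num)
  have h56 : K ^ 5 ≤ K ^ 6 := pow_le_pow_right₀ hK1' (by norm_num)
  have h61 : 1 ≤ K ^ 6 := one_le_pow₀ hK1'
  have ht18 : 18 ≤ t := by linarith
  have e1 : 18 * K ^ 4 * (K * (1 / t ^ (59 * E)) ^ 2) = 18 * K ^ 5 / t ^ (59 * E * 2) := by
    rw [pow_mul t (59 * E) 2]; field_simp
  rw [e1, ← pow_mul t 2, div_le_div_iff₀ (by positivity) (by positivity), one_mul]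
  have h2 : t ^ (2 * (58 * E) + 1) ≤ t ^ (59 * E * 2) := pow_le_pow_right₀ (by linarith) (by omega)
  have h4 : 18 * K ^ 5 ≤ t := by nlinarith
  have h5 := mul_le_mul_of_nonneg_left h4 (show 0 ≤ t ^ (2 * (58 * E)) by positivity)
  rw [pow_succ] at h2
  nlinarith

/-- `dat_succ`, `step_letter`, `pair_gain` with `t = tt h l`, `m = t^μ`, `μ = 16E` if `l + 1 ≤ 191` and
`μ = 80E` otherwise (`3μ + 1 ≤ bb l`; `√m = t^(μ/2) = (t²)^(μ/4)`), `Z = H = 2^h`,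
`τ = m exp (-H/5)` (`2 M₄²/m ≥ t⁶/8 ≥ H/5`), `β = 1/(2 (t²)^(bb (l+1)))`;
`2 bb (l+2) + 1 ≤ 2 bb (l+1) + μ/4`; `exp (-H/5) ≤ 2^(-2 h 2^L k)` from `Par.hH`
(`2^(-x) ≥ exp (-x)`); then `besAt_of_pair`. -/
theorem besAt_succ {q : ℝ} {h E L k l : ℕ} (p : Par q h E L k) (hl1 : 1 ≤ l) (hl : l + 2 ≤ L)
    {x y : List Bool} {P Δ : MA (FreeMonoid Bool)} (d : Dat q h E k l (bb E l) x y P Δ)
    (hB : BesAt h E k l P Δ) :
    BesAt h E k (l + 1) (pat P Δ (blk (4 * M4 h E l) (tm k)))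
      (P ^ (2 * M4 h E l) * dfc P Δ k * P ^ (2 * M4 h E l - 2 ^ k)) := by
  have hE := p.E_ge
  obtain ⟨ν, n1, n2, n3, n4, n5⟩ := cc_bb hE hl1
  have d' := dat_succ p hl1 (by omega) d hB
  have hT := cc_tt p l
  have hM := cc_M4 p l
  have hM1 := cc_M4 p (l + 1)
  have hK1 : 1 ≤ 2 ^ k := Nat.one_le_two_pow
  have ht1 : 1 ≤ tt h l := tt_pos h l
  have hJ1 : 1 ≤ JJ h E l := Nat.one_le_pow _ _ ht1
  have hK6 : 2 ^ k ≤ (2 ^ k) ^ 6 := Nat.le_self_pow (by norm_num) _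
  have ht2 : 1 ≤ tt h l ^ 2 := Nat.one_le_pow _ _ ht1
  have hKM : 2 ^ k ≤ M4 h E l := by
    have h1 : 1 ≤ tt h l ^ 2 * JJ h E l := Nat.mul_pos (by positivity) hJ1
    nlinarith
  have hJM : JJ h E l + 1 ≤ M4 h E l := by
    have h1 : JJ h E l ≤ tt h l ^ 2 * JJ h E l := Nat.le_mul_of_pos_left _ ht2
    have h2 : 1 ≤ (2 ^ k) ^ 6 := hK1.trans hK6
    nlinarith
  have htm : tt h l ≤ tt h l ^ (2 * ν) := Nat.le_self_pow (by omega) _
  have hKm : 2 ^ k ≤ tt h l ^ (2 * ν) := by nlinarith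
  have hHt := two_pow_le_tt h l
  have hZm : 2 ^ h ≤ (tt h l ^ (2 * ν)) ^ 2 :=
    (hHt.trans htm).trans (Nat.le_self_pow (by norm_num) _)
  have hm4 : 4 * tt h l ^ (2 * ν) ≤ M4 h E (l + 1) := by
    have h1 : tt h l ^ (2 * ν) ≤ JJ h E (l + 1) := by
      rw [JJ_succ]
      exact Nat.pow_le_pow_right ht1 (by unfold jj; omega)
    have h2 : JJ h E (l + 1) ≤ tt h (l + 1) ^ 2 * JJ h E (l + 1) :=
      Nat.le_mul_of_pos_left _ (by have := tt_pos h (l + 1); positivity)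
    have h3 : 1 ≤ (2 ^ k) ^ 6 := hK1.trans hK6
    nlinarith
  have h4M := four_M4 h E l (by have := p.h_ge; omega)
  set t : ℝ := ((tt h l : ℕ) : ℝ) with ht
  set K : ℝ := 2 ^ k with hK
  set H : ℝ := 2 ^ h with hH
  have hT' : 2 ^ 18 * K ^ 6 ≤ t := by rw [ht, hK]; exact_mod_cast hT
  have hHt' : H ≤ t := by rw [ht, hH]; exact_mod_cast hHt
  have hK1' : 1 ≤ K := one_le_pow₀ (by norm_num)
  have hKK : ∀ a : ℕ, a ≤ 6 → K ^ a ≤ K ^ 6 := fun a ha => pow_le_pow_right₀ hK1' ha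
  have h61 : 1 ≤ K ^ 6 := one_le_pow₀ hK1'
  have hK16 : K ≤ K ^ 6 := by simpa using hKK 1 (by norm_num)
  have ht18 : 18 ≤ t := by linarith
  have ht0 : 0 < t := by linarith
  have hKH : 8 * K ≤ H := by
    rw [hK, hH, show (8 : ℝ) = 2 ^ 3 by norm_num, ← pow_add]
    exact pow_le_pow_right₀ (by norm_num) (by have := p.h_ge; omega)
  have hH0 : 0 < H := by positivity
  have hθ : (8 * K) ^ l / H ^ 3 ≤ 1 / H ^ 2 := by
    have h1 : (8 * K) ^ l ≤ H := by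
      rw [hK, hH, show (8 : ℝ) = 2 ^ 3 by norm_num, ← pow_add, ← pow_mul]
      refine pow_le_pow_right₀ (by norm_num) (le_trans ?_ p.hh)
      rw [add_comm 3 k]
      exact Nat.mul_le_mul_left _ (by omega)
    rw [div_le_div_iff₀ (by positivity) (by positivity)]
    nlinarith [pow_pos hH0 2]
  have hθ0 : 0 ≤ (8 * K) ^ l / H ^ 3 := by positivity
  have hθ1 : H * ((8 * K) ^ l / H ^ 3) ≤ 1 / 4 := by
    calc _ ≤ H * (1 / H ^ 2) := by gcongr
      _ = 1 / H := by field_simp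
      _ ≤ 1 / 4 := one_div_le_one_div_of_le (by norm_num) (by linarith)
  have hθ2 : 8 * K * ((8 * K) ^ l / H ^ 3) ≤ 1 := by
    have := mul_le_mul_of_nonneg_right hKH hθ0
    linarith
  have hbl : t ^ (6 * ν + 1) ≤ t ^ bb E l := pow_le_pow_right₀ (by linarith) n3
  have hν1 : 1 ≤ t ^ (6 * ν) := one_le_pow₀ (by linarith)
  have hη : 1000 * (t ^ (2 * ν)) ^ 3 * K * (1 / t ^ bb E l) ≤ 1 := by
    rw [mul_one_div, div_le_one (by positivity), ← pow_mul, show 2 * ν * 3 = 6 * ν by ring]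
    rw [pow_succ] at hbl
    have h1 : 1000 * K ≤ t := by nlinarith
    nlinarith
  have hη8 : 8 * K * (1 / t ^ bb E l) ≤ 1 := by
    rw [mul_one_div, div_le_one (by positivity)]
    rw [pow_succ] at hbl
    nlinarith
  obtain ⟨s1, s2, -, -, s5⟩ := step_letter d.pP d.pQ d.dom d.abs hθ0 hKM hη8 (by linarith) hB
  have hτ : t ^ (2 * ν) * Real.exp (-(2 * (M4 h E l : ℝ) ^ 2 / t ^ (2 * ν))) ≤
      t ^ (2 * ν) * Real.exp (-(H / 5)) := by
    refine mul_le_mul_of_nonneg_left (Real.exp_le_exp.2 (neg_le_neg ?_)) (by positivity)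
    have h1 : 4 * (M4 h E l : ℝ) = t ^ (jj E l + 3) := by rw [ht]; exact_mod_cast h4M
    have h2 : t ^ (2 * ν + 1) ≤ t ^ (2 * jj E l + 5) :=
      pow_le_pow_right₀ (by linarith) (by unfold jj; omega)
    have h3 : 16 * (M4 h E l : ℝ) ^ 2 = t ^ (2 * jj E l + 5) * t := by
      rw [← pow_succ, show 2 * jj E l + 5 + 1 = (jj E l + 3) * 2 by ring, pow_mul, ← h1]; ring
    rw [le_div_iff₀ (by positivity)]
    rw [pow_succ] at h2
    have h4 : 0 < t ^ (2 * ν) := by positivity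
    have h5 : H * t ^ (2 * ν) ≤ t ^ (2 * jj E l + 5) := by nlinarith
    have h6 : 0 < t ^ (2 * jj E l + 5) := by positivity
    nlinarith
  have n5' : bb E (l + 1 + 1) ≤ bb E (l + 1) + 10 * E := n5
  refine besAt_of_pair p hl d' (by have := p.bb_ge (l := l + 1) (by omega); omega)
    (by have := p.bb_ge (l := l + 1) (by omega); omega)
    (βp := 120 * ((2 ^ k : ℕ) : ℝ) * (1 / (2 * (tt h (l + 1) : ℝ) ^ bb E (l + 1))) ^ 2 /
      √((tt h l ^ (2 * ν) : ℕ) : ℝ) + 80 * (t ^ (2 * ν) * Real.exp (-(H / 5)))) (by positivity) ?_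
    fun e he => pair_gain (Z := 2 ^ h) (tm k) d.pP d.pQ d.dom d.abs d.coin (tm_length k) s1 s2
      hKM hJM hB (s5.mono d'.pP.1 hθ2) he hKm Nat.one_le_two_pow (by push_cast; exact hθ1) hZm
      (by push_cast; exact hη) (by push_cast; exact hτ) (by push_cast; exact le_rfl)
      (by omega) (by omega)
  have e1 : ((tt h (l + 1) : ℕ) : ℝ) = t ^ 2 := by rw [tt_succ]; push_cast; rfl
  have e2 : ((tt h (l + 1 + 1) : ℕ) : ℝ) = t ^ 4 := by
    rw [tt_succ]; push_cast; rw [e1]; ring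
  have e3 : √((tt h l ^ (2 * ν) : ℕ) : ℝ) = t ^ ν := by
    push_cast
    rw [← ht, mul_comm, pow_mul, Real.sqrt_sq (by positivity)]
  rw [e1, e2, e3, ← pow_mul t 2, ← pow_mul t 4]
  push_cast
  rw [← hK]
  refine cc_fin hT' hK1' n4 ?_
  have h2 : h * 2 ^ l * (2 * ν + 4 * bb E (l + 1 + 1) + 1) * 5 ≤ 2 ^ h := by
    refine le_trans ?_ p.hH
    have h3 : 2 ^ l ≤ 2 ^ L := Nat.pow_le_pow_right (by norm_num) (by omega)
    have h4 : 2 * ν + 4 * bb E (l + 1 + 1) + 1 ≤ 2 * k := by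
      have : 2 * bb E (l + 1 + 1) + 44 * E ≤ k := p.bb_le hl
      omega
    calc _ ≤ h * 2 ^ L * (2 * k) * 5 :=
          Nat.mul_le_mul_right _ (Nat.mul_le_mul (Nat.mul_le_mul_left _ h3) h4)
      _ = _ := by ring
  exact cc_exp h l _ h2

end Crest.Agent.R300
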