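import Crest.Agent.R300.CoreA
import Crest.Agent.R300.CoreC

/-! The hard pair (owner: helper12). -/

set_option autoImplicit false

namespace Crest.Agent.R300

theorem Dat.weaken {q : ℝ} {h E k l b b' : ℕ} {x y : List Bool} {P Δ : MA (FreeMonoid Bool)}
    (d : Dat q h E k l b x y P Δ) (hb : b' ≤ b) : Dat q h E k l b' x y P Δ :=
  { d with
    dom := d.dom.mono d.pP.1 (by
      have h1 : (1 : ℝ) ≤ tt h l := by exact_mod_cast tt_pos h l
      exact one_div_le_one_div_of_le (by positivity) (pow_le_pow_right₀ h1 hb)) }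

theorem core_ind {q : ℝ} {h E L k : ℕ} (p : Par q h E L k) (l : ℕ) (hl1 : 1 ≤ l)
    (hl : l + 1 ≤ L) : ∃ x y P Δ, Dat q h E k l (bb E l) x y P Δ ∧ BesAt h E k l P Δ := by
  induction l, hl1 using Nat.le_induction with
  | base =>
    obtain ⟨x, y, P, Δ, d⟩ := dat_one p
    exact ⟨x, y, P, Δ, d.weaken (by simp [bb]; omega), besAt_one p d⟩
  | succ l hl1 ih =>
    obtain ⟨x, y, P, Δ, d, hB⟩ := ih (by omega)
    exact ⟨_, _, _, _, dat_succ p hl1 (by omega) d hB, besAt_succ p hl1 (by omega) d hB⟩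

theorem err_le {q : ℝ} {h E L k : ℕ} (p : Par q h E L k) :
    (JJ h E L : ℝ) * Real.exp (-(2 ^ h / 2)) ≤ 1 / (tt h L : ℝ) ^ bb E L := by
  have ht : (0 : ℝ) < tt h L := by exact_mod_cast tt_pos h L
  rw [le_div_iff₀ (by positivity), Real.exp_neg, mul_right_comm, mul_inv_le_iff₀ (Real.exp_pos _),
    one_mul]
  have h1 : JJ h E L * tt h L ^ bb E L ≤ 2 ^ (h * 2 ^ L * k) := by
    unfold JJ
    rw [← pow_add]
    unfold tt
    rw [← pow_mul]
    refine Nat.pow_le_pow_right (by norm_num) (Nat.mul_le_mul_left _ ?_)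
    have := p.jj_le (le_refl L)
    have := p.bb_le (le_refl L)
    omega
  have h2 : ((JJ h E L : ℝ) * (tt h L : ℝ) ^ bb E L) ≤ 2 ^ (h * 2 ^ L * k) := by exact_mod_cast h1
  refine h2.trans ?_
  have h3 : (10 * ((h * 2 ^ L * k : ℕ) : ℝ)) ≤ 2 ^ h := by
    have := p.hH
    have h4 : 10 * (h * 2 ^ L * k) ≤ 2 ^ h := by rw [← mul_assoc, ← mul_assoc]; exact this
    exact_mod_cast h4
  calc (2 : ℝ) ^ (h * 2 ^ L * k) ≤ Real.exp 1 ^ (h * 2 ^ L * k) :=
        pow_le_pow_left₀ (by norm_num) (by linarith [Real.add_one_le_exp 1]) _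
    _ = Real.exp ((h * 2 ^ L * k : ℕ) : ℝ) := by rw [← Real.exp_nat_mul, mul_one]
    _ ≤ Real.exp (2 ^ h / 2) := Real.exp_le_exp.2 (by
        have : (0 : ℝ) ≤ ((h * 2 ^ L * k : ℕ) : ℝ) := Nat.cast_nonneg _
        linarith)

theorem core {q : ℝ} {h E L k : ℕ} (p : Par q h E L k) :
    HardPair q (JJ h E L) (1 / (tt h L : ℝ) ^ bb E L) := by
  have hL := p.hL
  obtain ⟨l, rfl⟩ : ∃ l, L = l + 1 := ⟨L - 1, by omega⟩
  obtain ⟨x, y, P, Δ, d, hB⟩ := core_ind p l (by omega) le_rfl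
  have d' := dat_succ p (by omega) le_rfl d hB
  exact ⟨_, _, d'.len, d'.le, d'.ne, _, _, d'.pP, d'.pQ, d'.lx.mono (err_le p),
    d'.ly.mono (err_le p), by simpa using d'.dom⟩

end Crest.Agent.R300
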