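import Crest.Agent.R300.Par
import Crest.Agent.R300.Base
import Crest.Agent.R300.CoinStep

/-! Task COREA: the data of level 1. -/

set_option autoImplicit false

namespace Crest.Agent.R300

theorem ca_len (n : ℕ) : (subst [false, true] [true] (List.replicate n false)).length = 2 * n := by
  induction n with
  | zero => rfl
  | succ n ih => rw [List.replicate_succ, subst_cons, List.length_append, ih]; simp; ring

/-- the word with the signal at position `a` -/
def caW (a b : ℕ) : List Bool :=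
  subst [false, true] [true] (List.replicate a false ++ [true] ++ List.replicate b false)

theorem caW_len (a b : ℕ) : (caW a b).length = 2 * a + 1 + 2 * b := by
  unfold caW
  rw [subst_append, subst_append, List.length_append, List.length_append, ca_len, ca_len]
  rfl

theorem caW_ne (a b b' : ℕ) : caW a b ≠ caW (a + 1) b' := by
  unfold caW
  rw [List.replicate_succ', subst_append, subst_append, subst_append, subst_append, subst_append,
    List.append_assoc, List.append_assoc, List.append_assoc]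
  intro h
  have := List.append_cancel_left h
  simp [subst] at this

theorem caW_law (q : ℝ) (a b : ℕ) : law q (caW a b) = law q [false, true] ^ a *
    (law q [false, true] + (law q [true] - law q [false, true])) * law q [false, true] ^ b := by
  unfold caW
  rw [law_subst, pat_append, pat_append, pat_replicate, pat_replicate]
  simp [pat]

theorem ca_exp {H : ℝ} (hH : 2 ^ 22 ≤ H) : 64 * H ^ 5 ≤ Real.exp (H / 2) := by
  have h0 : 0 < H := by linarith
  refine le_trans ?_ (Real.pow_div_factorial_le_exp (H / 2) (by positivity) 6)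
  have h1 : (H / 2) ^ 6 / ((Nat.factorial 6 : ℕ) : ℝ) = H ^ 5 * (H / 46080) := by
    simp [Nat.factorial]; ring
  rw [h1, mul_comm]
  exact mul_le_mul_of_nonneg_left (by linarith) (by positivity)

theorem ca_dom {H κ : ℝ} {E s : ℕ} (hH : 2 ^ 22 ≤ H) (hκ0 : 0 ≤ κ) (hκ : κ ≤ H)
    (hs : 118 * E + 2 ≤ 3 * s) (he : H ^ (118 * E) ≤ Real.exp H) :
    1600 * κ / ((H ^ s) ^ 2 * √((H ^ s) ^ 2)) + 2 * (Real.exp (-(H / 2)) / 2) ^ 2 ≤
      1 / (H ^ 2) ^ (59 * E) := by
  have h0 : 0 < H := by linarith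
  have hU : 0 < H ^ (118 * E) := by positivity
  rw [Real.sqrt_sq (by positivity), ← pow_succ, ← pow_mul, ← pow_mul,
    show 2 * (59 * E) = 118 * E by ring]
  have a1 : 1600 * κ / H ^ (s * (2 + 1)) ≤ 1 / (2 * H ^ (118 * E)) := by
    rw [div_le_div_iff₀ (by positivity) (by positivity)]
    have h2 : H ^ (118 * E + 2) ≤ H ^ (s * (2 + 1)) := pow_le_pow_right₀ (by linarith) (by omega)
    have h3 : 3200 * κ ≤ H ^ 2 := by nlinarith
    have h4 := mul_le_mul_of_nonneg_left h3 hU.le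
    rw [pow_add] at h2
    linarith
  have a2 : 2 * (Real.exp (-(H / 2)) / 2) ^ 2 ≤ 1 / (2 * H ^ (118 * E)) := by
    have h1 : 2 * (Real.exp (-(H / 2)) / 2) ^ 2 = 1 / (2 * Real.exp H) := by
      have h2 : Real.exp (-(H / 2)) ^ 2 = (Real.exp H)⁻¹ := by
        rw [← Real.exp_nat_mul, ← Real.exp_neg]; congr 1; push_cast; ring
      rw [div_pow, h2]; field_simp
    rw [h1]
    exact one_div_le_one_div_of_le (by positivity) (by linarith)
  have a4 : 1 / H ^ (118 * E) = 1 / (2 * H ^ (118 * E)) + 1 / (2 * H ^ (118 * E)) := by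
    field_simp; norm_num
  rw [a4]
  exact add_le_add a1 a2

set_option maxHeartbeats 1000000 in
/-- `H = 2^h`, `κ = 1/q ≤ h`, `P₀ = law [0,1]`, `Δ₀ = law [1] - P₀`, `J₀ = ⌈210/q²⌉₊` (`J₀ + 1 ≤ 212/q² ≤ h`),
`M = H^(80E)`, `a = M/2`, `r = H^(80E-2) = (H^(40E-1))²`, `θ = 1/H³`, `Z = H`, `τ = exp (-H/2)/2`.
`x = subst [0,1] [1] (replicate a false ++ [true] ++ replicate (M-1-a) false)`, `y` the same with `a+1`,
`M-2-a` (use `law_subst`, `pat_append`, `pat_replicate`; length `2M - 1 ≤ JJ h E 1 = M H⁴`; they differ at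
position `2a`). `level1` gives `Q`; `P = law x`, `Δ = Q - P`.
Coin: `coin_step` with `K = 1`, `Cl = P₀ + Δ₀`, `e = κ`, `M' = M/32`, `N = 2^ν` a power of two with
`65536 κ (J₀+1) ≤ N ≤ 2^25/q³ ≤ h` (so `2^N ≤ H`, `N ∣ M`), `x = M/(2N)`. -/
theorem dat_one {q : ℝ} {h E L k : ℕ} (p : Par q h E L k) :
    ∃ x y P Δ, Dat q h E k 1 (59 * E) x y P Δ := by
  have q0 := p.q0
  have q1 := p.q1
  have hE := p.E_ge
  have hh : 256 ≤ h := by have := p.h_ge; have := p.k_ge; omega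
  set J := ⌈210 / q ^ 2⌉₊ with hJ
  have hq2 : 1 ≤ 1 / q ^ 2 := by
    rw [le_div_iff₀ (by positivity), one_mul]; exact pow_le_one₀ q0.le q1.le
  have hκ1 : 1 ≤ 1 / q := by rw [le_div_iff₀ q0]; linarith
  have hJ1 : (J : ℝ) + 1 ≤ 212 * (1 / q ^ 2) := by
    have := Nat.ceil_lt_add_one (show 0 ≤ 210 / q ^ 2 by positivity)
    have e : 210 / q ^ 2 = 210 * (1 / q ^ 2) := by ring
    rw [← hJ, e] at this
    linarith
  have hq3 : 2 ^ 25 * (1 / q * (1 / q ^ 2)) ≤ h := by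
    refine le_trans (le_of_eq ?_) p.hq
    field_simp
  have hA : 2 * (65536 * (1 / q) * (J + 1)) ≤ h := by
    have := mul_le_mul_of_nonneg_left hJ1 (show 0 ≤ 1 / q by positivity)
    have h2 : 0 ≤ 1 / q * (1 / q ^ 2) := by positivity
    nlinarith
  have hJ0 : (0 : ℝ) ≤ J := Nat.cast_nonneg _
  have hκh : 1 / q ≤ h := by nlinarith
  have hJh : J + 1 ≤ h := by
    have : (J : ℝ) + 1 ≤ h := by nlinarith
    exact_mod_cast this
  have hhH : h ≤ 2 ^ h := Nat.lt_two_pow_self.le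
  obtain ⟨G, hG⟩ : ∃ G, 2 ^ h = 32 * G :=
    ⟨2 ^ (h - 5), by rw [show 32 = 2 ^ 5 by norm_num, ← pow_add]; congr 1; omega⟩
  set ν := Nat.log 2 h with hν
  have hν1 : 2 ^ ν ≤ h := Nat.pow_log_le_self 2 (by omega)
  have hν2 : h < 2 ^ (ν + 1) := Nat.lt_pow_succ_log_self (by norm_num) h
  have hν3 : ν ≤ h := Nat.lt_two_pow_self.le.trans hν1
  obtain ⟨y, hy⟩ : ∃ y, 2 ^ h = 2 ^ ν * y := ⟨2 ^ (h - ν), by rw [← pow_add]; congr 1; omega⟩
  have hN : 2 ^ 2 ^ ν ≤ 2 ^ h := Nat.pow_le_pow_right (by norm_num) hν1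
  have h22 : 2 ^ 22 ≤ 2 ^ h := Nat.pow_le_pow_right (by norm_num) (by omega)
  have hexp : h * (118 * E) ≤ 2 ^ h := by
    refine le_trans ?_ p.hH
    have h1 : 118 * E ≤ k := by have := p.hk; nlinarith
    have h2 : 1 ≤ 2 ^ L := Nat.one_le_two_pow
    calc h * (118 * E) ≤ h * k := Nat.mul_le_mul_left _ h1
      _ ≤ h * k * (10 * 2 ^ L) := Nat.le_mul_of_pos_right _ (by omega)
      _ = _ := by ring
  obtain ⟨s, hs⟩ : ∃ s, 40 * E = s + 1 := ⟨40 * E - 1, by omega⟩
  have htt : tt h 1 = (2 ^ h) ^ 2 := by rw [tt_succ h 0, tt_zero]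
  generalize hH : 2 ^ h = H at hhH hG hy hN h22 hexp htt
  set r := (H ^ s) ^ 2 with hr
  set M' := r * H * G with hM'
  have hJJ : JJ h E 1 = 32 * M' * H ^ 4 := by
    unfold JJ jj
    rw [htt, hs, hM', hr]
    have : 32 * ((H ^ s) ^ 2 * H * G) = (H ^ s) ^ 2 * H * (32 * G) := by ring
    rw [this, ← hG]; ring
  have hH1 : 1 ≤ H := by omega
  have hrH : H ^ 17 ≤ r := by
    rw [hr, ← pow_mul]; exact Nat.pow_le_pow_right hH1 (by omega)
  have hH2 : H ^ 2 ≤ H ^ 17 := Nat.pow_le_pow_right hH1 (by omega)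
  have hH3 : 25 * H ≤ r := by
    have : 25 * H ≤ H ^ 2 := by rw [sq]; exact Nat.mul_le_mul_right _ (by omega)
    omega
  have hG1 : 1 ≤ G := by omega
  have hrM : r * H ≤ M' := Nat.le_mul_of_pos_right _ hG1
  have hrJ : r * (J + 1) ≤ M' := (Nat.mul_le_mul_left _ (hJh.trans hhH)).trans hrM
  have hrM2 : r ≤ M' := (Nat.le_mul_of_pos_right _ hH1).trans hrM
  have hHR : (2 : ℝ) ^ h = H := by exact_mod_cast hH
  have h22' : (2 : ℝ) ^ 22 ≤ H := by exact_mod_cast h22
  have hH0 : (0 : ℝ) < H := by linarith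
  have hκH : 1 / q ≤ H := hκh.trans (by exact_mod_cast hhH)
  have hκ0 : 0 < 1 / q := by positivity
  have hP : Prob (law q [false, true]) := prob_law q0.le q1.le _
  have hQ : Prob (law q [false, true] + (law q [true] - law q [false, true])) := by
    rw [add_sub_cancel]; exact prob_law q0.le q1.le _
  obtain ⟨b1, b2⟩ := base0 q0 q1
  have hC := coin0 q0 q1 J (Nat.le_ceil _)
  have hE5 := ca_exp h22'
  have hex0 : 0 < Real.exp ((H : ℝ) / 2) := Real.exp_pos _
  have hH35 : (H : ℝ) ^ 3 ≤ H ^ 5 := pow_le_pow_right₀ (by linarith) (by norm_num)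
  obtain ⟨Q, c1, c2, c3, c4⟩ := level1 (θ := 1 / (H : ℝ) ^ 3) (Z := H)
    (τ := Real.exp (-((H : ℝ) / 2)) / 2) hP hQ b1 b2 hκ1 hC (32 * M') (16 * M') r (by omega)
    (by omega) (by positivity)
    (one_div_le_one_div_of_le (by norm_num) (by
      have : (2 : ℝ) ^ 3 ≤ (H : ℝ) ^ 3 := pow_le_pow_left₀ (by norm_num) (by linarith) 3
      linarith)) (by linarith)
    (by
      have h1 : 16 * (1 / q) * H * H ^ 6 ≤ √((r : ℝ) / 8) := by
        refine Real.le_sqrt_of_sq_le ?_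
        have h2 : ((H : ℝ)) ^ 17 ≤ r := by exact_mod_cast hrH
        have h3 : 16 * (1 / q) * H * H ^ 6 ≤ 16 * (H : ℝ) ^ 8 := by
          have : (1 / q) * H ^ 7 ≤ H * (H : ℝ) ^ 7 := by gcongr
          nlinarith
        have h4 : (16 * (H : ℝ) ^ 8) ^ 2 ≤ H ^ 17 / 8 := by
          have : 2048 * (H : ℝ) ^ 16 ≤ H * H ^ 16 := by gcongr; linarith
          nlinarith
        calc _ ≤ (16 * (H : ℝ) ^ 8) ^ 2 := by gcongr
          _ ≤ _ := by linarith
      have h2 : (1 / (H : ℝ) ^ 3) ^ 2 * √((r : ℝ) / 8) = √((r : ℝ) / 8) / H ^ 6 := by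
        field_simp
      rw [h2, le_div_iff₀ (by positivity)]
      exact h1)
    (by exact_mod_cast hH3)
    (by
      have h1 : Real.exp (-(H : ℝ)) = Real.exp (-((H : ℝ) / 2)) * (Real.exp ((H : ℝ) / 2))⁻¹ := by
        rw [← Real.exp_neg, ← Real.exp_add]; congr 1; ring
      have h2 : 32 * (1 / q) ^ 2 * Real.exp (-(H : ℝ)) / (1 / (H : ℝ) ^ 3) =
          Real.exp (-((H : ℝ) / 2)) / 2 * (64 * ((1 / q) ^ 2 * H ^ 3) / Real.exp ((H : ℝ) / 2)) := by
        rw [h1]; field_simp; norm_num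
      rw [h2]
      refine mul_le_of_le_one_right (by positivity) ?_
      rw [div_le_one hex0]
      have : (1 / q) ^ 2 * (H : ℝ) ^ 3 ≤ H ^ 2 * H ^ 3 := by gcongr
      nlinarith)
    (by
      rw [Real.exp_neg, div_le_div_iff₀ (by norm_num) (by positivity), inv_mul_le_iff₀ hex0]
      nlinarith [pow_pos hH0 5])
  have hU := (hP.pow (16 * M')).mul hQ |>.mul (hP.pow (32 * M' - 1 - 16 * M'))
  have hJJ1 : (1 : ℝ) ≤ JJ h E 1 := by
    exact_mod_cast Nat.one_le_pow _ _ (tt_pos h 1)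
  have hH23 : 3 ≤ H ^ 2 := le_trans (by omega) (Nat.le_self_pow (by norm_num) H)
  have hH4 : 3 * H ^ 2 ≤ H ^ 4 := by
    rw [show H ^ 4 = H ^ 2 * H ^ 2 by ring]; exact Nat.mul_le_mul_right _ hH23
  refine ⟨caW (16 * M') (32 * M' - 1 - 16 * M'), caW (16 * M' + 1) (32 * M' - 2 - 16 * M'), _, _,
    ?_, ?_, caW_ne _ _ _, hU, ?_, ?_, ?_, c3.mono hU.1 ?_, c4.mono hU.1 ?_, ?_⟩
  · rw [caW_len, caW_len]; omega
  · rw [caW_len, hJJ]
    have : 32 * M' * 2 ≤ 32 * M' * H ^ 4 := Nat.mul_le_mul_left _ (by omega)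
    omega
  · rw [add_sub_cancel]; exact c1
  · rw [caW_law, sub_self]
    exact L1.zero.mono (by positivity)
  · rw [add_sub_cancel, caW_law]
    refine c2.mono ?_
    rw [hHR]
    have := mul_le_mul_of_nonneg_right hJJ1 (Real.exp_pos (-((H : ℝ) / 2))).le
    linarith
  · rw [htt, hr]
    push_cast
    refine ca_dom h22' hκ0.le hκH (by omega) ?_
    have h3 : ((h * (118 * E) : ℕ) : ℝ) ≤ H := by exact_mod_cast hexp
    refine le_trans ?_ (Real.exp_le_exp.2 h3)
    rw [← hHR, ← pow_mul, ← mul_one ((h * (118 * E) : ℕ) : ℝ), Real.exp_nat_mul]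
    exact pow_le_pow_left₀ (by norm_num) (by linarith [Real.add_one_le_exp 1]) _
  · rw [hHR, pow_one, mul_one_div]
    have : (1 : ℝ) ≤ 2 ^ k := one_le_pow₀ (by norm_num)
    exact div_le_div_of_nonneg_right (by linarith) (pow_pos hH0 3).le
  · rw [show 32 * M' - 1 - 16 * M' = 16 * M' - 1 by omega]
    refine coin_step (e := 1 / q) (N := 2 ^ ν) (x := y * r * 16 * G) hP hC hQ (by simpa using b1)
      le_rfl (by omega) (by omega) (by rw [hM', hy]; ring) (by omega) ?_ (by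
        have := Nat.pow_le_pow_left (hν1.trans hhH) 2
        omega) ?_
    · have h1 : (h : ℝ) ≤ 2 * ((2 ^ ν : ℕ) : ℝ) := by
        have : h ≤ 2 * 2 ^ ν := by omega
        exact_mod_cast this
      rw [Nat.cast_one, one_mul]
      linarith
    · rw [hJJ]
      calc 3 * 2 ^ 2 ^ ν * (32 * M') * (J + 1) ≤ 3 * H * (32 * M') * H := by
            exact Nat.mul_le_mul (Nat.mul_le_mul_right _ (Nat.mul_le_mul_left _ hN))
              (hJh.trans hhH)
        _ = 32 * M' * (3 * H ^ 2) := by ring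
        _ ≤ _ := Nat.mul_le_mul_left _ hH4

end Crest.Agent.R300
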