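import Crest.Agent.R300.Par
import Crest.Agent.R300.CoinStep

/-! Task COREB: data of level `l` + Bessel bound ⇒ data of level `l + 1`. -/

set_option autoImplicit false

namespace Crest.Agent.R300

/-- `step_letter` (`θ = (8K)^l/H³ ≤ 1/H²` since `(k+3) L ≤ h`), `l1_pat`, `subst_length`, `subst_inj`,
`blk_ne`, `tm_ne`, `blk_length`; `M · JJ l ≤ JJ (l+1)`. Coin: `coin_step` with `Cl = pat P Δ (tm k)`,
`e = 2Kη` (`dom_pat`, `one_add_pow_le`), `N = 128`, `M' = M/32`, `x = M/256`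
(`2048 K² J η ≤ 1` because `bb ≥ 57E ≥ jj + 1` and `2048 K² ≤ H`; `6·2^128 ≤ H`). -/
theorem dat_succ {q : ℝ} {h E L k l : ℕ} (p : Par q h E L k) (hl1 : 1 ≤ l) (hl : l + 1 ≤ L)
    {x y : List Bool} {P Δ : MA (FreeMonoid Bool)} (d : Dat q h E k l (bb E l) x y P Δ)
    (hB : BesAt h E k l P Δ) :
    Dat q h E k (l + 1) (bb E (l + 1)) (subst x y (blk (4 * M4 h E l) (tm k)))
      (subst x y (blk (4 * M4 h E l) ((tm k).map not))) (pat P Δ (blk (4 * M4 h E l) (tm k)))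
      (P ^ (2 * M4 h E l) * dfc P Δ k * P ^ (2 * M4 h E l - 2 ^ k)) := by
  have hh := p.h_ge
  have hk := p.k_ge
  have hE := p.E_ge
  have hb := p.bb_ge hl1
  have hj := p.jj_le (show l ≤ L by omega)
  have hM := four_M4 h E l (by omega)
  have hJ' := JJ_succ h E l
  have ht : ∀ a, a ≤ h → 2 ^ a ≤ tt h l := fun a ha =>
    (Nat.pow_le_pow_right (by norm_num) ha).trans (two_pow_le_tt h l)
  have ht0 := tt_pos h l
  have hJ : JJ h E l = tt h l ^ jj E l := rfl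
  obtain ⟨z, hz⟩ := two_pow_dvd h E l 8 (by omega)
  set t := tt h l with htt
  set j := jj E l with hjj
  set M₄ := M4 h E l with hM₄
  have hJ0 : 0 < t ^ j := pow_pos ht0 j
  have hM3 : t ^ (j + 3) = t ^ j * t ^ 3 := pow_add _ _ _
  have ht3 : t ≤ t ^ 3 := Nat.le_self_pow (by norm_num) t
  have htM : t ≤ t ^ (j + 3) := Nat.le_self_pow (by omega) t
  have hK32 : 32 * 2 ^ k ≤ t := by
    have := ht (k + 5) (by omega); rw [pow_add] at this; omega
  have htb : t ≤ t ^ bb E l := Nat.le_self_pow (by omega) t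
  have htb0 : (0 : ℝ) < (t : ℝ) ^ bb E l := by positivity
  have hη : 8 * 2 ^ k * (1 / (t : ℝ) ^ bb E l) ≤ 1 := by
    rw [mul_one_div, div_le_one htb0]
    have : 8 * 2 ^ k ≤ t ^ bb E l := by omega
    exact_mod_cast this
  have hθ : 4 * 2 ^ k * (((8 : ℝ) * 2 ^ k) ^ l / (2 ^ h) ^ 3) ≤ 1 := by
    rw [← mul_div_assoc, div_le_one (by positivity)]
    have h1 : 4 * 2 ^ k * (8 * 2 ^ k) ^ l ≤ (2 ^ h) ^ 3 := by
      calc 4 * 2 ^ k * (8 * 2 ^ k) ^ l ≤ 8 * 2 ^ k * (8 * 2 ^ k) ^ l :=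
            Nat.mul_le_mul_right _ (by omega)
        _ = 2 ^ ((k + 3) * (l + 1)) := by rw [← pow_succ', pow_mul, pow_add]; ring
        _ ≤ 2 ^ h := Nat.pow_le_pow_right (by norm_num)
            ((Nat.mul_le_mul_left _ hl).trans p.hh)
        _ ≤ (2 ^ h) ^ 3 := Nat.le_self_pow (by norm_num) _
    exact_mod_cast h1
  obtain ⟨-, -, s3, s4, s5⟩ := step_letter (M₄ := M₄) d.pP d.pQ d.dom d.abs (by positivity)
    (by omega) hη hθ hB
  have hl1' : (blk (4 * M₄) (tm k)).length = 4 * M₄ :=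
    blk_length _ _ (by rw [tm_length]; omega)
  have hl2' : (blk (4 * M₄) ((tm k).map not)).length = 4 * M₄ :=
    blk_length _ _ (by rw [List.length_map, tm_length]; omega)
  have hMJ : 4 * M₄ * JJ h E l ≤ JJ h E (l + 1) := by
    rw [hM, hJ, hJ', ← pow_add]
    exact Nat.pow_le_pow_right ht0 (by omega)
  have herr : ((4 * M₄ : ℕ) : ℝ) * (JJ h E l * Real.exp (-(2 ^ h / 2))) ≤
      JJ h E (l + 1) * Real.exp (-(2 ^ h / 2)) := by
    rw [← mul_assoc]
    refine mul_le_mul_of_nonneg_right ?_ (Real.exp_pos _).le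
    exact_mod_cast hMJ
  have hq0 := p.q0.le
  have hq1 := p.q1.le
  refine ⟨?_, ?_, ?_, prob_pat d.pP d.pQ _, ?_, ?_, ?_, ?_, ?_, ?_⟩
  · rw [subst_length _ _ _ d.len, subst_length _ _ _ d.len, hl1', hl2']
  · rw [subst_length _ _ _ d.len, hl1']
    exact (Nat.mul_le_mul_left _ d.le).trans hMJ
  · exact fun he => blk_ne _ _ _ (by rw [List.length_map]) (tm_ne k)
      (subst_inj x y d.len d.ne _ _ (by rw [hl1', hl2']) he)
  · rw [s3]; exact prob_pat d.pP d.pQ _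
  · refine (l1_pat hq0 hq1 x y d.pP d.pQ d.lx d.ly _).mono ?_
    rw [hl1']; exact herr
  · rw [s3]
    refine (l1_pat hq0 hq1 x y d.pP d.pQ d.lx d.ly _).mono ?_
    rw [hl2']; exact herr
  · convert s4 using 1
    have : (0 : ℝ) < tt h (l + 1) := by exact_mod_cast tt_pos h (l + 1)
    field_simp
  · convert s5 using 1
    rw [pow_succ]; ring
  · have hη0 : (0 : ℝ) ≤ 1 / (t : ℝ) ^ bb E l := by positivity
    have hK0 : (0 : ℝ) < 2 ^ k := by positivity
    have he : Dom (pat P Δ (tm k) - P ^ 2 ^ k) (P ^ 2 ^ k)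
        (2 * ((2 ^ k : ℕ) : ℝ) * (1 / (t : ℝ) ^ bb E l)) := by
      have h1 := dom_pat d.pP (mass_eq_zero_of_prob d.pP d.pQ) d.dom (tm k)
      rw [tm_length] at h1
      refine h1.mono (d.pP.1.pow _) (le_trans ?_ (one_add_pow_le hη0 (2 ^ k) ?_))
      · have : (tm k).count true ≤ 2 ^ k := by rw [← tm_length]; exact List.count_le_length
        linarith [pow_le_pow_right₀ (show (1 : ℝ) ≤ 1 + 1 / (t : ℝ) ^ bb E l by linarith) this]
      · push_cast; nlinarith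
    have hc := coin_step (M' := 8 * z) (N := 128) (x := z) (J' := JJ h E (l + 1)) d.pP d.coin
      (prob_pat d.pP d.pQ (tm k)) he Nat.one_le_two_pow (by omega) ?_ (by omega) le_rfl ?_ ?_ ?_
    · rw [pat_blk, tm_length, show 4 * M₄ / 2 = 16 * (8 * z) by omega,
        show 4 * M₄ - 16 * (8 * z) - 2 ^ k = 16 * (8 * z) - 2 ^ k by omega]
      exact hc
    · have h1 := ht 8 (by omega)
      have h2 : t ^ j * 256 ≤ t ^ j * t ^ 3 := Nat.mul_le_mul_left _ (by omega)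
      omega
    · have h1 : 2048 * (2 ^ k) ^ 2 * JJ h E l ≤ t ^ bb E l := by
        have h2 := ht (2 * k + 11) (by omega)
        calc 2048 * (2 ^ k) ^ 2 * JJ h E l = 2 ^ (2 * k + 11) * t ^ j := by rw [hJ]; ring
          _ ≤ t * t ^ j := Nat.mul_le_mul_right _ h2
          _ = t ^ (j + 1) := (pow_succ' _ _).symm
          _ ≤ t ^ bb E l := Nat.pow_le_pow_right ht0 (by omega)
      have h2 : (2048 : ℝ) * (2 ^ k) ^ 2 * JJ h E l ≤ (t : ℝ) ^ bb E l := by exact_mod_cast h1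
      have h3 : (1 : ℝ) ≤ JJ h E l := by rw [hJ]; exact_mod_cast hJ0
      have h4 : (65536 : ℝ) * (((2 ^ k : ℕ) : ℝ) * (2 * ((2 ^ k : ℕ) : ℝ) *
          (1 / (t : ℝ) ^ bb E l))) * (JJ h E l + 1) =
          131072 * (2 ^ k) ^ 2 * (JJ h E l + 1) / (t : ℝ) ^ bb E l := by
        push_cast; ring
      rw [h4, div_le_iff₀ htb0]
      push_cast
      nlinarith [sq_nonneg ((2 : ℝ) ^ k)]
    · have h1 := ht 16 (by omega)
      omega
    · have h1 := ht 131 (by omega)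
      rw [show 32 * (8 * z) = t ^ (j + 3) by omega, hJ, hJ']
      calc 3 * 2 ^ 128 * t ^ (j + 3) * (t ^ j + 1) ≤ 3 * 2 ^ 128 * t ^ (j + 3) * (2 * t ^ j) :=
            Nat.mul_le_mul_left _ (by omega)
        _ = 6 * 2 ^ 128 * (t ^ (j + 3) * t ^ j) := by ring
        _ ≤ t * (t ^ (j + 3) * t ^ j) := Nat.mul_le_mul_right _ (by omega)
        _ = t ^ (2 * j + 4) := by ring

end Crest.Agent.R300
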