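import Mathlib

/-!
# Row 300 (trace reconstruction), LOWER bound: definitions

Everything happens in the monoid algebra `MA G = MonoidAlgebra ℝ G` (`G = FreeMonoid Bool`:
finitely supported signed measures on bit strings, product = independent concatenation).
The trace law of a word is the product of the letter laws `q•1 + (1-q)•[b]`.
`Dom ν ρ b` says `∑ ν²/ρ ≤ b` (chi-square norm, dual form), `L1 ν δ` says `∑ |ν| ≤ δ`.
Coefficient vectors (placements / hidden shifts) are real polynomials.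
-/

set_option autoImplicit false

namespace Crest.Agent.R300

open Polynomial

abbrev MA (G : Type) := MonoidAlgebra ℝ G

section
variable {G : Type} [Monoid G]

/-- pairing of a finitely supported signed measure with a function -/
noncomputable def ev (a : MA G) (f : G → ℝ) : ℝ := a.coeff.sum fun g r => r * f g

def NN (a : MA G) : Prop := ∀ g, 0 ≤ a.coeff g

def Le (a b : MA G) : Prop := NN (b - a)

noncomputable def mass (a : MA G) : ℝ := ev a fun _ => 1

def Prob (a : MA G) : Prop := NN a ∧ mass a = 1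

/-- chi-square domination `∑ ν²/ρ ≤ b`, dual form -/
def Dom (ν ρ : MA G) (b : ℝ) : Prop :=
  0 ≤ b ∧ ∀ f : G → ℝ, (ev ν f) ^ 2 ≤ b * ev ρ fun g => f g ^ 2

/-- `∑ |ν| ≤ δ`, dual form -/
def L1 (ν : MA G) (δ : ℝ) : Prop := ∀ f : G → ℝ, (∀ g, |f g| ≤ 1) → ev ν f ≤ δ

/-- `|ν| ≤ κ ρ` coefficientwise -/
def Abs (ν : MA G) (κ : ℝ) (ρ : MA G) : Prop := Le ν (κ • ρ) ∧ Le (-ν) (κ • ρ)

/-- hockey-stick bound `∑ (ν - t ρ)₊ ≤ b`, dual form -/
def Hk (t : ℝ) (ν ρ : MA G) (b : ℝ) : Prop :=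
  ∀ f : G → ℝ, (∀ g, 0 ≤ f g ∧ f g ≤ 1) → ev ν f - t * ev ρ f ≤ b

/-- `P^J` and `P^(J+1)` have a common part of mass `c` (a hidden fair coin) -/
def Coin (P : MA G) (J : ℕ) (c : ℝ) : Prop :=
  ∃ S : MA G, NN S ∧ Le S (P ^ J) ∧ Le S (P ^ (J + 1)) ∧ mass S = c

/-- a "perspective" bound (satisfied by `Dom` and `Hk t`) -/
structure Persp (Φ : MA G → MA G → ℝ → Prop) : Prop where
  mono : ∀ ν ρ b b', NN ρ → Φ ν ρ b → b ≤ b' → Φ ν ρ b'
  split : ∀ ν₁ ν₂ ρ₁ ρ₂ b₁ b₂, NN ρ₁ → NN ρ₂ → Φ ν₁ ρ₁ b₁ → Φ ν₂ ρ₂ b₂ →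
    Φ (ν₁ + ν₂) (ρ₁ + ρ₂) (b₁ + b₂)
  sand : ∀ a c ν ρ b, NN a → NN c → NN ρ → Φ ν ρ b →
    Φ (a * ν * c) (a * ρ * c) (mass a * mass c * b)

/-- linear combination of a family with the coefficients of a polynomial -/
noncomputable def lin (F : ℕ → MA G) (e : ℝ[X]) : MA G := e.sum fun s c => c • F s

/-- squared ℓ² norm of the coefficients -/
noncomputable def nsq (e : ℝ[X]) : ℝ := e.sum fun _ c => c ^ 2

/-- ℓ¹ norm of the coefficients -/
noncomputable def n1 (e : ℝ[X]) : ℝ := e.sum fun _ c => |c|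

/-- the coefficients of `e` live in `[lo, hi]` -/
def Supp (e : ℝ[X]) (lo hi : ℕ) : Prop := ∀ i, e.coeff i ≠ 0 → lo ≤ i ∧ i ≤ hi

/-- Binomial(h, 1/2) -/
noncomputable def bin (h : ℕ) : ℝ[X] := (C (1 / 2 : ℝ) * (1 + X)) ^ h

/-- Bessel bound for a family -/
def Bes (F : ℕ → MA G) (ρ : MA G) (β : ℝ) : Prop :=
  0 ≤ β ∧ ∀ e : ℝ[X], Dom (lin F e) ρ (β * nsq e)

/-- the `κ`-letter signal `σ` placed at position `s ∈ [lo, hi]` of the medium `P^n` -/
noncomputable def place (P σ : MA G) (n κ lo hi : ℕ) : ℕ → MA G := fun s =>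
  if lo ≤ s ∧ s ≤ hi then P ^ s * σ * P ^ (n - κ - s) else 0

/-- one pair of coin windows (left `J+1`, right `J` or left `J`, right `J+1`) -/
noncomputable def sm (P : MA G) (J : ℕ) (F : ℕ → MA G) : ℕ → MA G := fun s =>
  (1 / 2 : ℝ) • (P ^ (J + 1) * F s * P ^ J) + (1 / 2 : ℝ) • (P ^ J * F (s + 1) * P ^ (J + 1))

/-- law of a word over the two letters `P` (false) and `P + Δ` (true) -/
noncomputable def pat (P Δ : MA G) : List Bool → MA G
  | [] => 1
  | a :: l => (if a then P + Δ else P) * pat P Δ l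

end

/-- `∑ (-1)^(l i) X^i` -/
noncomputable def sgnPoly : List Bool → ℝ[X]
  | [] => 0
  | a :: l => C (if a then -1 else 1) + X * sgnPoly l

/-- Thue-Morse word of length `2^k` -/
def tm : ℕ → List Bool
  | 0 => [false]
  | k + 1 => tm k ++ (tm k).map not

noncomputable def tmP (k : ℕ) : ℝ[X] := ∏ j ∈ Finset.range k, (1 - X ^ (2 ^ j))

/-- the pattern `l` in the middle of a block of `M` letters -/
def blk (M : ℕ) (l : List Bool) : List Bool :=
  List.replicate (M / 2) false ++ l ++ List.replicate (M - M / 2 - l.length) false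

/-- substitute the words `x` (false) and `y` (true) -/
def subst (x y : List Bool) (l : List Bool) : List Bool :=
  (l.map fun a => if a then y else x).flatten

/-- law of one letter under deletion probability `q` -/
noncomputable def chan (q : ℝ) (b : Bool) : MA (FreeMonoid Bool) :=
  q • (1 : MA (FreeMonoid Bool)) + (1 - q) • MonoidAlgebra.single (FreeMonoid.of b) (1 : ℝ)

/-- trace law of a word -/
noncomputable def law (q : ℝ) (w : List Bool) : MA (FreeMonoid Bool) := (w.map (chan q)).prod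

/-- a hard pair of words of length `≤ len`: up to `τ` in ℓ¹ their trace laws have chi-square `≤ τ` -/
def HardPair (q : ℝ) (len : ℕ) (τ : ℝ) : Prop :=
  ∃ x y : List Bool, x.length = y.length ∧ x.length ≤ len ∧ x ≠ y ∧
    ∃ P Q : MA (FreeMonoid Bool), Prob P ∧ Prob Q ∧ L1 (P - law q x) τ ∧ L1 (Q - law q y) τ ∧
      Dom (Q - P) P τ

end Crest.Agent.R300
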