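import Crest.Agent.R300.Basic

/-! Task DOM: the chi-square calculus. -/

set_option autoImplicit false
set_option linter.unusedSectionVars false
set_option linter.unusedVariables false

namespace Crest.Agent.R300

open Polynomial

variable {G : Type} [Monoid G]

theorem ev_sq_nonneg {ρ : MA G} (hρ : NN ρ) (f : G → ℝ) : 0 ≤ ev ρ fun g => f g ^ 2 :=
  ev_nonneg hρ fun _ => sq_nonneg _

theorem Dom.nonneg {ν ρ : MA G} {b : ℝ} (h : Dom ν ρ b) : 0 ≤ b := h.1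

theorem Dom.mono {ν ρ : MA G} {b b' : ℝ} (h : Dom ν ρ b) (hρ : NN ρ) (hb : b ≤ b') :
    Dom ν ρ b' :=
  ⟨h.1.trans hb, fun f => (h.2 f).trans (mul_le_mul_of_nonneg_right hb (ev_sq_nonneg hρ f))⟩

theorem Dom.zero {ρ : MA G} (hρ : NN ρ) {b : ℝ} (hb : 0 ≤ b) : Dom 0 ρ b :=
  ⟨hb, fun f => by simpa using mul_nonneg hb (ev_sq_nonneg hρ f)⟩

theorem Dom.neg {ν ρ : MA G} {b : ℝ} (h : Dom ν ρ b) : Dom (-ν) ρ b :=
  ⟨h.1, fun f => by rw [ev_neg, neg_sq]; exact h.2 f⟩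

theorem Dom.smul {ν ρ : MA G} {b : ℝ} (h : Dom ν ρ b) (c : ℝ) : Dom (c • ν) ρ (c ^ 2 * b) :=
  ⟨mul_nonneg (sq_nonneg _) h.1, fun f => by
    rw [ev_smul, mul_pow, mul_assoc]; exact mul_le_mul_of_nonneg_left (h.2 f) (sq_nonneg _)⟩

/-- change of reference measure -/
theorem Dom.ref {ν ρ ρ' : MA G} {b κ : ℝ} (h : Dom ν ρ b) (hκ : 0 ≤ κ) (hle : Le ρ (κ • ρ')) :
    Dom ν ρ' (κ * b) := by
  refine ⟨mul_nonneg hκ h.1, fun f => (h.2 f).trans ?_⟩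
  have := hle.ev (f := fun g => f g ^ 2) fun _ => sq_nonneg _
  rw [ev_smul] at this
  calc b * ev ρ (fun g => f g ^ 2) ≤ b * (κ * ev ρ' fun g => f g ^ 2) :=
        mul_le_mul_of_nonneg_left this h.1
    _ = _ := by ring

/-- Cauchy-Schwarz for a positive measure -/
theorem ev_cs {ρ : MA G} (hρ : NN ρ) (f g : G → ℝ) :
    (ev ρ fun u => f u * g u) ^ 2 ≤ (ev ρ fun u => f u ^ 2) * ev ρ fun u => g u ^ 2 := by
  simp only [ev, Finsupp.sum]
  refine Finset.sum_sq_le_sum_mul_sum_of_sq_le_mul _ (fun u _ => mul_nonneg (hρ u) (sq_nonneg _))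
    (fun u _ => mul_nonneg (hρ u) (sq_nonneg _)) (fun u _ => le_of_eq (by ring))

/-- `|a u| ≤ √(B u · C u)` integrated -/
theorem ev_sq_le {ρ : MA G} (hρ : NN ρ) {a B C : G → ℝ} (hB : ∀ u, 0 ≤ B u) (hC : ∀ u, 0 ≤ C u)
    (h : ∀ u, a u ^ 2 ≤ B u * C u) : (ev ρ a) ^ 2 ≤ ev ρ B * ev ρ C := by
  have h1 : ∀ u, |a u| ≤ √(B u) * √(C u) := fun u => by
    rw [← Real.sqrt_mul (hB u)]; exact Real.abs_le_sqrt (h u)
  have h2 := (Abs.refl hρ).ev (f := a) (F := fun u => √(B u) * √(C u)) h1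
  rw [one_mul] at h2
  have h3 := ev_cs hρ (fun u => √(B u)) (fun u => √(C u))
  simp only [Real.sq_sqrt (hB _), Real.sq_sqrt (hC _)] at h3
  calc (ev ρ a) ^ 2 = |ev ρ a| ^ 2 := (sq_abs _).symm
    _ ≤ (ev ρ fun u => √(B u) * √(C u)) ^ 2 := pow_le_pow_left₀ (abs_nonneg _) h2 2
    _ ≤ _ := h3

theorem Dom.self {ρ : MA G} (hρ : NN ρ) : Dom ρ ρ (mass ρ) := by
  refine ⟨hρ.mass_nonneg, fun f => ?_⟩
  have := ev_cs hρ (fun _ => 1) f
  simpa [mass] using this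

theorem Prob.dom {ρ : MA G} (hρ : Prob ρ) : Dom ρ ρ 1 := by
  have := Dom.self hρ.1; rwa [hρ.2] at this

theorem Abs.dom {ν ρ : MA G} {κ : ℝ} (h : Abs ν κ ρ) (hρ : NN ρ) :
    Dom ν ρ (κ ^ 2 * mass ρ) := by
  refine ⟨mul_nonneg (sq_nonneg _) hρ.mass_nonneg, fun f => ?_⟩
  have h1 := h.ev (f := f) (F := fun g => |f g|) fun _ => le_rfl
  have h2 := (Dom.self hρ).2 fun g => |f g|
  simp only [sq_abs] at h2
  have h3 := pow_le_pow_left₀ (abs_nonneg _) h1 2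
  rw [sq_abs, mul_pow] at h3
  rw [mul_assoc]
  exact h3.trans (mul_le_mul_of_nonneg_left h2 (sq_nonneg _))

theorem Dom.abs_le {ν ρ : MA G} {a : ℝ} (ha : 0 ≤ a) (h : Dom ν ρ (a ^ 2)) (f : G → ℝ) :
    |ev ν f| ≤ a * √(ev ρ fun g => f g ^ 2) := by
  have := Real.abs_le_sqrt (h.2 f)
  rwa [Real.sqrt_mul (sq_nonneg a), Real.sqrt_sq ha] at this

theorem dom_of_abs_le {ν ρ : MA G} {a : ℝ} (hρ : NN ρ)
    (h : ∀ f : G → ℝ, |ev ν f| ≤ a * √(ev ρ fun g => f g ^ 2)) : Dom ν ρ (a ^ 2) := by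
  refine ⟨sq_nonneg _, fun f => ?_⟩
  calc (ev ν f) ^ 2 = |ev ν f| ^ 2 := (sq_abs _).symm
    _ ≤ (a * √(ev ρ fun g => f g ^ 2)) ^ 2 := pow_le_pow_left₀ (abs_nonneg _) (h f) 2
    _ = _ := by rw [mul_pow, Real.sq_sqrt (ev_sq_nonneg hρ f)]

/-- triangle inequality -/
theorem Dom.add_sq {ν μ ρ : MA G} {a b : ℝ} (hρ : NN ρ) (ha : 0 ≤ a) (hb : 0 ≤ b)
    (h : Dom ν ρ (a ^ 2)) (h' : Dom μ ρ (b ^ 2)) : Dom (ν + μ) ρ ((a + b) ^ 2) :=
  dom_of_abs_le hρ fun f => by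
    rw [ev_add, add_mul]
    exact (abs_add_le _ _).trans (add_le_add (h.abs_le ha f) (h'.abs_le hb f))

theorem Dom.add {ν μ ρ : MA G} {a b : ℝ} (hρ : NN ρ) (h : Dom ν ρ a) (h' : Dom μ ρ b) :
    Dom (ν + μ) ρ (2 * a + 2 * b) := by
  refine ⟨by linarith [h.1, h'.1], fun f => ?_⟩
  have h1 := h.2 f
  have h2 := h'.2 f
  rw [ev_add]
  nlinarith [sq_nonneg (ev ν f - ev μ f)]

theorem Dom.sub {ν μ ρ : MA G} {a b : ℝ} (hρ : NN ρ) (h : Dom ν ρ a) (h' : Dom μ ρ b) :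
    Dom (ν - μ) ρ (2 * a + 2 * b) := by
  rw [sub_eq_add_neg]; exact h.add hρ h'.neg

theorem Dom.add₃ {ν μ τ ρ : MA G} {a b c : ℝ} (hρ : NN ρ) (h : Dom ν ρ a) (h' : Dom μ ρ b)
    (h'' : Dom τ ρ c) : Dom (ν + μ + τ) ρ (3 * (a + b + c)) := by
  refine ⟨by linarith [h.1, h'.1, h''.1], fun f => ?_⟩
  have h1 := h.2 f
  have h2 := h'.2 f
  have h3 := h''.2 f
  rw [ev_add, ev_add]
  nlinarith [sq_nonneg (ev ν f - ev μ f), sq_nonneg (ev ν f - ev τ f), sq_nonneg (ev μ f - ev τ f)]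

theorem Dom.sum {ι : Type*} (T : Finset ι) {ν : ι → MA G} {b : ι → ℝ} {ρ : MA G} (hρ : NN ρ)
    (h : ∀ i ∈ T, Dom (ν i) ρ (b i)) : Dom (∑ i ∈ T, ν i) ρ (T.card * ∑ i ∈ T, b i) := by
  refine ⟨mul_nonneg (Nat.cast_nonneg _) (Finset.sum_nonneg fun i hi => (h i hi).1), fun f => ?_⟩
  rw [ev_sum]
  refine (sq_sum_le_card_mul_sum_sq).trans ?_
  rw [mul_assoc, Finset.sum_mul]
  exact mul_le_mul_of_nonneg_left (Finset.sum_le_sum fun i hi => (h i hi).2 f) (Nat.cast_nonneg _)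

/-- weighted triangle inequality -/
theorem Dom.sum_smul {ι : Type*} (T : Finset ι) {ν : ι → MA G} (c : ι → ℝ) {b : ℝ} {ρ : MA G}
    (hρ : NN ρ) (hb : 0 ≤ b) (h : ∀ i ∈ T, Dom (ν i) ρ b) :
    Dom (∑ i ∈ T, c i • ν i) ρ ((∑ i ∈ T, |c i|) ^ 2 * b) := by
  have := dom_of_abs_le (ν := ∑ i ∈ T, c i • ν i) (a := (∑ i ∈ T, |c i|) * √b) hρ fun f => by
    rw [ev_sum, Finset.sum_mul, Finset.sum_mul]
    refine (Finset.abs_sum_le_sum_abs _ _).trans (Finset.sum_le_sum fun i hi => ?_)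
    rw [ev_smul, abs_mul, mul_assoc]
    refine mul_le_mul_of_nonneg_left ?_ (abs_nonneg _)
    exact Dom.abs_le (Real.sqrt_nonneg _) (by rw [Real.sq_sqrt hb]; exact h i hi) f
  rwa [mul_pow, Real.sq_sqrt hb] at this

theorem two_cs {x y a b X Y : ℝ} (ha : 0 ≤ a) (hb : 0 ≤ b) (hX : 0 ≤ X) (hY : 0 ≤ Y)
    (h1 : x ^ 2 ≤ a * X) (h2 : y ^ 2 ≤ b * Y) : (x + y) ^ 2 ≤ (a + b) * (X + Y) := by
  have h3 : (x * y) ^ 2 ≤ ((a * Y + b * X) / 2) ^ 2 := by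
    have : (x * y) ^ 2 ≤ (a * X) * (b * Y) := by
      rw [mul_pow]; exact mul_le_mul h1 h2 (sq_nonneg _) (mul_nonneg ha hX)
    nlinarith [sq_nonneg (a * Y - b * X)]
  have h4 : x * y ≤ (a * Y + b * X) / 2 :=
    le_trans (le_abs_self _) (abs_le_of_sq_le_sq' h3 (by positivity) |> abs_le.2)
  nlinarith

/-- joint subadditivity (perspective function) -/
theorem Dom.split {ν₁ ν₂ ρ₁ ρ₂ : MA G} {b₁ b₂ : ℝ} (h₁ : NN ρ₁) (h₂ : NN ρ₂)
    (h : Dom ν₁ ρ₁ b₁) (h' : Dom ν₂ ρ₂ b₂) : Dom (ν₁ + ν₂) (ρ₁ + ρ₂) (b₁ + b₂) := by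
  refine ⟨add_nonneg h.1 h'.1, fun f => ?_⟩
  rw [ev_add, ev_add]
  exact two_cs h.1 h'.1 (ev_sq_nonneg h₁ f) (ev_sq_nonneg h₂ f) (h.2 f) (h'.2 f)

theorem ev_dens {ν ρ : MA G} {x : G → ℝ} (h : ∀ g, ν.coeff g = ρ.coeff g * x g) (f : G → ℝ) :
    ev ν f = ev ρ fun g => x g * f g := by
  have hs : ν.coeff.support ⊆ ρ.coeff.support := fun g hg => by
    rw [Finsupp.mem_support_iff] at hg ⊢
    intro h0; exact hg (by rw [h g, h0, zero_mul])
  rw [ev_eq_sum ν f _ hs, ev_eq_sum ρ _ _ subset_rfl]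
  exact Finset.sum_congr rfl fun g _ => by rw [h g]; ring

/-- primal form: a density exists and has second moment `≤ b` -/
theorem Dom.exists_dens {ν ρ : MA G} {b : ℝ} (h : Dom ν ρ b) (hρ : NN ρ) :
    ∃ x : G → ℝ, (∀ g, ν.coeff g = ρ.coeff g * x g) ∧ (ev ρ fun g => x g ^ 2) ≤ b := by
  classical
  have hx : ∀ g, ν.coeff g = ρ.coeff g * (ν.coeff g / ρ.coeff g) := fun g => by
    by_cases h0 : ρ.coeff g = 0
    · have h1 := h.2 fun u => if u = g then 1 else 0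
      have e : (fun u => (if u = g then (1 : ℝ) else 0) ^ 2) = fun u => if u = g then 1 else 0 :=
        funext fun u => by split_ifs <;> norm_num
      rw [e, ev_indicator, ev_indicator, h0, mul_zero] at h1
      rw [h0, zero_mul]
      exact pow_eq_zero_iff (two_ne_zero) |>.1 (le_antisymm h1 (sq_nonneg _))
    · field_simp
  refine ⟨fun g => ν.coeff g / ρ.coeff g, hx, ?_⟩
  have h1 := h.2 fun g => ν.coeff g / ρ.coeff g
  rw [ev_dens hx] at h1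
  simp only [← sq] at h1
  have h2 := ev_sq_nonneg hρ fun g => ν.coeff g / ρ.coeff g
  rcases h2.eq_or_lt with h3 | h3
  · rw [← h3]; exact h.1
  · rw [sq] at h1; exact le_of_mul_le_mul_right h1 h3

theorem dom_of_dens {ν ρ : MA G} {x : G → ℝ} {b : ℝ} (hρ : NN ρ)
    (h : ∀ g, ν.coeff g = ρ.coeff g * x g) (hb : (ev ρ fun g => x g ^ 2) ≤ b) : Dom ν ρ b := by
  refine ⟨(ev_sq_nonneg hρ x).trans hb, fun f => ?_⟩
  rw [ev_dens h]
  exact (ev_cs hρ x f).trans (mul_le_mul_of_nonneg_right hb (ev_sq_nonneg hρ f))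

/-- adding a multiple of the reference to a mean-zero signal is orthogonal -/
theorem Dom.add_ref {ν ρ : MA G} {b : ℝ} (hρ : Prob ρ) (h : Dom ν ρ b) (h0 : mass ν = 0)
    (x : ℝ) : Dom (x • ρ + ν) ρ (x ^ 2 + b) := by
  obtain ⟨y, hy, hb⟩ := h.exists_dens hρ.1
  refine dom_of_dens (x := fun g => x + y g) hρ.1 (fun g => ?_) ?_
  · rw [MonoidAlgebra.coeff_add, Finsupp.add_apply, MonoidAlgebra.coeff_smul_apply, hy,
      smul_eq_mul]; ring
  · have h1 : ev ρ y = 0 := by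
      have := ev_dens hy fun _ => 1
      simp only [mul_one] at this
      rw [← this]; exact h0
    have e : (fun g => (x + y g) ^ 2) = fun g => (x ^ 2 + (2 * x) * y g) + y g ^ 2 :=
      funext fun g => by ring
    rw [e, ev_fun_add, ev_fun_add, ev_fun_const, ev_fun_mul, h1, hρ.2]
    linarith

theorem Dom.sub_ref {ν ρ : MA G} {ε : ℝ} (hρ : Prob ρ) (h : Dom ν ρ (1 + ε)) (h1 : mass ν = 1)
    (hε : 0 ≤ ε) : Dom (ν - ρ) ρ ε := by
  obtain ⟨y, hy, hb⟩ := h.exists_dens hρ.1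
  refine dom_of_dens (x := fun g => y g - 1) hρ.1 (fun g => ?_) ?_
  · rw [MonoidAlgebra.coeff_sub, Finsupp.sub_apply, hy]; ring
  · have h2 : ev ρ y = 1 := by
      have := ev_dens hy fun _ => 1
      simp only [mul_one] at this
      rw [← this]; exact h1
    have e : (fun g => (y g - 1) ^ 2) = fun g => (1 + (-2) * y g) + y g ^ 2 :=
      funext fun g => by ring
    rw [e, ev_fun_add, ev_fun_add, ev_fun_const, ev_fun_mul, h2, hρ.2]
    linarith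

theorem Dom.l1 {ν ρ : MA G} {b : ℝ} (hρ : Prob ρ) (h : Dom ν ρ b) : L1 ν (√b) := fun f hf => by
  have h1 : (ev ρ fun g => f g ^ 2) ≤ 1 := by
    have := ev_mono hρ.1 (f := fun g => f g ^ 2) (g := fun _ => 1) fun g => by
      have := hf g
      rw [← sq_abs]; nlinarith [abs_nonneg (f g)]
    exact this.trans (le_of_eq hρ.2)
  have h2 : (ev ν f) ^ 2 ≤ b := (h.2 f).trans (mul_le_of_le_one_right h.1 h1)
  exact (le_abs_self _).trans (Real.abs_le_sqrt h2)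

/-- the common core of the tensorisation lemmas -/
theorem tens_core {ι : Type*} (T : Finset ι) {ρ R ν₀ : MA G} {α μ : ι → MA G} {β b₀ : ℝ}
    {b : ι → ℝ} (hρ : NN ρ) (hR : NN R) (hβ0 : 0 ≤ β) {x₀ : G → ℝ}
    (hx₀ : ∀ g, ν₀.coeff g = R.coeff g * x₀ g) (hb₀ : (ev R fun g => x₀ g ^ 2) ≤ b₀)
    (hη : ∀ (w : G) (c : ι → ℝ),
      Dom (x₀ w • ρ + ∑ v ∈ T, c v • α v) ρ (x₀ w ^ 2 + β * ∑ v ∈ T, c v ^ 2))
    (hμ : ∀ v ∈ T, Dom (μ v) R (b v)) (F : G → G → ℝ) :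
    ((ev ν₀ fun w => ev ρ fun u => F u w) +
        ∑ v ∈ T, ev (μ v) fun w => ev (α v) fun u => F u w) ^ 2 ≤
      (b₀ + β * ∑ v ∈ T, b v) * ev R fun w => ev ρ fun u => F u w ^ 2 := by
  classical
  have hm : ∀ v, ∃ x : G → ℝ, v ∈ T →
      (∀ g, (μ v).coeff g = R.coeff g * x g) ∧ (ev R fun g => x g ^ 2) ≤ b v := fun v => by
    by_cases hv : v ∈ T
    · obtain ⟨x, hx⟩ := (hμ v hv).exists_dens hR
      exact ⟨x, fun _ => hx⟩
    · exact ⟨0, fun h => absurd h hv⟩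
  choose m hm using hm
  have e : (ev ν₀ fun w => ev ρ fun u => F u w) +
      (∑ v ∈ T, ev (μ v) fun w => ev (α v) fun u => F u w) =
      ev R fun w => ev (x₀ w • ρ + ∑ v ∈ T, m v w • α v) fun u => F u w := by
    simp only [ev_add, ev_sum, ev_smul]
    rw [ev_fun_add, ev_fun_sum, ev_dens hx₀]
    congr 1
    exact Finset.sum_congr rfl fun v hv => ev_dens (hm v hv).1 _
  rw [e]
  refine (ev_sq_le hR (B := fun w => x₀ w ^ 2 + β * ∑ v ∈ T, m v w ^ 2)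
    (C := fun w => ev ρ fun u => F u w ^ 2) (fun w => (hη w fun v => m v w).1)
    (fun w => ev_sq_nonneg hρ _) (fun w => (hη w fun v => m v w).2 _)).trans ?_
  refine mul_le_mul_of_nonneg_right ?_ (ev_nonneg hR fun w => ev_sq_nonneg hρ _)
  rw [ev_fun_add, ev_fun_mul, ev_fun_sum]
  exact add_le_add hb₀ (mul_le_mul_of_nonneg_left
    (Finset.sum_le_sum fun v hv => (hm v hv).2) hβ0)

/-- tensorisation with a Bessel family on the left -/
theorem Dom.besL {ι : Type*} (T : Finset ι) {ρ R : MA G} {α μ : ι → MA G} {β : ℝ} {b : ι → ℝ}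
    (hρ : NN ρ) (hR : NN R) (hβ0 : 0 ≤ β)
    (hβ : ∀ c : ι → ℝ, Dom (∑ v ∈ T, c v • α v) ρ (β * ∑ v ∈ T, c v ^ 2))
    (hμ : ∀ v ∈ T, Dom (μ v) R (b v)) :
    Dom (∑ v ∈ T, α v * μ v) (ρ * R) (β * ∑ v ∈ T, b v) := by
  refine ⟨mul_nonneg hβ0 (Finset.sum_nonneg fun v hv => (hμ v hv).1), fun f => ?_⟩
  have := tens_core T (ν₀ := 0) (b₀ := 0) (x₀ := fun _ => 0) (α := α) hρ hR hβ0 (by simp)
    (by rw [ev_fun_const]; simp) (fun w c => by simpa using hβ c) hμ fun u w => f (u * w)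
  rw [ev_zero, zero_add, zero_add] at this
  rw [ev_sum, ev_mul']
  simpa only [ev_mul'] using this

theorem Dom.mul {ν ρ μ R : MA G} {a b : ℝ} (hρ : NN ρ) (hR : NN R) (h : Dom ν ρ a)
    (h' : Dom μ R b) : Dom (ν * μ) (ρ * R) (a * b) := by
  have := Dom.besL (ι := Unit) Finset.univ (α := fun _ => ν) (μ := fun _ => μ) (b := fun _ => b)
    hρ hR h.1 (fun c => by simpa [mul_comm] using h.smul (c ())) (fun _ _ => h')
  simpa using this

theorem mass_sum_smul {ι : Type*} (T : Finset ι) {α : ι → MA G} (hα : ∀ v ∈ T, mass (α v) = 0)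
    (c : ι → ℝ) : mass (∑ v ∈ T, c v • α v) = 0 := by
  rw [mass_sum]
  exact Finset.sum_eq_zero fun v hv => by rw [mass_smul, hα v hv, mul_zero]

/-- orthogonal tensorisation, mean-zero Bessel family on the left -/
theorem Dom.orthL {ι : Type*} (T : Finset ι) {ρ R ν₀ : MA G} {α μ : ι → MA G} {β b₀ : ℝ}
    {b : ι → ℝ} (hρ : Prob ρ) (hR : NN R) (h0 : Dom ν₀ R b₀) (hα : ∀ v ∈ T, mass (α v) = 0)
    (hβ0 : 0 ≤ β) (hβ : ∀ c : ι → ℝ, Dom (∑ v ∈ T, c v • α v) ρ (β * ∑ v ∈ T, c v ^ 2))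
    (hμ : ∀ v ∈ T, Dom (μ v) R (b v)) :
    Dom (ρ * ν₀ + ∑ v ∈ T, α v * μ v) (ρ * R) (b₀ + β * ∑ v ∈ T, b v) := by
  refine ⟨add_nonneg h0.1 (mul_nonneg hβ0 (Finset.sum_nonneg fun v hv => (hμ v hv).1)),
    fun f => ?_⟩
  obtain ⟨x₀, hx₀, hb₀⟩ := h0.exists_dens hR
  have := tens_core T (α := α) hρ.1 hR hβ0 hx₀ hb₀
    (fun w c => (hβ c).add_ref hρ (mass_sum_smul T hα c) _) hμ fun u w => f (u * w)
  rw [ev_add, ev_sum]
  simpa only [ev_mul'] using this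

/-- orthogonal tensorisation, mean-zero Bessel family on the right -/
theorem Dom.orthR {ι : Type*} (T : Finset ι) {ρ R ν₀ : MA G} {α μ : ι → MA G} {β b₀ : ℝ}
    {b : ι → ℝ} (hρ : Prob ρ) (hR : NN R) (h0 : Dom ν₀ R b₀) (hα : ∀ v ∈ T, mass (α v) = 0)
    (hβ0 : 0 ≤ β) (hβ : ∀ c : ι → ℝ, Dom (∑ v ∈ T, c v • α v) ρ (β * ∑ v ∈ T, c v ^ 2))
    (hμ : ∀ v ∈ T, Dom (μ v) R (b v)) :
    Dom (ν₀ * ρ + ∑ v ∈ T, μ v * α v) (R * ρ) (b₀ + β * ∑ v ∈ T, b v) := by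
  refine ⟨add_nonneg h0.1 (mul_nonneg hβ0 (Finset.sum_nonneg fun v hv => (hμ v hv).1)),
    fun f => ?_⟩
  obtain ⟨x₀, hx₀, hb₀⟩ := h0.exists_dens hR
  have := tens_core T (α := α) hρ.1 hR hβ0 hx₀ hb₀
    (fun w c => (hβ c).add_ref hρ (mass_sum_smul T hα c) _) hμ fun u w => f (w * u)
  rw [ev_add, ev_sum]
  simpa only [ev_mul] using this

/-- one mean-zero signal on the left -/
theorem Dom.orthL₁ {ρ R ν₀ α μ : MA G} {a b₀ b : ℝ} (hρ : Prob ρ) (hR : NN R)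
    (h0 : Dom ν₀ R b₀) (hα0 : mass α = 0) (hα : Dom α ρ a) (hμ : Dom μ R b) :
    Dom (ρ * ν₀ + α * μ) (ρ * R) (b₀ + a * b) := by
  have := Dom.orthL (ι := Unit) Finset.univ (α := fun _ => α) (μ := fun _ => μ) (b := fun _ => b)
    hρ hR h0 (fun _ _ => hα0) hα.1 (fun c => by simpa [mul_comm] using hα.smul (c ()))
    (fun _ _ => hμ)
  simpa using this

/-- a Bessel family in `Finset` form -/
theorem Bes.finset {F : ℕ → MA G} {ρ : MA G} {β : ℝ} (h : Bes F ρ β) (T : Finset ℕ) (c : ℕ → ℝ) :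
    Dom (∑ v ∈ T, c v • F v) ρ (β * ∑ v ∈ T, c v ^ 2) := by
  have hc : ∀ i, (∑ v ∈ T, monomial v (c v) : ℝ[X]).coeff i = if i ∈ T then c i else 0 :=
    fun i => by simp [coeff_monomial]
  have hs : (∑ v ∈ T, monomial v (c v) : ℝ[X]).support ⊆ T := fun i hi => by
    by_contra hn
    exact mem_support_iff.1 hi (by rw [hc, if_neg hn])
  have := h.2 (∑ v ∈ T, monomial v (c v))
  rw [lin_eq_sum _ _ T hs, nsq_eq_sum _ T hs] at this
  rwa [Finset.sum_congr rfl (g := fun v => c v • F v) fun i hi => by rw [hc, if_pos hi],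
    Finset.sum_congr rfl (g := fun v => c v ^ 2) fun i hi => by rw [hc, if_pos hi]] at this

theorem Bes.single {F : ℕ → MA G} {ρ : MA G} {β : ℝ} (h : Bes F ρ β) (s : ℕ) : Dom (F s) ρ β := by
  have := h.2 (X ^ s)
  rwa [lin_X_pow, nsq_X_pow, mul_one] at this

theorem Bes.mono {F : ℕ → MA G} {ρ : MA G} {β β' : ℝ} (h : Bes F ρ β) (hρ : NN ρ) (hβ : β ≤ β') :
    Bes F ρ β' :=
  ⟨h.1.trans hβ, fun e => (h.2 e).mono hρ (mul_le_mul_of_nonneg_right hβ (nsq_nonneg e))⟩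

theorem persp_dom : Persp (G := G) Dom where
  mono := fun _ _ _ _ hρ h hb => h.mono hρ hb
  split := fun _ _ _ _ _ _ h₁ h₂ h h' => Dom.split h₁ h₂ h h'
  sand := fun a c ν ρ b ha hc hρ h => by
    have := Dom.mul (ha.mul hρ) hc (Dom.mul ha hρ (Dom.self ha) h) (Dom.self hc)
    convert this using 1; ring

theorem persp_hk (t : ℝ) : Persp (G := G) (Hk t) where
  mono := fun _ _ _ _ _ h hb f hf => (h f hf).trans hb
  split := fun _ _ _ _ _ _ _ _ h h' f hf => by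
    have h1 := h f hf
    have h2 := h' f hf
    rw [ev_add, ev_add]; linarith
  sand := fun a c ν ρ b ha hc _ h f hf => by
    have e : ∀ μ : MA G, ev (a * μ * c) f =
        ev c fun w => ev a fun u => ev μ fun g => f (u * g * w) := fun μ => by
      rw [ev_mul']; simp only [ev_mul]
    rw [e, e, ← ev_fun_mul, ← ev_fun_sub]
    calc _ ≤ ev c fun _ => mass a * b := ev_mono hc fun w => by
          rw [← ev_fun_mul, ← ev_fun_sub, mul_comm, ← ev_fun_const]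
          exact ev_mono ha fun u => h _ fun g => hf _
      _ = _ := by rw [ev_fun_const]; ring

/-- powers: chi-square tensorises -/
theorem Dom.pow_sub_pow {P Q : MA G} {e : ℝ} (hP : Prob P) (hQ : mass Q = 1)
    (h : Dom (Q - P) P e) (n : ℕ) : Dom (Q ^ n - P ^ n) (P ^ n) ((1 + e) ^ n - 1) := by
  induction n with
  | zero => simpa using Dom.zero NN.one le_rfl
  | succ n ih =>
    have h0 : mass (Q ^ n - P ^ n) = 0 := by rw [mass_sub, mass_pow, hQ, (hP.pow n).2]; simp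
    have h1 := ih.add_ref (hP.pow n) h0 1
    rw [one_smul, add_sub_cancel] at h1
    have h2 := Dom.orthL₁ hP (hP.1.pow n) ih (by rw [mass_sub, hQ, hP.2, sub_self]) h h1
    rw [← pow_succ'] at h2
    convert h2 using 1
    · rw [pow_succ' Q, pow_succ' P]; noncomm_ring
    · ring

end Crest.Agent.R300
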