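import Crest.Agent.R300.Pat
import Crest.Prelude.Def_TraceTV

/-! Task FINAL: from a hard pair to the two frozen statements (no asymptotics here). -/

set_option autoImplicit false

namespace Crest.Agent.R300

open Crest.FinProb Crest.TraceRecon

/-- induction on `n` (`Fin.cons` / `Fin.consEquiv`, `List.finRange_succ`, `ev_mul`) -/
theorem sum_keep {n : ℕ} (q : ℝ) (x : Fin n → Bool) (f : List Bool → ℝ) :
    ∑ keep : Fin n → Bool, bernoulliWeight (1 - q) keep * f (traceOf x keep) =
      ev (law q (List.ofFn x)) fun g => f (FreeMonoid.toList g) := by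
  induction n generalizing f with
  | zero => simp [bernoulliWeight, traceOf, law]
  | succ n ih =>
    rw [← (Fin.consEquiv fun _ : Fin (n + 1) => Bool).sum_comp, Fintype.sum_prod_type,
      Fintype.sum_bool]
    have hw : ∀ (b : Bool) (k : Fin n → Bool),
        bernoulliWeight (1 - q) ((Fin.consEquiv fun _ : Fin (n + 1) => Bool) (b, k)) =
          (if b then 1 - q else q) * bernoulliWeight (1 - q) k := fun b k => by
      simp [bernoulliWeight, Fin.prod_univ_succ, Fin.consEquiv]
    have ht : ∀ (b : Bool) (k : Fin n → Bool),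
        traceOf x ((Fin.consEquiv fun _ : Fin (n + 1) => Bool) (b, k)) =
          if b then x 0 :: traceOf (fun i => x i.succ) k else traceOf (fun i => x i.succ) k :=
      fun b k => by
        cases b <;>
          simp [traceOf, List.finRange_succ, Fin.consEquiv, List.filter_map, Function.comp_def]
    simp only [hw, ht, if_true, Bool.false_eq_true, if_false, mul_assoc, ← Finset.mul_sum]
    rw [ih (fun i => x i.succ) fun t => f (x 0 :: t), ih (fun i => x i.succ) f]
    have e : law q (List.ofFn x) = chan q (x 0) * law q (List.ofFn fun i => x i.succ) := by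
      rw [List.ofFn_succ]; simp [law]
    rw [e, ev_mul, chan, ev_add, ev_smul, ev_smul, ev_one, ev_single]
    simp only [one_mul, FreeMonoid.toList_of_mul]
    ring

theorem sum_lists {n : ℕ} (t : List Bool) (ht : t.length ≤ n) (F : List Bool → ℝ) :
    ∑ k ∈ Finset.range (n + 1), ∑ v : Fin k → Bool,
      (if t = List.ofFn v then F (List.ofFn v) else 0) = F t := by
  rw [Finset.sum_eq_single t.length]
  · rw [Finset.sum_eq_single t.get]
    · simp
    · intro v _ hv
      refine if_neg fun h => hv ?_
      apply List.ofFn_injective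
      rw [List.ofFn_get, ← h]
    · simp
  · intro k _ hk
    refine Finset.sum_eq_zero fun v _ => if_neg fun h => hk ?_
    rw [h, List.length_ofFn]
  · intro h
    exact absurd (Finset.mem_range.2 (by omega)) h

theorem sum_traceLaw {n : ℕ} (p : ℝ) (x : Fin n → Bool) (F : List Bool → ℝ) :
    ∑ k ∈ Finset.range (n + 1), ∑ v : Fin k → Bool,
      traceLaw p x (List.ofFn v) * F (List.ofFn v) =
      ∑ keep : Fin n → Bool, bernoulliWeight p keep * F (traceOf x keep) := by
  have h1 : ∀ w : List Bool, traceLaw p x w * F w =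
      ∑ keep : Fin n → Bool, bernoulliWeight p keep * (if traceOf x keep = w then F w else 0) :=
    fun w => by
      unfold traceLaw bernoulliProb
      rw [Finset.sum_filter, Finset.sum_mul]
      refine Finset.sum_congr rfl fun keep _ => ?_
      by_cases h : traceOf x keep = w
      · rw [if_pos h, if_pos (by exact h)]
      · rw [if_neg h, if_neg (by exact h), zero_mul, mul_zero]
  simp only [h1]
  rw [Finset.sum_congr rfl fun k _ => Finset.sum_comm, Finset.sum_comm]
  refine Finset.sum_congr rfl fun keep _ => ?_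
  simp only [← Finset.mul_sum]
  rw [sum_lists]
  unfold traceOf
  rw [List.length_map]
  exact (List.length_filter_le _ _).trans (by simp)

/-- `traceLaw (1-q) x w = (law q (ofFn x)).coeff (ofList w)` and `(k, v) ↦ List.ofFn v` is injective -/
theorem traceTV_le {n : ℕ} (q : ℝ) (x y : Fin n → Bool) {δ : ℝ}
    (h : L1 (law q (List.ofFn x) - law q (List.ofFn y)) δ) : traceTV (1 - q) x y ≤ δ / 2 := by
  have h1 := h (fun g => if traceLaw (1 - q) y (FreeMonoid.toList g) ≤
    traceLaw (1 - q) x (FreeMonoid.toList g) then 1 else -1) fun g => by split_ifs <;> simp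
  rw [ev_sub, ← sum_keep q x fun w => if traceLaw (1 - q) y w ≤ traceLaw (1 - q) x w then 1 else -1,
    ← sum_keep q y fun w => if traceLaw (1 - q) y w ≤ traceLaw (1 - q) x w then 1 else -1,
    ← sum_traceLaw (1 - q) x fun w => if traceLaw (1 - q) y w ≤ traceLaw (1 - q) x w then 1 else -1,
    ← sum_traceLaw (1 - q) y fun w => if traceLaw (1 - q) y w ≤ traceLaw (1 - q) x w then 1 else -1,
    ← Finset.sum_sub_distrib] at h1
  unfold traceTV
  have e : ∑ k ∈ Finset.range (n + 1), ∑ v : Fin k → Bool,
      abs (traceLaw (1 - q) x (List.ofFn v) - traceLaw (1 - q) y (List.ofFn v)) ≤ δ := by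
    refine le_trans (le_of_eq (Finset.sum_congr rfl fun k _ => ?_)) h1
    rw [← Finset.sum_sub_distrib]
    refine Finset.sum_congr rfl fun v _ => ?_
    split_ifs with hv
    · rw [abs_of_nonneg (by linarith)]; ring
    · rw [abs_of_neg (by linarith)]; ring
  linarith

theorem exists_ofFn {n : ℕ} (w : List Bool) (h : w.length = n) :
    ∃ f : Fin n → Bool, List.ofFn f = w := by
  subst h; exact ⟨w.get, List.ofFn_get w⟩

/-- pad a hard pair (append the same `replicate`), `Dom.l1` -/
theorem tv_of_hard {q τ : ℝ} (h0 : 0 ≤ q) (h1 : q ≤ 1) {len n : ℕ} (hn : len ≤ n)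
    (h : HardPair q len τ) :
    ∃ x y : Fin n → Bool, x ≠ y ∧ traceTV (1 - q) x y ≤ τ + √τ / 2 := by
  obtain ⟨x, y, hl, hx, hne, P, Q, hP, -, lx, ly, hD⟩ := h
  obtain ⟨x', hx'⟩ := exists_ofFn (n := n) (x ++ List.replicate (n - x.length) false)
    (by simp; omega)
  obtain ⟨y', hy'⟩ := exists_ofFn (n := n) (y ++ List.replicate (n - x.length) false)
    (by simp; omega)
  refine ⟨x', y', fun he => hne ?_, ?_⟩
  · rw [he, hy'] at hx'
    exact (List.append_cancel_right hx').symm
  · have h2 := ((lx.symm.trans (hD.l1 hP).symm).trans ly).mul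
      (prob_law h0 h1 (List.replicate (n - x.length) false)).l1
    rw [sub_mul, ← law_append, ← law_append, ← hx', ← hy'] at h2
    have := traceTV_le q x' y' h2
    linarith

/-- push-forward to one-letter words -/
noncomputable def up {G : Type} (a : MA G) : MA (FreeMonoid G) :=
  MonoidAlgebra.mapDomain FreeMonoid.of a

theorem ev_up {G : Type} [Monoid G] (a : MA G) (F : FreeMonoid G → ℝ) :
    ev (up a) F = ev a fun g => F (FreeMonoid.of g) :=
  Finsupp.sum_mapDomain_index (fun _ => zero_mul _) fun _ _ _ => add_mul _ _ _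

theorem Prob.up {G : Type} [Monoid G] {a : MA G} (h : Prob a) : Prob (up a) :=
  ⟨nn_of_ev fun f hf => by rw [ev_up]; exact ev_nonneg h.1 fun g => hf _, by
    unfold mass; rw [ev_up]; exact h.2⟩

theorem L1.up {G : Type} [Monoid G] {a b : MA G} {δ : ℝ} (h : L1 (a - b) δ) :
    L1 (up a - up b) δ := fun f hf => by
  rw [ev_sub, ev_up, ev_up, ← ev_sub]
  exact h _ fun g => hf _

theorem Dom.up {G : Type} [Monoid G] {a b : MA G} {δ : ℝ} (h : Dom (a - b) b δ) :
    Dom (up a - up b) (up b) δ :=
  ⟨h.1, fun f => by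
    rw [ev_sub, ev_up, ev_up, ← ev_sub, ev_up]
    exact h.2 _⟩

theorem L1.pow_sub {G : Type} [Monoid G] {a b : MA G} {δ : ℝ} (ha : Prob a) (hb : Prob b)
    (h : L1 (a - b) δ) (m : ℕ) : L1 (a ^ m - b ^ m) (m * δ) := by
  induction m with
  | zero => simpa using L1.zero
  | succ m ih =>
    have := L1.mul_sub_mul (hb.pow m) ha ih h
    rw [← pow_succ, ← pow_succ] at this
    refine this.mono (le_of_eq ?_)
    push_cast; ring

theorem sum_keeps {n : ℕ} (q : ℝ) (x : Fin n → Bool) (m : ℕ)
    (F : FreeMonoid (FreeMonoid Bool) → ℝ) :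
    ∑ keeps : Fin m → Fin n → Bool, (∏ k, bernoulliWeight (1 - q) (keeps k)) *
        F (FreeMonoid.ofList (List.ofFn fun k => FreeMonoid.ofList (traceOf x (keeps k)))) =
      ev (up (law q (List.ofFn x)) ^ m) F := by
  induction m generalizing F with
  | zero => simp
  | succ m ih =>
    rw [← (Fin.consEquiv fun _ : Fin (m + 1) => Fin n → Bool).sum_comp, Fintype.sum_prod_type,
      pow_succ', ev_mul, ev_up]
    have := sum_keep q x fun t =>
      ev (up (law q (List.ofFn x)) ^ m) fun v => F (FreeMonoid.of (FreeMonoid.ofList t) * v)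
    simp only [FreeMonoid.ofList_toList] at this
    rw [← this]
    refine Finset.sum_congr rfl fun k _ => ?_
    rw [← ih, Finset.mul_sum]
    refine Finset.sum_congr rfl fun ks _ => ?_
    simp [Fin.prod_univ_succ, Fin.consEquiv, List.ofFn_succ, mul_assoc, FreeMonoid.ofList_cons]

/-- `m` independent traces. View an `m`-tuple of traces as an element of `FreeMonoid (FreeMonoid Bool)`:
push a law forward along `FreeMonoid.of` (`MonoidAlgebra.mapDomain`, or define it through `ev`), the `m`-fold
product law is the `m`-th power; `L1.mul_sub_mul` (hybrids) and `Dom.pow_sub_pow`, `Dom.l1`. -/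
theorem success_sub {n m : ℕ} {q τ ε : ℝ} (h0 : 0 ≤ q) (h1 : q ≤ 1) (x y : Fin n → Bool)
    {P Q : MA (FreeMonoid Bool)} (hP : Prob P) (hQ : Prob Q)
    (hx : L1 (P - law q (List.ofFn x)) ε) (hy : L1 (Q - law q (List.ofFn y)) ε)
    (hD : Dom (Q - P) P τ) (g : (Fin m → List Bool) → ℝ) (hg : ∀ t, |g t| ≤ 1) :
    (∑ keeps : Fin m → Fin n → Bool, (∏ k, bernoulliWeight (1 - q) (keeps k)) *
        g (fun k => traceOf y (keeps k))) -
      (∑ keeps : Fin m → Fin n → Bool, (∏ k, bernoulliWeight (1 - q) (keeps k)) *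
        g (fun k => traceOf x (keeps k))) ≤ 2 * m * ε + √((1 + τ) ^ m - 1) := by
  set F : FreeMonoid (FreeMonoid Bool) → ℝ :=
    fun W => g fun k => FreeMonoid.toList ((FreeMonoid.toList W).getD k 1) with hF
  have hF1 : ∀ W, |F W| ≤ 1 := fun W => hg _
  have e : ∀ z : Fin n → Bool, (∑ keeps : Fin m → Fin n → Bool,
      (∏ k, bernoulliWeight (1 - q) (keeps k)) * g (fun k => traceOf z (keeps k))) =
      ev (up (law q (List.ofFn z)) ^ m) F := fun z => by
    rw [← sum_keeps]
    refine Finset.sum_congr rfl fun ks _ => ?_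
    simp [hF]
  rw [e, e, ← ev_sub]
  have a1 := (L1.pow_sub hQ.up (prob_law h0 h1 _).up hy.up m).symm
  have a2 := (Dom.pow_sub_pow hP.up hQ.up.2 hD.up m).l1 (hP.up.pow m)
  have a3 := L1.pow_sub hP.up (prob_law h0 h1 _).up hx.up m
  have := (a1.trans a2).trans a3 F hF1
  linarith

/-- The `2^j` words `subst x y l ++ padding` (`l` of length `j`, `subst_inj`) are all close to the word of
`l₀ = replicate j false` (`dom_pat`, `l1_pat`, `success_sub`); the weights a rule gives to them sum to at
most `1` on every input, so the average success is `≤ 2^(-j) + 2 m j τ + √((1+τ)^(jm) - 1)`;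
`(1+τ)^(jm) - 1 ≤ 2 j m τ` (`one_add_pow_le`). -/
theorem fail_of_hard {q τ s : ℝ} (h0 : 0 ≤ q) (h1 : q ≤ 1) {len n j m : ℕ} (hn : j * len ≤ n)
    (h : HardPair q len τ) (hτ : j * m * τ ≤ 1)
    (hs : (1 / 2) ^ j + 2 * (j * m * τ) + √(2 * (j * m * τ)) < s)
    (K : (Fin m → List Bool) → (Fin n → Bool) → ℝ) (hK : IsRule K) :
    ∃ x : Fin n → Bool, successProb (1 - q) K x < s := by
  classical
  obtain ⟨x, y, hl, hx, hne, P, Q, hP, hQ, lx, ly, hD⟩ := h
  have hτ0 : 0 ≤ τ := hD.nonneg
  have hlen : j * x.length ≤ n := (Nat.mul_le_mul_left j hx).trans hn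
  set pad := List.replicate (n - j * x.length) false with hpad
  have hex : ∀ l : Fin j → Bool, ∃ w : Fin n → Bool,
      List.ofFn w = subst x y (List.ofFn l) ++ pad := fun l =>
    exists_ofFn _ (by
      rw [List.length_append, subst_length x y _ hl, List.length_ofFn, hpad, List.length_replicate]
      omega)
  choose w hw using hex
  have hinj : Function.Injective w := fun l l' h => by
    have h2 := hw l
    rw [h, hw l'] at h2
    have h3 := subst_inj x y hl hne _ _ (by simp) (List.append_cancel_right h2)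
    exact (List.ofFn_injective h3).symm
  have hQ' : Prob (P + (Q - P)) := by rwa [add_sub_cancel]
  have hR := prob_law h0 h1 pad
  have hL : ∀ l : Fin j → Bool,
      L1 (pat P (Q - P) (List.ofFn l) * law q pad - law q (List.ofFn (w l))) (j * τ) := fun l => by
    have h2 := (l1_pat h0 h1 x y hP hQ' lx (by rwa [add_sub_cancel]) (List.ofFn l)).mul hR.l1
    rw [sub_mul, ← law_append, ← hw, List.length_ofFn, mul_one] at h2
    exact h2
  have e0 : pat P (Q - P) (List.ofFn fun _ : Fin j => false) = P ^ j := by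
    rw [List.ofFn_const, pat_replicate]
  have hDl : ∀ l : Fin j → Bool,
      Dom (pat P (Q - P) (List.ofFn l) * law q pad -
          pat P (Q - P) (List.ofFn fun _ : Fin j => false) * law q pad)
        (pat P (Q - P) (List.ofFn fun _ : Fin j => false) * law q pad) ((1 + τ) ^ j - 1) :=
    fun l => by
      have h2 := dom_pat hP (mass_eq_zero_of_prob hP hQ') hD (List.ofFn l)
      rw [List.length_ofFn] at h2
      have h3 : (1 + τ) ^ (List.ofFn l).count true - 1 ≤ (1 + τ) ^ j - 1 := by
        have : (List.ofFn l).count true ≤ j := List.count_le_length.trans (by simp)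
        linarith [pow_le_pow_right₀ (show 1 ≤ 1 + τ by linarith) this]
      have h4 := Dom.mul (hP.pow j).1 hR.1 (h2.mono (hP.pow j).1 h3) hR.dom
      rw [mul_one, sub_mul] at h4
      rw [e0]
      exact h4
  have hK1 : ∀ t z, |K t z| ≤ 1 := fun t z => by
    rw [abs_of_nonneg ((hK t).1 z), ← (hK t).2]
    exact Finset.single_le_sum (fun z _ => (hK t).1 z) (Finset.mem_univ z)
  have hsq : √((1 + ((1 + τ) ^ j - 1)) ^ m - 1) ≤ √(2 * (j * m * τ)) := by
    refine Real.sqrt_le_sqrt ?_
    have := one_add_pow_le hτ0 (j * m) (by push_cast; exact hτ)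
    rw [add_sub_cancel, ← pow_mul]
    push_cast at this
    linarith
  have hs1 : ∀ l : Fin j → Bool, successProb (1 - q) K (w l) ≤
      (∑ keeps : Fin m → Fin n → Bool, (∏ k, bernoulliWeight (1 - q) (keeps k)) *
        K (fun k => traceOf (w fun _ => false) (keeps k)) (w l)) +
        (2 * (j * m * τ) + √(2 * (j * m * τ))) := fun l => by
    have := success_sub h0 h1 (w fun _ => false) (w l) ((prob_pat hP hQ' _).mul hR)
      ((prob_pat hP hQ' _).mul hR) (hL _) (hL l) (hDl l) (fun t => K t (w l)) fun t => hK1 t _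
    unfold successProb
    linarith
  have hw0 : ∀ keeps : Fin m → Fin n → Bool, 0 ≤ ∏ k, bernoulliWeight (1 - q) (keeps k) :=
    fun keeps => Finset.prod_nonneg fun k _ => Finset.prod_nonneg fun i _ => by
      split_ifs <;> linarith
  have hw1 : ∑ keeps : Fin m → Fin n → Bool, ∏ k, bernoulliWeight (1 - q) (keeps k) = 1 := by
    have := sum_keeps q (w fun _ => false) m fun _ => 1
    simp only [mul_one] at this
    rw [this]
    exact ((prob_law h0 h1 _).up.pow m).2
  have hsum : ∑ l : Fin j → Bool, (∑ keeps : Fin m → Fin n → Bool,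
      (∏ k, bernoulliWeight (1 - q) (keeps k)) *
        K (fun k => traceOf (w fun _ => false) (keeps k)) (w l)) ≤ 1 := by
    rw [Finset.sum_comm]
    refine le_trans (Finset.sum_le_sum fun keeps _ => ?_) hw1.le
    rw [← Finset.mul_sum]
    refine mul_le_of_le_one_right (hw0 keeps) ?_
    rw [← (hK fun k => traceOf (w fun _ => false) (keeps k)).2,
      ← Finset.sum_image (f := K fun k => traceOf (w fun _ => false) (keeps k))
        fun a _ b _ h => hinj h]
    exact Finset.sum_le_sum_of_subset_of_nonneg (Finset.subset_univ _) fun z _ _ => (hK _).1 z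
  by_contra hcon
  push Not at hcon
  have h2 : ∑ _l : Fin j → Bool, s ≤ ∑ l : Fin j → Bool, successProb (1 - q) K (w l) :=
    Finset.sum_le_sum fun l _ => hcon _
  have h3 := h2.trans (Finset.sum_le_sum fun l _ => hs1 l)
  rw [Finset.sum_add_distrib, Finset.sum_const, Finset.sum_const, Finset.card_univ,
    Fintype.card_fun, Fintype.card_bool, Fintype.card_fin, nsmul_eq_mul, nsmul_eq_mul] at h3
  push_cast at h3
  have h4 : (0 : ℝ) < 2 ^ j := by positivity
  have h5 := mul_lt_mul_of_pos_left hs h4
  have h6 : (2 : ℝ) ^ j * (1 / 2) ^ j = 1 := by rw [← mul_pow]; norm_num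
  linarith

end Crest.Agent.R300
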