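import Crest.Agent.R300.TL
import Crest.Agent.R300.Smooth

/-! Task FIRST: the first-order term is killed by the Thue-Morse (Prouhet) cancellation. -/

set_option autoImplicit false
set_option linter.unusedSectionVars false

namespace Crest.Agent.R300

open Polynomial

variable {G : Type} [Monoid G]

/-- Induction on `k`, generalising `n e lo hi`. `k = 0`: `bes_place` with `κ = 1` and `lin_congr`.
Step: `n = n' + r(2J+1)`, `e = X^(r(J+1)) * e'` (`Supp.exists_shift`),
`tmP (k+1) = tmP k * (1 - X^(2^k))`. With `F' s = P^s Δ P^(n'-1-s)`, `sm_iter_place`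
(`a = 0`, `b = hi = n'-1`) and `lin_congr`, `lin_X_pow_mul` give
`lin F (e * tmP (k+1)) = lin (sm^[r] F') (X^0 * bin 0 * (e' * tmP (k+1)))`; apply `smooth persp_dom`
with `R = r`, `ψ j u h = η (32·4^k/r)^k · 4·4^k/(h + j/8 + 1) · nsq e` (`super_inv`, `c = 1/4`);
the inner bound is the induction hypothesis for `e'' = X^u * bin h * (1 - X^(2^k)) * e'`
(support in `[lo - r(J+1), hi - r(J+1) + r + 2^k]`), `nsq_mul_le`, `n1_bin_mul`.
Finally `(32·4^k/r)^k · 32·4^k/r ≤ (32·4^(k+1)/r)^(k+1)`. -/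
theorem first_order {P Δ : MA G} {η : ℝ} {J : ℕ} (hP : Prob P) (hC : Coin P J (1 / 2))
    (h0 : mass Δ = 0) (hΔ : Dom Δ P η) (r : ℕ) (hr : 0 < r) (k n : ℕ) (e : ℝ[X]) (lo hi : ℕ)
    (he : Supp e lo hi) (hlo : k * (r * (J + 1)) ≤ lo)
    (hhi : hi + 2 ^ k + k * (r * (J + 1)) ≤ n) :
    Dom (lin (fun i => P ^ i * Δ * P ^ (n - 1 - i)) (e * tmP k)) (P ^ n)
      (η * (32 * 4 ^ k / r) ^ k * nsq e) := by
  induction k generalizing n e lo hi with
  | zero =>
    have hB := (bes_place hP n 1 lo hi one_pos (by simpa using hhi) h0 (by rwa [pow_one])).2 e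
    have : lin (fun i => P ^ i * Δ * P ^ (n - 1 - i)) e = lin (place P Δ n 1 lo hi) e :=
      lin_congr fun s hs => by rw [place, if_pos (he s hs)]
    simpa [tmP, this] using hB
  | succ k ih =>
    have hη := hΔ.1
    have hr' : (0 : ℝ) < r := by exact_mod_cast hr
    by_cases hlh : hi < lo
    · have : e = 0 := by
        ext s
        by_contra hs
        have := he s hs
        omega
      subst this
      rw [zero_mul, lin_zero]
      exact Dom.zero (hP.1.pow _) (mul_nonneg (by positivity) (nsq_nonneg _))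
    have hw : r * (J + 1) = r * J + r := by ring
    have hw2 : r * (2 * J + 1) = r * J + r * J + r := by ring
    rw [add_mul k 1, one_mul] at hlo hhi
    rw [pow_succ] at hhi
    have h2k : 0 < 2 ^ k := by positivity
    obtain ⟨e', rfl, he'⟩ := he.exists_shift (a := r * (J + 1)) (by omega)
    obtain ⟨n', rfl⟩ : ∃ n', n = n' + r * (2 * J + 1) := ⟨n - r * (2 * J + 1), by omega⟩
    set F' : ℕ → MA G := fun i => P ^ i * Δ * P ^ (n' - 1 - i) with hF'
    have hs := he'.mul (tmP_supp (k + 1))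
    rw [pow_succ] at hs
    have e1 : lin (fun i => P ^ i * Δ * P ^ (n' + r * (2 * J + 1) - 1 - i))
        (X ^ (r * (J + 1)) * e' * tmP (k + 1)) =
        lin ((sm P J)^[r] F') (X ^ 0 * bin 0 * (e' * tmP (k + 1))) := by
      rw [mul_assoc, lin_X_pow_mul, pow_zero, bin_zero, one_mul, one_mul]
      refine lin_congr fun s hs' => ?_
      have h1 := hs s hs'
      rw [sm_iter_place P Δ J 0 (n' - 1) 0 (n' - 1) le_rfl F' (fun s _ _ => by rw [zero_add]) r s
        (Nat.zero_le _) (by omega), show 0 + r * (J + 1) + s = s + r * (J + 1) by omega,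
        show n' - 1 + r * J - s = n' + r * (2 * J + 1) - 1 - (s + r * (J + 1)) by omega]
    set B : ℝ := η * (32 * 4 ^ k / r) ^ k * nsq e' with hB
    have hB0 : 0 ≤ B := mul_nonneg (by positivity) (nsq_nonneg _)
    have key := smooth persp_dom hP hC F' n' (e' * tmP (k + 1)) r
      (fun j _ h => B * (4 * 4 ^ k) * (1 / (h + j / 8 + 1))) (fun j u h => ?_) (fun u h huh => ?_)
      r 0 0 (by omega)
    · rw [e1, nsq_X_pow_mul]
      refine key.mono (hP.1.pow _) ?_
      have a1 : (4 * 4 ^ k : ℝ) * (1 / (((0 : ℕ) : ℝ) + r / 8 + 1)) ≤ 32 * 4 ^ k / r := by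
        rw [mul_one_div, div_le_div_iff₀ (by positivity) hr']
        have : (0 : ℝ) < 4 ^ k := by positivity
        push_cast; nlinarith
      have a2 : (32 * 4 ^ k / r : ℝ) ^ (k + 1) ≤ (32 * 4 ^ (k + 1) / r) ^ (k + 1) := by
        gcongr
        · norm_num
        · omega
      calc B * (4 * 4 ^ k) * (1 / (((0 : ℕ) : ℝ) + r / 8 + 1)) ≤ B * (32 * 4 ^ k / r) := by
            rw [mul_assoc]; exact mul_le_mul_of_nonneg_left a1 hB0
        _ = η * (32 * 4 ^ k / r) ^ (k + 1) * nsq e' := by rw [hB]; ring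
        _ ≤ _ := mul_le_mul_of_nonneg_right (mul_le_mul_of_nonneg_left a2 hη) (nsq_nonneg _)
    · have h3 := super_inv (c := 1 / 4) (x := h + j / 8 + 1) (by norm_num) (by norm_num)
        (le_add_of_nonneg_left (by positivity))
      have h4 := mul_le_mul_of_nonneg_left h3 (show 0 ≤ B * (4 * 4 ^ k) by positivity)
      rw [show ((h + 1 : ℕ) : ℝ) + j / 8 + 1 = h + j / 8 + 1 + 1 by push_cast; ring,
        show (h : ℝ) + ((j + 1 : ℕ) : ℝ) / 8 + 1 = h + j / 8 + 1 + 1 / 4 / 2 by push_cast; ring]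
      linarith
    · have e2 : X ^ u * bin h * (e' * tmP (k + 1)) =
          X ^ u * (bin h * (1 - X ^ 2 ^ k) * e') * tmP k := by
        rw [tmP, Finset.prod_range_succ, ← tmP]; ring
      have hs2 := (supp_X_pow u).mul (((bin_supp h).mul (supp_one_sub_X_pow (2 ^ k))).mul he')
      have h5 := ih n' _ _ _ hs2 (by omega) (by omega)
      rw [e2]
      refine h5.mono (hP.1.pow _) ?_
      rw [nsq_X_pow_mul, hB, mul_assoc (η * _), mul_assoc (η * _)]
      refine mul_le_mul_of_nonneg_left ((nsq_mul_le _ _).trans ?_) (by positivity)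
      rw [mul_comm (nsq e'), mul_right_comm]
      refine mul_le_mul_of_nonneg_right ?_ (nsq_nonneg _)
      refine (pow_le_pow_left₀ (n1_nonneg _) (n1_bin_mul h (2 ^ k)) 2).trans (le_of_eq ?_)
      rw [div_pow, Real.sq_sqrt (by positivity), show (4 : ℝ) ^ k = (2 ^ k) ^ 2 by
        rw [← pow_mul, mul_comm, pow_mul]; norm_num]
      push_cast
      field_simp
      ring

end Crest.Agent.R300
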