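import Crest.Agent.R300.TL
import Crest.Agent.R300.Smooth

/-! Task PAIRA: two defects in the pure lower medium gain the factor `m^(-1/2)`. -/

set_option autoImplicit false
set_option linter.unusedSectionVars false

namespace Crest.Agent.R300

open Polynomial

variable {G : Type} [Monoid G]

namespace PairA

theorem sand {P σ : MA G} (hP : Prob P) {k : ℕ} {b : ℝ} (h : Dom σ (P ^ k) b) (x y n : ℕ)
    (hn : x + k + y = n) : Dom (P ^ x * σ * P ^ y) (P ^ n) b := by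
  have h1 := Dom.mul (hP.pow x).1 (hP.pow k).1 (hP.pow x).dom h
  have h2 := Dom.mul ((hP.pow x).mul (hP.pow k)).1 (hP.pow y).1 h1 (hP.pow y).dom
  rw [one_mul, mul_one, ← pow_add, ← pow_add, hn] at h2
  exact h2

theorem nest (P W : MA G) (x x' y y' : ℕ) :
    P ^ x * (P ^ x' * W * P ^ y') * P ^ y = P ^ (x + x') * W * P ^ (y' + y) := by
  simp only [pow_add, mul_assoc]

theorem two (P D : MA G) (x y e x' y' mid : ℕ) (h : y + e + x' = mid) :
    (P ^ x * D * P ^ y) * P ^ e * (P ^ x' * D * P ^ y') = P ^ x * (D * P ^ mid * D) * P ^ y' := by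
  rw [← h]
  simp only [pow_add, mul_assoc]

noncomputable def bad (B : Finset ℕ) (e : ℝ[X]) : ℝ := ∑ s ∈ B, e.coeff s

theorem bad_succ (B : Finset ℕ) (u k : ℕ) :
    bad B (X ^ u * bin (k + 1)) = (bad B (X ^ u * bin k) + bad B (X ^ (u + 1) * bin k)) / 2 := by
  have e : (X ^ u * bin (k + 1) : ℝ[X]) = C (1 / 2 : ℝ) * (X ^ u * bin k + X ^ (u + 1) * bin k) := by
    rw [bin_add, bin_one]; ring
  unfold bad
  rw [e, ← Finset.sum_add_distrib, Finset.sum_div]
  refine Finset.sum_congr rfl fun s _ => ?_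
  rw [coeff_C_mul, coeff_add]; ring

theorem mu_nonneg (u h s : ℕ) : 0 ≤ (X ^ u * bin h : ℝ[X]).coeff s := by
  rw [coeff_X_pow_mul']
  split_ifs
  · exact bin_coeff_nonneg _ _
  · exact le_rfl

theorem mu_supp {u h m : ℕ} (hm : u + h ≤ m) :
    (X ^ u * bin h : ℝ[X]).support ⊆ Finset.range (m + 1) := fun s hs => by
  have := ((supp_X_pow u).mul (bin_supp h)) s (mem_support_iff.1 hs)
  exact Finset.mem_range.2 (by omega)

/-- the pair signal with a common hidden shift -/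
theorem omega_dom {P D : MA G} {β : ℝ} {K M₄ d r₀ : ℕ} (hP : Prob P)
    (hB : Bes (place P D (4 * M₄) K M₄ (3 * M₄)) (P ^ (4 * M₄)) β) (T : Finset ℕ)
    (hT : ∀ s ∈ T, r₀ ≤ s + M₄) (μ : ℕ → ℝ) :
    Dom (∑ s ∈ T, μ s • (place P D (4 * M₄) K M₄ (3 * M₄) (2 * M₄ + s - r₀) * (P ^ (4 * M₄)) ^ d *
        place P D (4 * M₄) K M₄ (3 * M₄) (2 * M₄ + s - r₀)))
      ((P ^ (4 * M₄)) ^ (d + 2)) (β ^ 2 * ∑ s ∈ T, μ s ^ 2) := by
  classical
  have hρ := hP.pow (4 * M₄)
  set ρ := P ^ (4 * M₄)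
  set A := place P D (4 * M₄) K M₄ (3 * M₄)
  have h := Dom.besL T (ρ := ρ) (R := ρ ^ d * ρ) (α := fun s => A (2 * M₄ + s - r₀))
    (μ := fun s => μ s • (ρ ^ d * A (2 * M₄ + s - r₀))) (β := β) (b := fun s => μ s ^ 2 * (1 * β))
    hρ.1 ((hρ.pow d).mul hρ).1 hB.1 (fun c => ?_) fun s _ =>
      (Dom.mul (hρ.pow d).1 hρ.1 (hρ.pow d).dom (hB.single _)).smul (μ s)
  · have e1 : ρ * (ρ ^ d * ρ) = ρ ^ (d + 2) := by
      rw [← pow_succ, ← pow_succ']
    have e2 : β * ∑ s ∈ T, μ s ^ 2 * (1 * β) = β ^ 2 * ∑ s ∈ T, μ s ^ 2 := by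
      rw [← Finset.sum_mul]; ring
    rw [e1, e2] at h
    simpa only [mul_smul_comm, mul_assoc] using h
  · have hinj : Set.InjOn (fun s => 2 * M₄ + s - r₀) T := fun s hs t ht h => by
      have := hT s hs; have := hT t ht
      simp only at h; omega
    have h1 := hB.finset (T.image fun s => 2 * M₄ + s - r₀) fun v => c (v + r₀ - 2 * M₄)
    rw [Finset.sum_image hinj, Finset.sum_image hinj] at h1
    have e : ∀ s ∈ T, 2 * M₄ + s - r₀ + r₀ - 2 * M₄ = s := fun s hs => by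
      have := hT s hs; omega
    rw [Finset.sum_congr rfl fun s hs => by rw [e s hs],
      Finset.sum_congr (s₁ := T) rfl (f := fun s => c (2 * M₄ + s - r₀ + r₀ - 2 * M₄) ^ 2)
        fun s hs => by rw [e s hs]] at h1
    exact h1

end PairA

open PairA in
/-- Blocks have `M = 4 M₄` letters, `ρ = P^M`, the defect `Δ' = P^(2M₄) D P^(2M₄-K)` sits in the
middle of a block; `c` is supported in `[m, 2m)`, the medium has `4m` blocks.
Proof. `r₀ = m/2`, `n' = 4mM - m(2J+1)`, `F s = ∑_i c_i P^(iM + 2M₄ - m(J+1) + s) D P^((d+1)M-K) D P^(…-s)`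
for `s ≤ m` (i.e. `F s = P^(a+s) * Z * P^(b-s)` with ONE core
`Z = ∑_i c_i P^((i-m)M) D P^((d+1)M-K) D P^((2m-1-i)M)`, `a = mM + 2M₄ - m(J+1)`,
`b = n' - a - |Z|`, `|Z| = (m-1)M + (d+1)M + K`), so the signal is `sm^[m] F 0` (`sm_iter_place`).
Use `smooth persp_dom` with `e = 1`, `R = m`,
`ψ j u h = nsq c * (2 (d+2) β² / √(h + j/8 + 1) + 2 m * bad (X^u * bin (h+j)))`, where `bad e` is the
sum of the coefficients of `e` over the bad set `s + M₄ < r₀ ∨ r₀ + M₄ < s`, `s ≤ m` (it is linear and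
`¼ bin 1 + ⅜ (1 + X) = bin 1`, so this part is an exact solution; `super_inv_sqrt` for the other).
Inner bound for `μ = X^u * bin h` (nonnegative, total 1, `nsq μ ≤ 1/√(h+1)`): split `μ` into good and
bad `s`. Bad: `Dom (F s) (P^n') (m * nsq c)` (`Dom D (P^K) 1`, `Dom.mul`, `Dom.sum_smul`, `n1_sq_le`)
and `(∑ bad μ)² ≤ ∑ bad μ`. Good: `p_s = 2M₄ + s - r₀ ∈ [M₄, 3M₄]`, `A_s = place P D M K M₄ (3M₄) p_s`,
`F s = P^o * (∑_i c_i ρ^(i-m) * (A_s ρ^d A_s) * ρ^(2m-(d+2)-(i-m))) * P^o'` with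
`o = mM - m(J+1) + r₀`, `o' = mM - mJ - r₀`; `ω = ∑_s μ_s A_s ρ^d A_s` has
`Dom ω (ρ^(d+2)) (β² nsq μ)` by `Dom.besL`, then `bes_place` (factor `d+2`).
At the end `bin_tail` and `1/√(m/8+1) ≤ 3/√m`. -/
theorem pair_main {P D : MA G} {β : ℝ} {J K M₄ m d : ℕ} (hP : Prob P) (hC : Coin P J (1 / 2))
    (hD0 : mass D = 0) (hD1 : Dom D (P ^ K) 1) (hK : K ≤ M₄) (hJ : J + 1 ≤ M₄)
    (hB : Bes (place P D (4 * M₄) K M₄ (3 * M₄)) (P ^ (4 * M₄)) β) (hd : d + 2 ≤ m)
    (c : ℝ[X]) (hc : Supp c m (2 * m - 1)) :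
    Dom (lin (fun i => (P ^ (4 * M₄)) ^ i *
        ((P ^ (2 * M₄) * D * P ^ (2 * M₄ - K)) * (P ^ (4 * M₄)) ^ d *
          (P ^ (2 * M₄) * D * P ^ (2 * M₄ - K))) * (P ^ (4 * M₄)) ^ (4 * m - (d + 2) - i)) c)
      ((P ^ (4 * M₄)) ^ (4 * m))
      ((6 * (d + 2) * β ^ 2 / √m + 4 * m * Real.exp (-(2 * (M₄ : ℝ) ^ 2 / m))) * nsq c) := by
  classical
  obtain ⟨c', rfl, hc'⟩ := hc.exists_shift le_rfl
  rw [lin_X_pow_mul, nsq_X_pow_mul]
  have hci : ∀ i, c'.coeff i ≠ 0 → i + 1 ≤ m := fun i hi => by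
    have := (hc' i hi).2; omega
  have hρ := hP.pow (4 * M₄)
  have hβ := hB.1
  set N := nsq c' with hN
  have hN0 : 0 ≤ N := nsq_nonneg _
  -- exponents
  obtain ⟨k', hk'⟩ : ∃ k', k' + K = M₄ := ⟨M₄ - K, by omega⟩
  obtain ⟨j', hj'⟩ : ∃ j', j' + J + 1 = M₄ := ⟨M₄ - (J + 1), by omega⟩
  obtain ⟨z, hz⟩ : ∃ z, z + d + 2 = m := ⟨m - (d + 2), by omega⟩
  have hmj : m * j' + m * J + m = m * M₄ := by rw [← hj']; ring
  have hmz : z * M₄ + d * M₄ + 2 * M₄ = m * M₄ := by rw [← hz]; ring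
  set mid := d * (4 * M₄) + 3 * M₄ + k' with hmid
  set W := D * P ^ mid * D with hW
  set a := 3 * (m * M₄) + m * j' + 2 * M₄ with ha
  set b := 3 * (m * M₄) + m * j' + m + (z + 1) * (4 * M₄) + M₄ + k' with hb
  set n' := 14 * (m * M₄) + 2 * (m * j') + m with hn'
  set Z := lin (fun i => P ^ (i * (4 * M₄)) * W * P ^ ((m - 1 - i) * (4 * M₄))) c' with hZ
  set F : ℕ → MA G := fun s => P ^ (a + s) * Z * P ^ (b - s) with hF
  set B := (Finset.range (m + 1)).filter fun s => s + M₄ < m / 2 ∨ m / 2 + M₄ < s with hBdef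
  have hWd : Dom W (P ^ (K + mid + K)) 1 := by
    have h1 := Dom.mul (hP.pow K).1 (hP.pow mid).1 hD1 (hP.pow mid).dom
    have h2 := Dom.mul ((hP.pow K).mul (hP.pow mid)).1 (hP.pow K).1 h1 hD1
    rw [one_mul, mul_one, ← pow_add, ← pow_add] at h2
    exact h2
  have hFs : ∀ s, F s = lin (fun i => P ^ (a + s + i * (4 * M₄)) * W *
      P ^ ((m - 1 - i) * (4 * M₄) + (b - s))) c' := fun s => by
    simp only [hF, hZ]
    rw [← lin_mul_left, ← lin_mul_right]
    simp only [nest]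
  have hbm : m ≤ b := by omega
  -- crude bound
  have crude : ∀ s ≤ m, Dom (F s) (P ^ n') (m * N) := fun s hs => by
    rw [hFs, lin_eq_sum _ _ _ subset_rfl]
    have h1 := Dom.sum_smul c'.support (fun i => c'.coeff i) (hP.pow n').1 zero_le_one
      (ν := fun i => P ^ (a + s + i * (4 * M₄)) * W * P ^ ((m - 1 - i) * (4 * M₄) + (b - s)))
      fun i hi => sand hP hWd _ _ _ (by
        obtain ⟨i', hi'⟩ : ∃ i', i' + i + 1 = m := ⟨m - (i + 1), by
          have := hci i (mem_support_iff.1 hi); omega⟩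
        obtain ⟨b', hb'⟩ : ∃ b', b' + s = b := ⟨b - s, by omega⟩
        rw [show m - 1 - i = i' by omega, show b - s = b' by omega]
        have h3 : i' * M₄ + i * M₄ + M₄ = m * M₄ := by rw [← hi']; ring
        linarith)
    refine h1.mono (hP.pow n').1 ?_
    rw [mul_one, ← n1_eq_sum _ _ subset_rfl]
    have := n1_sq_le c' (Finset.range m) fun i hi =>
      Finset.mem_range.2 (hci i (mem_support_iff.1 hi))
    rwa [Finset.card_range] at this
  -- good shifts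
  have good : ∀ (T : Finset ℕ) (μ : ℕ → ℝ), (∀ s ∈ T, s ≤ m ∧ m / 2 ≤ s + M₄ ∧ s ≤ m / 2 + M₄) →
      Dom (∑ s ∈ T, μ s • F s) (P ^ n') ((d + 2) * (β ^ 2 * ∑ s ∈ T, μ s ^ 2) * N) := by
    intro T μ hT
    have hω := omega_dom (d := d) (r₀ := m / 2) hP hB T (fun s hs => (hT s hs).2.1) μ
    set A := place P D (4 * M₄) K M₄ (3 * M₄) with hA
    set ω := ∑ s ∈ T, μ s • (A (2 * M₄ + s - m / 2) * (P ^ (4 * M₄)) ^ d *
      A (2 * M₄ + s - m / 2)) with hωdef
    have hω0 : mass ω = 0 := by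
      rw [hωdef, mass_sum]
      refine Finset.sum_eq_zero fun s _ => ?_
      rw [mass_smul, mass_mul, mass_place hD0, mul_zero, mul_zero]
    have h1 := (bes_place hρ (2 * m) (d + 2) 0 (m - 1) (by omega) (by omega) hω0 hω).2 c'
    rw [← pow_mul] at h1
    obtain ⟨r', hr'⟩ : ∃ r', r' + m / 2 = m := ⟨m - m / 2, by omega⟩
    have h2 := sand hP h1 (3 * (m * M₄) + m * j' + m / 2) (3 * (m * M₄) + m * j' + r') n'
      (by linarith)
    push_cast at h2
    convert h2 using 1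
    rw [← lin_mul_left, ← lin_mul_right]
    simp only [hFs, ← lin_fun_smul]
    rw [← lin_fun_sum]
    refine lin_congr fun i hi => ?_
    have hi1 := hci i hi
    unfold place
    rw [if_pos ⟨Nat.zero_le _, by omega⟩, hωdef]
    simp only [Finset.mul_sum, Finset.sum_mul, mul_smul_comm, smul_mul_assoc]
    refine Finset.sum_congr rfl fun s hs => ?_
    congr 1
    obtain ⟨h3, h4, h5⟩ := hT s hs
    obtain ⟨p, hp⟩ : ∃ p, p + m / 2 = 2 * M₄ + s := ⟨2 * M₄ + s - m / 2, by omega⟩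
    obtain ⟨p', hp'⟩ : ∃ p', p' + K + p = 4 * M₄ := ⟨4 * M₄ - K - p, by omega⟩
    obtain ⟨i', hi'⟩ : ∃ i', i' + i + 1 = m := ⟨m - (i + 1), by omega⟩
    obtain ⟨b', hb'⟩ : ∃ b', b' + s = b := ⟨b - s, by omega⟩
    rw [show 2 * M₄ + s - m / 2 = p by omega, show m - 1 - i = i' by omega,
      show b - s = b' by omega, show 2 * m - (d + 2) - i = i' + (z + 1) by omega]
    have eA : A p = P ^ p * D * P ^ p' := by
      simp only [hA, place]
      rw [if_pos ⟨by omega, by omega⟩, show 4 * M₄ - K - p = p' by omega]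
    rw [eA, ← pow_mul, ← pow_mul, ← pow_mul, two P D p p' _ p p' mid (by linarith), nest, nest]
    congr 2
    · congr 1
      linarith
    · linarith
  have key := smooth persp_dom hP hC F n' 1 m
    (fun j u h => N * (2 * (d + 2) * β ^ 2 * (1 / √((h : ℝ) + j / 8 + 1)) +
      2 * m * bad B (X ^ u * bin (h + j)))) (fun r u h => ?_) (fun u h huh => ?_) m 0 0 (by omega)
  · rw [pow_zero, bin_zero, one_mul, one_mul, lin_one,
      sm_iter_place P Z J a b 0 m hbm F (fun _ _ _ => rfl) m 0 le_rfl (by omega),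
      show n' + m * (2 * J + 1) = 4 * M₄ * (4 * m) by linarith, pow_mul] at key
    have e : lin (fun s => (P ^ (4 * M₄)) ^ (s + m) *
        ((P ^ (2 * M₄) * D * P ^ (2 * M₄ - K)) * (P ^ (4 * M₄)) ^ d *
          (P ^ (2 * M₄) * D * P ^ (2 * M₄ - K))) * (P ^ (4 * M₄)) ^ (4 * m - (d + 2) - (s + m))) c' =
        P ^ (a + m * (J + 1) + 0) * Z * P ^ (b + m * J - 0) := by
      rw [hZ, ← lin_mul_left, ← lin_mul_right]
      refine lin_congr fun i hi => ?_
      obtain ⟨i', hi'⟩ : ∃ i', i' + i + 1 = m := ⟨m - (i + 1), by have := hci i hi; omega⟩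
      rw [show m - 1 - i = i' by omega, show 4 * m - (d + 2) - (i + m) = i' + m + (z + 1) by omega,
        show 2 * M₄ - K = M₄ + k' by omega, ← pow_mul, ← pow_mul, ← pow_mul,
        two P D _ _ _ _ _ mid (by linarith), nest, nest, Nat.sub_zero]
      congr 2
      · congr 1
        linarith
      · linarith
    rw [e]
    refine key.mono (hρ.pow _).1 ?_
    rw [mul_comm N]
    refine mul_le_mul_of_nonneg_right (add_le_add ?_ ?_) hN0
    · have hm : (0 : ℝ) < m := by exact_mod_cast (show 0 < m by omega)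
      have h1 : 1 / √(((0 : ℕ) : ℝ) + m / 8 + 1) ≤ 3 / √m := by
        rw [div_le_div_iff₀ (Real.sqrt_pos.2 (by positivity)) (Real.sqrt_pos.2 hm), one_mul,
          Real.sqrt_le_left (by positivity), mul_pow, Real.sq_sqrt (by positivity)]
        push_cast
        linarith
      calc 2 * ((d : ℝ) + 2) * β ^ 2 * (1 / √(((0 : ℕ) : ℝ) + m / 8 + 1))
          ≤ 2 * ((d : ℝ) + 2) * β ^ 2 * (3 / √m) := mul_le_mul_of_nonneg_left h1 (by positivity)
        _ = 6 * (d + 2) * β ^ 2 / √m := by ring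
    · have h1 := bin_tail m M₄ (by omega)
      rw [zero_add, one_mul]
      have h2 : bad B (bin m) ≤ 2 * Real.exp (-(2 * (M₄ : ℝ) ^ 2 / m)) := h1
      have := mul_le_mul_of_nonneg_left h2 (show (0 : ℝ) ≤ 2 * m by positivity)
      linarith
  · have h1 := super_inv_sqrt (c := 1 / 4) (x := (h : ℝ) + r / 8 + 1) (by norm_num) (by norm_num)
      (by have : (0 : ℝ) ≤ (h : ℝ) + r / 8 := by positivity
          linarith)
    have h2 := bad_succ B u (h + r)
    rw [show h + 1 + r = h + r + 1 by ring, show h + (r + 1) = h + r + 1 by ring]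
    push_cast
    rw [show (h : ℝ) + 1 + r / 8 + 1 = h + r / 8 + 1 + 1 by ring,
      show (h : ℝ) + (r + 1) / 8 + 1 = h + r / 8 + 1 + 1 / 4 / 2 by ring, h2]
    have h3 := mul_le_mul_of_nonneg_left h1
      (show 0 ≤ N * (2 * ((d : ℝ) + 2) * β ^ 2) by positivity)
    linarith
  · rw [mul_one, lin_eq_sum _ _ _ (mu_supp huh),
      ← Finset.sum_filter_not_add_sum_filter _ (fun s => s + M₄ < m / 2 ∨ m / 2 + M₄ < s)]
    set μ := (X ^ u * bin h : ℝ[X]) with hμ
    have h1 := good ((Finset.range (m + 1)).filter fun s => ¬ (s + M₄ < m / 2 ∨ m / 2 + M₄ < s))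
      (fun s => μ.coeff s) fun s hs => by
        obtain ⟨h3, h4⟩ := Finset.mem_filter.1 hs
        have := Finset.mem_range.1 h3
        omega
    have h2 := Dom.sum_smul B (fun s => μ.coeff s) (hP.pow n').1 (ν := F) (b := m * N)
      (by positivity) fun s hs => crude s (by
        have := Finset.mem_range.1 (Finset.mem_filter.1 hs).1
        omega)
    refine (Dom.add (hP.pow n').1 h1 h2).mono (hP.pow n').1 ?_
    have e1 : ∑ s ∈ B, |μ.coeff s| = bad B μ :=
      Finset.sum_congr rfl fun s _ => abs_of_nonneg (mu_nonneg u h s)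
    have h3 : bad B μ ≤ 1 := by
      rw [← e1, ← n1_bin h, ← n1_X_pow_mul u, n1_eq_sum _ _ (mu_supp huh)]
      exact Finset.sum_le_sum_of_subset_of_nonneg (Finset.filter_subset _ _)
        fun _ _ _ => abs_nonneg _
    have h4 : 0 ≤ bad B μ := Finset.sum_nonneg fun s _ => mu_nonneg u h s
    have h5 : ∑ s ∈ (Finset.range (m + 1)).filter (fun s => ¬ (s + M₄ < m / 2 ∨ m / 2 + M₄ < s)),
        μ.coeff s ^ 2 ≤ 1 / √((h : ℝ) + 1) := by
      refine le_trans ?_ (nsq_bin h)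
      rw [← nsq_X_pow_mul u, nsq_eq_sum _ _ (mu_supp huh)]
      exact Finset.sum_le_sum_of_subset_of_nonneg (Finset.filter_subset _ _)
        fun _ _ _ => sq_nonneg _
    rw [e1, add_zero, Nat.cast_zero, zero_div, add_zero]
    have h6 := mul_le_mul_of_nonneg_left h5 (show 0 ≤ ((d : ℝ) + 2) * β ^ 2 * N by positivity)
    have h7 : bad B μ ^ 2 ≤ bad B μ := by nlinarith
    have h8 := mul_le_mul_of_nonneg_left h7 (show 0 ≤ (m : ℝ) * N by positivity)
    linarith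

end Crest.Agent.R300
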