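import Crest.Agent.R300.Step

/-! Parameters of the hierarchy (definitions and elementary facts only). -/

set_option autoImplicit false

namespace Crest.Agent.R300

/-- unit of level `l`: `t_l = 2^(h 2^l)`, so `t_0 = H = 2^h` and `t_(l+1) = t_l²` -/
def tt (h l : ℕ) : ℕ := 2 ^ (h * 2 ^ l)

def jj (E l : ℕ) : ℕ := 40 * E + 2 * l

/-- coin window (and bound for the word length) of level `l` -/
def JJ (h E l : ℕ) : ℕ := tt h l ^ jj E l

/-- a quarter of the number of level-`l` letters in a level-`(l+1)` letter -/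
def M4 (h E l : ℕ) : ℕ := tt h l ^ (jj E l + 3) / 4

/-- exponent of the chi-square bound of level `l` -/
def bb (E l : ℕ) : ℕ := if l ≤ 192 then (56 + l) * E else 248 * E + (l - 192) * (10 * E - 1)

structure Par (q : ℝ) (h E L k : ℕ) : Prop where
  q0 : 0 < q
  q1 : q < 1
  hq : 2 ^ 25 / q ^ 3 ≤ h
  hL : 6 ≤ L
  hE : 2 * L ≤ E
  hk : (540 + 20 * L) * E ≤ k
  hh : (k + 3) * L ≤ h
  hH : 10 * h * 2 ^ L * k ≤ 2 ^ h

/-- data of level `l` with chi-square exponent `b` -/
structure Dat (q : ℝ) (h E k l b : ℕ) (x y : List Bool) (P Δ : MA (FreeMonoid Bool)) : Prop where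
  len : x.length = y.length
  le : x.length ≤ JJ h E l
  ne : x ≠ y
  pP : Prob P
  pQ : Prob (P + Δ)
  lx : L1 (P - law q x) (JJ h E l * Real.exp (-(2 ^ h / 2)))
  ly : L1 (P + Δ - law q y) (JJ h E l * Real.exp (-(2 ^ h / 2)))
  dom : Dom Δ P (1 / (tt h l : ℝ) ^ b)
  abs : Abs Δ ((8 * 2 ^ k) ^ l / (2 ^ h) ^ 3) P
  coin : Coin P (JJ h E l) (1 / 2)

/-- Bessel bound for the defect of level `l + 1` in the medium of level `l` -/
def BesAt (h E k l : ℕ) (P Δ : MA (FreeMonoid Bool)) : Prop :=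
  Bes (place P (dfc P Δ k) (4 * M4 h E l) (2 ^ k) (M4 h E l) (3 * M4 h E l)) (P ^ (4 * M4 h E l))
    (1 / (2 * (tt h (l + 1) : ℝ) ^ bb E (l + 1)))

theorem tt_succ (h l : ℕ) : tt h (l + 1) = tt h l ^ 2 := by
  unfold tt; rw [← pow_mul, pow_succ, mul_assoc]

theorem tt_zero (h : ℕ) : tt h 0 = 2 ^ h := by simp [tt]

theorem tt_pos (h l : ℕ) : 0 < tt h l := by unfold tt; positivity

theorem two_pow_le_tt (h l : ℕ) : 2 ^ h ≤ tt h l :=
  Nat.pow_le_pow_right (by norm_num) (Nat.le_mul_of_pos_right _ (by positivity))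

theorem jj_succ (E l : ℕ) : jj E (l + 1) = jj E l + 2 := by unfold jj; ring

theorem JJ_succ (h E l : ℕ) : JJ h E (l + 1) = tt h l ^ (2 * jj E l + 4) := by
  unfold JJ; rw [tt_succ, jj_succ, ← pow_mul]; congr 1

/-- `t^(j+3)` is divisible by every `2^a`, `a ≤ h` -/
theorem two_pow_dvd (h E l a : ℕ) (ha : a ≤ h) : 2 ^ a ∣ tt h l ^ (jj E l + 3) := by
  refine Dvd.dvd.trans ?_ (dvd_pow_self _ (by omega))
  unfold tt
  exact pow_dvd_pow _ (ha.trans (Nat.le_mul_of_pos_right _ (by positivity)))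

theorem four_M4 (h E l : ℕ) (hh : 2 ≤ h) : 4 * M4 h E l = tt h l ^ (jj E l + 3) := by
  unfold M4
  exact Nat.mul_div_cancel' (by simpa using two_pow_dvd h E l 2 hh)

namespace Par
variable {q : ℝ} {h E L k : ℕ} (p : Par q h E L k)
include p

theorem E_ge : 12 ≤ E := by have := p.hL; have := p.hE; omega

theorem k_ge : 6480 ≤ k := by
  have h1 := p.hk; have h2 := p.E_ge; nlinarith

theorem h_ge : 6 * k + 18 ≤ h := by
  have h1 := p.hh; have h2 := p.hL; nlinarith

theorem jj_le {l : ℕ} (hl : l ≤ L) : jj E l ≤ 41 * E := by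
  unfold jj; have := p.hE; omega

theorem bb_ge {l : ℕ} (hl : 1 ≤ l) : 57 * E ≤ bb E l := by
  unfold bb; split_ifs
  · exact Nat.mul_le_mul_right _ (by omega)
  · omega

theorem bb_le {l : ℕ} (hl : l ≤ L) : 2 * bb E l + 44 * E ≤ k := by
  have hk := p.hk
  have : bb E l ≤ 248 * E + 10 * L * E := by
    unfold bb; split_ifs with h1
    · have : (56 + l) * E ≤ 248 * E := Nat.mul_le_mul_right _ (by omega)
      omega
    · have : (l - 192) * (10 * E - 1) ≤ L * (10 * E) := Nat.mul_le_mul (by omega) (by omega)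
      nlinarith
  nlinarith

end Par

end Crest.Agent.R300
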