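import Crest.Agent.R300.First
import Crest.Agent.R300.Pat

/-! Task STEP: from the pair bound to the Bessel bound of the next level. -/

set_option autoImplicit false
set_option linter.unusedSectionVars false

namespace Crest.Agent.R300

open Polynomial

variable {G : Type} [Monoid G]

/-- the defect of the next level -/
noncomputable def dfc (P Δ : MA G) (k : ℕ) : MA G := pat P Δ ((tm k).map not) - pat P Δ (tm k)

theorem bes_place_of_supp {P σ ρ : MA G} {β : ℝ} {n κ lo hi : ℕ} (hρ : NN ρ) (hβ : 0 ≤ β)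
    (h : ∀ e : ℝ[X], Supp e lo hi →
      Dom (lin (fun s => P ^ s * σ * P ^ (n - κ - s)) e) ρ (β * nsq e)) :
    Bes (place P σ n κ lo hi) ρ β := by
  refine ⟨hβ, fun e => ?_⟩
  set T := e.support.filter fun s => lo ≤ s ∧ s ≤ hi with hT
  have hc : ∀ i, (∑ v ∈ T, monomial v (e.coeff v) : ℝ[X]).coeff i =
      if i ∈ T then e.coeff i else 0 := fun i => by simp [coeff_monomial]
  have hs : (∑ v ∈ T, monomial v (e.coeff v) : ℝ[X]).support ⊆ T := fun i hi => by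
    by_contra hn
    exact mem_support_iff.1 hi (by rw [hc, if_neg hn])
  have h1 := h (∑ v ∈ T, monomial v (e.coeff v)) fun i hi =>
    (Finset.mem_filter.1 (hs (mem_support_iff.2 hi))).2
  rw [lin_eq_sum _ _ T hs, nsq_eq_sum _ T hs] at h1
  rw [Finset.sum_congr rfl (g := fun v => e.coeff v • (P ^ v * σ * P ^ (n - κ - v)))
      fun i hi => by rw [hc, if_pos hi],
    Finset.sum_congr rfl (g := fun v => e.coeff v ^ 2) fun i hi => by rw [hc, if_pos hi]] at h1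
  have e1 : lin (place P σ n κ lo hi) e =
      ∑ v ∈ T, e.coeff v • (P ^ v * σ * P ^ (n - κ - v)) := by
    rw [lin_eq_sum _ _ _ subset_rfl, hT, Finset.sum_filter]
    refine Finset.sum_congr rfl fun s _ => ?_
    unfold place
    split_ifs
    exacts [rfl, smul_zero _]
  rw [e1]
  exact h1.mono hρ (mul_le_mul_of_nonneg_left (sum_sq_le_nsq e T) hβ)

theorem one_add_pow_count_le {η : ℝ} (hη : 0 ≤ η) {c K : ℕ} (hc : c ≤ K) (h : K * η ≤ 1) :
    (1 + η) ^ c - 1 ≤ 2 * K * η := by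
  have h1 : (1 + η) ^ c ≤ (1 + η) ^ K := pow_le_pow_right₀ (by linarith) hc
  linarith [one_add_pow_le hη K h]

/-- `pat_decomp` for `tm k`. WLOG `e` is supported in `[M₄, 3M₄]` (drop the other coefficients: `nsq`
decreases, `lin` is unchanged). First order: `lin_mul`, `sgnPoly_tm`, `first_order`. Second order: for each
`(i,d)` the term is `w i d • lin (place P (Δ P^d Δ) M (d+2) M₄ (3M₄+K)) (X^i * e)`, `Dom.sum` over the `K²`
pairs. Third order: `bes_place`. `Dom.add₃`. -/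
theorem step_bes {P Δ : MA G} {η βp : ℝ} {J k M₄ r : ℕ} (hP : Prob P) (h0 : mass Δ = 0)
    (hΔ : Dom Δ P η) (hC : Coin P J (1 / 2)) (hr : 0 < r) (hM : k * (r * (J + 1)) + 2 * 2 ^ k ≤ M₄)
    (hη : 2 ^ k * η ≤ 1) (hβp : 0 ≤ βp)
    (hp : ∀ d, d + 2 ≤ 2 ^ k →
      Bes (place P (Δ * P ^ d * Δ) (4 * M₄) (d + 2) M₄ (3 * M₄ + 2 ^ k)) (P ^ (4 * M₄)) βp) :
    Bes (place P (dfc P Δ k) (4 * M₄) (2 ^ k) M₄ (3 * M₄)) (P ^ (4 * M₄))
      (3 * (η * (32 * 4 ^ k / r) ^ k + (2 ^ k) ^ 4 * βp + 4 * 2 ^ k * (2 ^ k * η) ^ 3)) := by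
  have hη0 := hΔ.1
  have hr' : (0 : ℝ) < r := by exact_mod_cast hr
  obtain ⟨w, R₃, hw1, hw2, hR0, hR, hdec⟩ := pat_decomp hP h0 hΔ (tm k)
    (by rw [tm_length]; push_cast; exact hη)
  rw [tm_length] at hw2 hR hdec
  rw [sgnPoly_tm] at hdec
  have hK : 0 < 2 ^ k := by positivity
  have hρ := hP.1.pow (4 * M₄)
  refine bes_place_of_supp hρ (by positivity) fun e he => ?_
  have hn := nsq_nonneg e
  have d1 := first_order hP hC h0 hΔ r hr k (4 * M₄) e M₄ (3 * M₄) he (by omega) (by omega)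
  have d3 := (bes_place hP (4 * M₄) (2 ^ k) M₄ (3 * M₄) hK (by omega) hR0 hR).2 e
  have d2 : ∀ i ∈ Finset.range (2 ^ k), ∀ d ∈ Finset.range (2 ^ k),
      Dom (w i d • lin (fun s => P ^ s * (P ^ i * (Δ * P ^ d * Δ) * P ^ (2 ^ k - (d + 2) - i)) *
        P ^ (4 * M₄ - 2 ^ k - s)) e) (P ^ (4 * M₄)) (βp * nsq e) := by
    intro i _ d _
    by_cases hw : w i d = 0
    · rw [hw, zero_smul]; exact Dom.zero hρ (by positivity)
    have h1 := hw2 i d hw
    have h2 := (hp d (by omega)).2 (X ^ i * e)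
    rw [nsq_X_pow_mul, lin_X_pow_mul] at h2
    have e1 : lin (fun s => P ^ s * (P ^ i * (Δ * P ^ d * Δ) * P ^ (2 ^ k - (d + 2) - i)) *
        P ^ (4 * M₄ - 2 ^ k - s)) e = lin (fun s =>
          place P (Δ * P ^ d * Δ) (4 * M₄) (d + 2) M₄ (3 * M₄ + 2 ^ k) (s + i)) e := by
      refine lin_congr fun s hs => ?_
      have := he s hs
      rw [place, if_pos (by omega), show 4 * M₄ - (d + 2) - (s + i) =
        (2 ^ k - (d + 2) - i) + (4 * M₄ - 2 ^ k - s) by omega, pow_add, pow_add]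
      simp only [mul_assoc]
    rw [e1]
    refine (h2.smul (w i d)).mono hρ (mul_le_of_le_one_left (by positivity) ?_)
    rw [← sq_abs]
    exact pow_le_one₀ (abs_nonneg _) (hw1 i d)
  have d2' := Dom.sum _ hρ fun i hi => Dom.sum _ hρ (d2 i hi)
  have e1 : lin (fun s => P ^ s * lin (fun i => P ^ i * Δ * P ^ (2 ^ k - 1 - i)) (tmP k) *
      P ^ (4 * M₄ - 2 ^ k - s)) e =
      lin (fun i => P ^ i * Δ * P ^ (4 * M₄ - 1 - i)) (e * tmP k) := by
    rw [lin_mul]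
    refine lin_congr fun s hs => ?_
    have := he s hs
    rw [← lin_mul_left, ← lin_mul_right]
    refine lin_congr fun i hi => ?_
    have := tmP_supp k i hi
    rw [show 4 * M₄ - 1 - (i + s) = (2 ^ k - 1 - i) + (4 * M₄ - 2 ^ k - s) by omega, add_comm i s,
      pow_add, pow_add]
    simp only [mul_assoc]
  have e3 : lin (fun s => P ^ s * R₃ * P ^ (4 * M₄ - 2 ^ k - s)) e =
      lin (place P R₃ (4 * M₄) (2 ^ k) M₄ (3 * M₄)) e :=
    lin_congr fun s hs => by rw [place, if_pos (he s hs)]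
  have key := Dom.add₃ hρ d1 d2' d3
  rw [← e1, ← e3] at key
  simp only [dfc, hdec, mul_add, add_mul, Finset.mul_sum, Finset.sum_mul, mul_smul_comm,
    smul_mul_assoc, lin_fun_add, lin_fun_sum, lin_fun_smul]
  refine key.mono hρ (le_of_eq ?_)
  simp only [Finset.sum_const, Finset.card_range, nsmul_eq_mul]
  push_cast
  ring

/-- Letter facts of the next level: `dom_pat`, `abs_pat` (`(1+θ)^K - 1 ≤ 2Kθ ≤ 1/2`, so
`P^M ≤ 2 • U`), `Bes.single` at `2M₄`, `Dom.ref`, `Abs.trans_le`, `pat_blk`. -/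
theorem step_letter {P Δ : MA G} {η θ β : ℝ} {k M₄ : ℕ} (hP : Prob P) (hQ : Prob (P + Δ))
    (hΔ : Dom Δ P η) (hA : Abs Δ θ P) (hθ0 : 0 ≤ θ) (hK : 2 ^ k ≤ M₄) (hη : 8 * 2 ^ k * η ≤ 1)
    (hθ : 4 * 2 ^ k * θ ≤ 1)
    (hB : Bes (place P (dfc P Δ k) (4 * M₄) (2 ^ k) M₄ (3 * M₄)) (P ^ (4 * M₄)) β) :
    mass (dfc P Δ k) = 0 ∧ Dom (dfc P Δ k) (P ^ 2 ^ k) 1 ∧
      pat P Δ (blk (4 * M₄) (tm k)) + P ^ (2 * M₄) * dfc P Δ k * P ^ (2 * M₄ - 2 ^ k) =
        pat P Δ (blk (4 * M₄) ((tm k).map not)) ∧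
      Dom (P ^ (2 * M₄) * dfc P Δ k * P ^ (2 * M₄ - 2 ^ k)) (pat P Δ (blk (4 * M₄) (tm k)))
        (2 * β) ∧
      Abs (P ^ (2 * M₄) * dfc P Δ k * P ^ (2 * M₄ - 2 ^ k)) (8 * 2 ^ k * θ)
        (pat P Δ (blk (4 * M₄) (tm k))) := by
  have hη0 := hΔ.1
  have h0 := mass_eq_zero_of_prob hP hQ
  have hK0 : (0 : ℝ) < 2 ^ k := by positivity
  have hl : ((tm k).map not).length = 2 ^ k := by rw [List.length_map, tm_length]
  have hcnt : ∀ l : List Bool, l.length = 2 ^ k → l.count true ≤ 2 ^ k := fun l h =>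
    h ▸ List.count_le_length
  have e0 : dfc P Δ k = (pat P Δ ((tm k).map not) - P ^ 2 ^ k) - (pat P Δ (tm k) - P ^ 2 ^ k) := by
    rw [dfc]; abel
  have hD : ∀ l : List Bool, l.length = 2 ^ k →
      Dom (pat P Δ l - P ^ 2 ^ k) (P ^ 2 ^ k) (1 / 4) := fun l h => by
    have := dom_pat hP h0 hΔ l
    rw [h] at this
    refine this.mono (hP.1.pow _) ((one_add_pow_count_le hη0 (hcnt l h) ?_).trans ?_)
    · push_cast; nlinarith
    · push_cast; linarith
  have hAb : ∀ l : List Bool, l.length = 2 ^ k →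
      Abs (pat P Δ l - P ^ 2 ^ k) (2 * 2 ^ k * θ) (P ^ 2 ^ k) := fun l h => by
    have := abs_pat hP.1 hθ0 hA l
    rw [h] at this
    refine this.mono (hP.1.pow _) ((one_add_pow_count_le hθ0 (hcnt l h) ?_).trans ?_)
    · push_cast; nlinarith
    · push_cast; linarith
  have hblk : ∀ l : List Bool, l.length = 2 ^ k → pat P Δ (blk (4 * M₄) l) =
      P ^ (2 * M₄) * pat P Δ l * P ^ (2 * M₄ - 2 ^ k) := fun l h => by
    rw [pat_blk, h, show 4 * M₄ / 2 = 2 * M₄ by omega,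
      show 4 * M₄ - 2 * M₄ - 2 ^ k = 2 * M₄ - 2 ^ k by omega]
  have hpow : P ^ (2 * M₄) * P ^ 2 ^ k * P ^ (2 * M₄ - 2 ^ k) = P ^ (4 * M₄) := by
    rw [← pow_add, ← pow_add]; congr 1; omega
  have sand : ∀ {ν : MA G} {κ : ℝ}, Abs ν κ (P ^ 2 ^ k) →
      Abs (P ^ (2 * M₄) * ν * P ^ (2 * M₄ - 2 ^ k)) κ (P ^ (4 * M₄)) := fun h => by
    have := ((Abs.refl (hP.1.pow (2 * M₄))).mul h).mul (Abs.refl (hP.1.pow (2 * M₄ - 2 ^ k)))
    rwa [one_mul, mul_one, hpow] at this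
  have hle : Le (P ^ (4 * M₄)) ((2 : ℝ) • pat P Δ (blk (4 * M₄) (tm k))) := by
    have h1 := (sand (hAb _ (tm_length k))).mono (hP.1.pow _) (show _ ≤ (1 / 2 : ℝ) by linarith)
    rw [mul_sub, sub_mul, hpow, ← hblk _ (tm_length k)] at h1
    refine le_of_ev fun f hf => ?_
    have h2 := h1.2.ev hf
    rw [ev_neg, ev_sub, ev_smul] at h2
    rw [ev_smul]; linarith
  refine ⟨?_, ?_, ?_, ?_, ?_⟩
  · rw [dfc, mass_sub, (prob_pat hP hQ _).2, (prob_pat hP hQ _).2, sub_self]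
  · rw [e0]
    exact ((hD _ hl).sub (hP.1.pow _) (hD _ (tm_length k))).mono (hP.1.pow _) (by norm_num)
  · rw [hblk _ hl, hblk _ (tm_length k), dfc, mul_sub, sub_mul]; abel
  · have h1 := hB.single (2 * M₄)
    rw [place, if_pos (by omega), show 4 * M₄ - 2 ^ k - 2 * M₄ = 2 * M₄ - 2 ^ k by omega] at h1
    exact h1.ref (by norm_num) hle
  · have h1 := (sand ((hAb _ hl).sub (hAb _ (tm_length k)))).trans_le (by positivity) hle
    rw [← e0] at h1
    convert h1 using 1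
    ring

end Crest.Agent.R300
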