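import Crest.Agent.R300.Dom
import Crest.Agent.R300.Poly

/-! Task TL: translates of mean-zero signals are almost orthogonal. -/

set_option autoImplicit false
set_option linter.unusedSectionVars false

namespace Crest.Agent.R300

open Polynomial

variable {G : Type} [Monoid G]

/-- Disjoint signals are orthogonal. Induction on `T` (remove the SMALLEST position, generalising
`n` and `p`): with `p₀` minimal, `ρ^n = ρ^(p₀+κ) * ρ^(n-p₀-κ)`, the first term is
`(ρ^p₀ * ω) * ρ^(n-κ-p₀)` (mean zero left factor), the others are `ρ^(p₀+κ) * (…)`; `Dom.orthL₁`. -/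
theorem tl_disj {ρ : MA G} (hρ : Prob ρ) (κ : ℕ) (T : Finset ℕ) (ω : ℕ → MA G) (b : ℕ → ℝ)
    (n : ℕ) (p : ℕ → ℕ) (hT : ∀ j ∈ T, p j + κ ≤ n)
    (hd : ∀ i ∈ T, ∀ j ∈ T, i < j → p i + κ ≤ p j)
    (h0 : ∀ j ∈ T, mass (ω j) = 0) (hω : ∀ j ∈ T, Dom (ω j) (ρ ^ κ) (b j)) :
    Dom (∑ j ∈ T, ρ ^ p j * ω j * ρ ^ (n - κ - p j)) (ρ ^ n) (∑ j ∈ T, b j) := by
  induction T using Finset.induction_on_min generalizing n p with
  | empty => simpa using Dom.zero (hρ.1.pow n) le_rfl
  | insert a T ha ih =>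
    have haT : a ∉ T := fun h => lt_irrefl _ (ha a h)
    have hA := Finset.mem_insert_self a T
    have hI : ∀ j ∈ T, j ∈ insert a T := fun j hj => Finset.mem_insert_of_mem hj
    have hn := hT a hA
    have hp : ∀ j ∈ T, p a + κ ≤ p j := fun j hj => hd a hA j (hI j hj) (ha j hj)
    have h1 := ih (n - κ - p a) (fun j => p j - (p a + κ))
      (fun j hj => by have := hT j (hI j hj); have := hp j hj; omega)
      (fun i hi j hj hij => by
        have := hd i (hI i hi) j (hI j hj) hij; have := hp i hi; have := hp j hj; omega)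
      (fun j hj => h0 j (hI j hj)) (fun j hj => hω j (hI j hj))
    have h2 : Dom (ρ ^ p a * ω a) (ρ ^ (p a + κ)) (b a) := by
      have := Dom.mul (hρ.1.pow (p a)) (hρ.1.pow κ) (hρ.pow (p a)).dom (hω a hA)
      rwa [one_mul, ← pow_add] at this
    have h3 := Dom.orthL₁ (hρ.pow (p a + κ)) (hρ.1.pow (n - κ - p a)) h1
      (by rw [mass_mul, h0 a hA, mul_zero]) h2 (hρ.pow (n - κ - p a)).dom
    rw [← pow_add, show p a + κ + (n - κ - p a) = n by omega, Finset.mul_sum] at h3
    rw [Finset.sum_insert haT, Finset.sum_insert haT, add_comm, add_comm (b a)]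
    convert h3 using 2
    · refine Finset.sum_congr rfl fun j hj => ?_
      have := hT j (hI j hj); have := hp j hj
      rw [← mul_assoc, ← mul_assoc, ← pow_add, show p a + κ + (p j - (p a + κ)) = p j by omega,
        show n - κ - p a - κ - (p j - (p a + κ)) = n - κ - p j by omega]
    · rw [mul_one]

/-- signals of length `κ ≤ w m` at positions `o + j m`: split `j` by its residue mod `w`
(`Finset.sum_fiberwise`), `tl_disj` in each class, `Dom.sum` over the `w` classes. -/
theorem tl {ρ : MA G} (hρ : Prob ρ) (n κ m w o : ℕ) (hw : 0 < w) (hκ : κ ≤ w * m)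
    (T : Finset ℕ) (ω : ℕ → MA G) (b : ℕ → ℝ) (hT : ∀ j ∈ T, o + j * m + κ ≤ n)
    (h0 : ∀ j ∈ T, mass (ω j) = 0) (hω : ∀ j ∈ T, Dom (ω j) (ρ ^ κ) (b j)) :
    Dom (∑ j ∈ T, ρ ^ (o + j * m) * ω j * ρ ^ (n - κ - (o + j * m))) (ρ ^ n)
      (w * ∑ j ∈ T, b j) := by
  have hmap : ∀ j ∈ T, j % w ∈ Finset.range w := fun j _ => Finset.mem_range.2 (Nat.mod_lt _ hw)
  rw [← Finset.sum_fiberwise_of_maps_to hmap, ← Finset.sum_fiberwise_of_maps_to hmap b]
  have := Dom.sum (Finset.range w) (ρ := ρ ^ n) (hρ.1.pow n)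
    (ν := fun c => ∑ j ∈ T with j % w = c, ρ ^ (o + j * m) * ω j * ρ ^ (n - κ - (o + j * m)))
    (b := fun c => ∑ j ∈ T with j % w = c, b j) fun c _ =>
      tl_disj hρ κ _ ω b n (fun j => o + j * m) (fun j hj => hT j (Finset.mem_filter.1 hj).1)
        (fun i hi j hj hij => by
          have h1 := (Finset.mem_filter.1 hi).2
          have h2 := (Finset.mem_filter.1 hj).2
          have h3 : i + w ≤ j := by
            have h4 : w ∣ j - i := (Nat.modEq_iff_dvd' hij.le).1 (h1.trans h2.symm)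
            have := Nat.le_of_dvd (by omega) h4
            omega
          have := Nat.mul_le_mul_right m h3
          rw [add_mul] at this
          show o + i * m + κ ≤ o + j * m
          omega)
        (fun j hj => h0 j (Finset.mem_filter.1 hj).1) (fun j hj => hω j (Finset.mem_filter.1 hj).1)
  rwa [Finset.card_range] at this

/-- `tl` with `m = 1`, `w = κ`, `ω j = e_j • σ` -/
theorem bes_place {ρ σ : MA G} (hρ : Prob ρ) (n κ lo hi : ℕ) (hκ : 0 < κ) (hhi : hi + κ ≤ n)
    {b : ℝ} (h0 : mass σ = 0) (hσ : Dom σ (ρ ^ κ) b) :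
    Bes (place ρ σ n κ lo hi) (ρ ^ n) (κ * b) := by
  refine ⟨mul_nonneg (Nat.cast_nonneg _) hσ.1, fun e => ?_⟩
  have h1 := tl hρ n κ 1 κ 0 hκ (by omega) (e.support.filter fun s => lo ≤ s ∧ s ≤ hi)
    (fun s => e.coeff s • σ) (fun s => e.coeff s ^ 2 * b)
    (fun j hj => by have := (Finset.mem_filter.1 hj).2; omega)
    (fun j _ => by rw [mass_smul, h0, mul_zero]) (fun j _ => hσ.smul _)
  have e1 : lin (place ρ σ n κ lo hi) e = ∑ j ∈ e.support.filter fun s => lo ≤ s ∧ s ≤ hi,
      ρ ^ (0 + j * 1) * (e.coeff j • σ) * ρ ^ (n - κ - (0 + j * 1)) := by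
    rw [lin_eq_sum _ e _ subset_rfl, Finset.sum_filter]
    refine Finset.sum_congr rfl fun j _ => ?_
    unfold place
    split_ifs
    · simp
    · simp
  rw [e1]
  refine h1.mono (hρ.1.pow n) ?_
  rw [← Finset.sum_mul, mul_assoc, mul_comm b]
  exact mul_le_mul_of_nonneg_left (mul_le_mul_of_nonneg_right (sum_sq_le_nsq e _) hσ.1)
    (Nat.cast_nonneg _)

theorem mass_place {ρ σ : MA G} (h0 : mass σ = 0) (n κ lo hi s : ℕ) :
    mass (place ρ σ n κ lo hi s) = 0 := by
  unfold place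
  split_ifs
  · rw [mass_mul, mass_mul, h0, mul_zero, zero_mul]
  · exact mass_zero

end Crest.Agent.R300
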